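import Vale.Agent.P166.Plant.ConcGauss

/-!
# P166: the log-likelihood under planting is exponentially concentrated
-/

namespace Vale.Agent.P166.High.Planted

open MeasureTheory ProbabilityTheory Matrix
open Vale.Agent.P166.Plant (zbar base fe Dat nullM)
open Vale.Agent.P157.Plant (Cfg ones)

noncomputable section

variable {N : ℕ}

lemma haar_right_meas (O : OMat N) {f : OMat N → ℝ} (hf : Measurable f) :
    ∫ U, f (U * O) ∂haarO N = ∫ U, f U ∂haarO N := by
  conv_rhs => rw [← (sub_haar (N := N)).right O fun i hi => absurd hi (Finset.notMem_empty i)]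
  rw [integral_map (continuous_mul_const O).aemeasurable hf.aestronglyMeasurable]

lemma real_slice {X Y : Type*} [MeasurableSpace X] [MeasurableSpace Y] (μ : Measure X)
    [IsFiniteMeasure μ] (ν : Measure Y) [IsFiniteMeasure ν] {S : Set (X × Y)}
    (hS : MeasurableSet S) : (μ.prod ν).real S = ∫ x, ν.real (Prod.mk x ⁻¹' S) ∂μ := by
  simp only [measureReal_def]
  rw [Measure.prod_apply hS, integral_toReal (measurable_measure_prodMk_left hS).aemeasurable
    (ae_of_all _ fun x => measure_lt_top _ _)]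

lemma measurable_slice {X Y : Type*} [MeasurableSpace X] [MeasurableSpace Y] (ν : Measure Y)
    [IsFiniteMeasure ν] {S : Set (X × Y)} (hS : MeasurableSet S) :
    Measurable fun x => ν.real (Prod.mk x ⁻¹' S) :=
  (measurable_measure_prodMk_left hS).ennreal_toReal

/-- A weighted average of slices, integrated in the other order. -/
lemma weight_slice {Y : Type*} [MeasurableSpace Y] (ν : Measure Y) [IsFiniteMeasure ν]
    {w : OMat N → ℝ} (hw : Continuous w) {S : Set (OMat N × Y)} (hS : MeasurableSet S) :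
    ∫ U, w U * ν.real (Prod.mk U ⁻¹' S) ∂haarO N
      = ∫ y, ∫ U, S.indicator (fun p => w p.1) (U, y) ∂haarO N ∂ν := by
  obtain ⟨C, hC⟩ := isCompact_univ.exists_bound_of_continuousOn hw.continuousOn
  have hm : Measurable (S.indicator fun p : OMat N × Y => w p.1) :=
    (hw.measurable.comp measurable_fst).indicator hS
  have hi : Integrable (S.indicator fun p : OMat N × Y => w p.1) ((haarO N).prod ν) :=
    Integrable.of_bound hm.aestronglyMeasurable C (ae_of_all _ fun p => by
      refine (norm_indicator_le_norm_self _ _).trans (hC p.1 (Set.mem_univ _)))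
  rw [← integral_prod_symm _ hi, integral_prod _ hi]
  refine integral_congr_ae (ae_of_all _ fun U => ?_)
  have e : (fun y => S.indicator (fun p => w p.1) (U, y))
      = (Prod.mk U ⁻¹' S).indicator fun _ => w U := by
    funext y
    by_cases h : (U, y) ∈ S
    · rw [Set.indicator_of_mem h, Set.indicator_of_mem (show y ∈ Prod.mk U ⁻¹' S from h)]
    · rw [Set.indicator_of_notMem h, Set.indicator_of_notMem (show y ∉ Prod.mk U ⁻¹' S from h)]
  simp only [e]
  rw [integral_indicator_const _ (measurable_prodMk_left hS), smul_eq_mul, mul_comm]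

lemma gauss_coord_sq {ι : Type*} [Fintype ι] (i : ι) :
    Integrable (fun g => g i ^ 2) (gauss ι) ∧ ∫ g, g i ^ 2 ∂gauss ι = 1 := by
  have hsqi : Integrable (fun x : ℝ => x ^ 2) (gaussianReal 0 1) :=
    (memLp_id_gaussianReal 2).integrable_sq
  have hp := measurePreserving_eval (fun _ : ι => gaussianReal 0 1) i
  refine ⟨hp.integrable_comp_of_integrable hsqi, ?_⟩
  have h := integral_map (μ := gauss ι) (f := fun x : ℝ => x ^ 2) hp.measurable.aemeasurable
    (by fun_prop)
  rw [hp.map_eq] at h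
  refine h.symm.trans ?_
  have hv := variance_id_gaussianReal (μ := 0) (v := 1)
  rw [variance_eq_integral measurable_id.aemeasurable] at hv
  simpa using hv

lemma scl_sub (q g h : Fin N → ℝ) : scl q g - scl q h = scl q (g - h) := by
  funext i; simp only [scl, Pi.sub_apply]; ring

lemma len_scl_le {κ : ℝ} (hκ : 0 < κ) {q : Fin N → ℝ} (hq : ∀ i, κ ≤ 1 + q i) (g : Fin N → ℝ) :
    len (scl q g) ≤ (Real.sqrt κ)⁻¹ * len g := by
  rw [← abs_of_nonneg (inv_nonneg.2 (Real.sqrt_nonneg κ)), ← len_smul]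
  refine Real.sqrt_le_sqrt (Finset.sum_le_sum fun i _ => ?_)
  simp only [scl, Pi.smul_apply, smul_eq_mul, mul_pow, inv_pow]
  rw [Real.sq_sqrt hκ.le, Real.sq_sqrt (hκ.le.trans (hq i))]
  exact mul_le_mul_of_nonneg_right (inv_anti₀ hκ (hq i)) (sq_nonneg _)

/-- The index of the Gaussian space. -/
abbrev Idx (N : ℕ) := Fin N ⊕ (Fin N × Fin N) ⊕ Fin N

/-- The three parts of a vector. -/
def parts (z : Idx N → ℝ) : (Fin N → ℝ) × (Fin N × Fin N → ℝ) × (Fin N → ℝ) :=
  ((fun i => z (.inl i)), (fun p => z (.inr (.inl p))), fun i => z (.inr (.inr i)))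

lemma sq_parts (z : Idx N → ℝ) :
    sq z = sq (parts z).1 + (sq (parts z).2.1 + sq (parts z).2.2) := by
  simp only [sq, parts, Fintype.sum_sum_type]

@[fun_prop]
lemma continuous_parts : Continuous (parts (N := N)) := by unfold parts; fun_prop

/-- The log-likelihood on the Gaussian space. -/
def tfun (b : ℝ) (l : Fin N → ℝ) (r : ℝ) (O : OMat N) (a : ℝ) (i0 : Fin N)
    (keep : Finset (Fin N)) (q : Fin N → ℝ) (z : Idx N → ℝ) : ℝ :=
  jfun b l r O a i0 keep (clip (Real.sqrt N / 2) (scl q (parts z).1)) (parts z).2.1 (parts z).2.2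

lemma tfun_lip {M b ε κ r β R : ℝ} (hb : 0 ≤ b) (hbβ : b ≤ β) (hrR : r ≤ R) {l : Fin N → ℝ}
    (hl : ∀ i, |l i| ≤ M) (O : OMat N) (hε : 0 < ε) (hκ : 0 < κ) {i0 : Fin N}
    {keep : Finset (Fin N)} (hi : i0 ∉ keep) {q : Fin N → ℝ} (hq : ∀ i, κ ≤ 1 + q i)
    (z z' : Idx N → ℝ) :
    |tfun b l r O (ε * N) i0 keep q z - tfun b l r O (ε * N) i0 keep q z'|
      ≤ (β * |M| * (64 * (Real.sqrt κ)⁻¹ + (Real.sqrt ε)⁻¹) + Real.sqrt R + 1) * Real.sqrt N
          * Real.sqrt (sq (z - z')) := by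
  have hN : (0 : ℝ) < N := Nat.cast_pos.2 (Fin.pos i0)
  have hsN : 0 < Real.sqrt N := Real.sqrt_pos.2 hN
  obtain ⟨D, hD⟩ : ∃ D, D = Real.sqrt (sq (z - z')) := ⟨_, rfl⟩
  rw [← hD]
  have hD0 : 0 ≤ D := hD ▸ Real.sqrt_nonneg _
  have hsp := sq_parts (z - z')
  have n1 := sq_nonneg' (parts (z - z')).1
  have n2 := sq_nonneg' (parts (z - z')).2.1
  have n3 := sq_nonneg' (parts (z - z')).2.2
  have h1 : len ((parts z).1 - (parts z').1) ≤ D := hD ▸ Real.sqrt_le_sqrt (by
    show sq (parts (z - z')).1 ≤ _; linarith)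
  have h2 : len ((parts z).2.1 - (parts z').2.1) ≤ D := hD ▸ Real.sqrt_le_sqrt (by
    show sq (parts (z - z')).2.1 ≤ _; linarith)
  have h3 : len ((parts z).2.2 - (parts z').2.2) ≤ D := hD ▸ Real.sqrt_le_sqrt (by
    show sq (parts (z - z')).2.2 ≤ _; linarith)
  have h := jfun_lip hb hl r O (a := ε * N) (mul_pos hε hN) hi
    (clip (Real.sqrt N / 2) (scl q (parts z).1)) (clip (Real.sqrt N / 2) (scl q (parts z').1))
    (parts z).2.1 (parts z').2.1 (parts z).2.2 (parts z').2.2
  refine h.trans ?_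
  have hx : len (clip (Real.sqrt N / 2) (scl q (parts z).1)
      - clip (Real.sqrt N / 2) (scl q (parts z').1)) ≤ 4 / Real.sqrt N * ((Real.sqrt κ)⁻¹ * D) := by
    refine (clip_lip (by positivity) _ _).trans ?_
    rw [scl_sub, show 2 / (Real.sqrt N / 2) = 4 / Real.sqrt N by field_simp; ring]
    exact mul_le_mul_of_nonneg_left ((len_scl_le hκ hq _).trans
      (mul_le_mul_of_nonneg_left h1 (by positivity))) (by positivity)
  have hg : len ((parts z).2.1 - (parts z').2.1) / Real.sqrt (ε * N)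
      ≤ (Real.sqrt ε)⁻¹ * D / Real.sqrt N := by
    rw [Real.sqrt_mul hε.le]
    refine (div_le_div_of_nonneg_right h2 (by positivity)).trans (le_of_eq ?_)
    field_simp
  have hinner : Real.sqrt N * (16 * len (clip (Real.sqrt N / 2) (scl q (parts z).1)
        - clip (Real.sqrt N / 2) (scl q (parts z').1))
        + len ((parts z).2.1 - (parts z').2.1) / Real.sqrt (ε * N))
      ≤ (64 * (Real.sqrt κ)⁻¹ + (Real.sqrt ε)⁻¹) * D := by
    refine (mul_le_mul_of_nonneg_left (add_le_add
      (mul_le_mul_of_nonneg_left hx (by norm_num)) hg) hsN.le).trans (le_of_eq ?_)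
    field_simp
    ring
  have hin0 : 0 ≤ (64 * (Real.sqrt κ)⁻¹ + (Real.sqrt ε)⁻¹) * D := by positivity
  have hA : b * |M| * Real.sqrt N ≤ β * |M| * Real.sqrt N :=
    mul_le_mul_of_nonneg_right (mul_le_mul_of_nonneg_right hbβ (abs_nonneg M)) hsN.le
  have t1 := (mul_le_mul_of_nonneg_left hinner
    (show 0 ≤ b * |M| * Real.sqrt N by positivity)).trans (mul_le_mul_of_nonneg_right hA hin0)
  have t2 := (mul_le_mul_of_nonneg_left h3 (show 0 ≤ Real.sqrt r * Real.sqrt N by positivity)).trans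
    (mul_le_mul_of_nonneg_right (mul_le_mul_of_nonneg_right (Real.sqrt_le_sqrt hrR) hsN.le) hD0)
  have t3 : 0 ≤ Real.sqrt N * D := by positivity
  linarith

lemma continuous_tfun (b : ℝ) (l : Fin N → ℝ) (r : ℝ) (O : OMat N) {a : ℝ} (ha : 0 < a)
    (i0 : Fin N) (keep : Finset (Fin N)) (q : Fin N → ℝ) :
    Continuous (tfun b l r O a i0 keep q) := by
  have hN : (0 : ℝ) < N := Nat.cast_pos.2 (Fin.pos i0)
  have h1 : Continuous fun z : Idx N → ℝ => clip (Real.sqrt N / 2) (scl q (parts z).1) :=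
    (continuous_clip (by positivity)).comp ((continuous_scl q).comp (continuous_parts.fst))
  have h2 : Continuous fun z : Idx N → ℝ =>
      (clip (Real.sqrt N / 2) (scl q (parts z).1), (parts z).2) :=
    h1.prodMk continuous_parts.snd
  have h3 := Continuous.comp
    (g := fun p : (Fin N → ℝ) × (Fin N × Fin N → ℝ) × (Fin N → ℝ) =>
      jfun b l r O a i0 keep p.1 p.2.1 p.2.2) (continuous_jfun b l r O ha i0 keep) h2
  unfold tfun
  exact h3

/-- The mean on the Gaussian space is of order `N`, and deviations are exponentially unlikely. -/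
lemma tfun_conc {M b ε κ r β R δ : ℝ} (hb : 0 ≤ b) (hbβ : b ≤ β) (hr : 0 ≤ r) (hrR : r ≤ R)
    (hδ : 0 ≤ δ) {l : Fin N → ℝ} (hl : ∀ i, |l i| ≤ M) (O : OMat N) (hε : 0 < ε) (hκ : 0 < κ)
    {i0 : Fin N} {keep : Finset (Fin N)} (hi : i0 ∉ keep) {q : Fin N → ℝ}
    (hq : ∀ i, κ ≤ 1 + q i) :
    ∃ m, |m| ≤ (β * |M| + 2 * R + 1) * N ∧
      (gauss (Idx N)).real {z | δ * N ≤ |tfun b l r O (ε * N) i0 keep q z - m|}
        ≤ 2 * Real.exp (-(2 * δ ^ 2 / (Real.pi ^ 2
            * (β * |M| * (64 * (Real.sqrt κ)⁻¹ + (Real.sqrt ε)⁻¹) + Real.sqrt R + 1) ^ 2) * N)) := by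
  have hN : (0 : ℝ) < N := Nat.cast_pos.2 (Fin.pos i0)
  have ha : 0 < ε * (N : ℝ) := mul_pos hε hN
  have hβ : 0 ≤ β := hb.trans hbβ
  obtain ⟨L, hL⟩ : ∃ L, L = β * |M| * (64 * (Real.sqrt κ)⁻¹ + (Real.sqrt ε)⁻¹) + Real.sqrt R + 1 :=
    ⟨_, rfl⟩
  have hL0 : 0 < L := hL ▸ by positivity
  obtain ⟨T, hT⟩ : ∃ T : (Idx N → ℝ) → ℝ, T = tfun b l r O (ε * N) i0 keep q := ⟨_, rfl⟩
  have hlip : ∀ x y, |T x - T y| ≤ L * Real.sqrt N * Real.sqrt (sq (x - y)) := fun x y => by
    rw [hT, hL]; exact tfun_lip hb hbβ hrR hl O hε hκ hi hq x y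
  refine ⟨∫ z, T z ∂gauss (Idx N), ?_, ?_⟩
  · have hbd : ∀ z, |T z| ≤ (β * |M| + 2 * R) * N + (∑ i, z (.inr (.inr i)) ^ 2) / 2 := by
      intro z
      rw [hT]
      refine (abs_phi_le hb hl hr O (len_model_le ha hi _ _) _).trans ?_
      have h1 := mul_le_mul_of_nonneg_right (mul_le_mul_of_nonneg_right hbβ (abs_nonneg M)) hN.le
      have h2 := mul_le_mul_of_nonneg_right hrR hN.le
      show _ ≤ _ + sq (parts z).2.2 / 2
      linarith
    have hsum : Integrable (fun z : Idx N → ℝ => ∑ i, z (.inr (.inr i)) ^ 2) (gauss (Idx N)) :=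
      integrable_finsetSum _ fun i _ => (gauss_coord_sq _).1
    refine (abs_integral_le_integral_abs).trans
      ((integral_mono (integrable_of_lip hlip).abs
        ((integrable_const ((β * |M| + 2 * R) * N)).add (hsum.div_const 2)) hbd).trans ?_)
    simp only [Pi.add_apply]
    rw [integral_add (integrable_const _) (hsum.div_const 2), integral_div,
      integral_finsetSum _ fun i _ => (gauss_coord_sq _).1]
    simp only [(gauss_coord_sq _).2, integral_const, probReal_univ, smul_eq_mul, one_mul,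
      Finset.sum_const, Finset.card_univ, Fintype.card_fin, nsmul_eq_mul, mul_one]
    linarith
  · rw [← hL, ← hT]
    have hneg : ∀ x y, |-T x - -T y| ≤ L * Real.sqrt N * Real.sqrt (sq (x - y)) := fun x y => by
      rw [show -T x - -T y = -(T x - T y) by ring, abs_neg]; exact hlip x y
    have hLs : 0 < L * Real.sqrt N := mul_pos hL0 (Real.sqrt_pos.2 hN)
    have e : 2 * (δ * N) ^ 2 / (Real.pi ^ 2 * (L * Real.sqrt N) ^ 2)
        = 2 * δ ^ 2 / (Real.pi ^ 2 * L ^ 2) * N := by
      have hπ := Real.pi_pos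
      rw [mul_pow L, Real.sq_sqrt hN.le]
      field_simp
    have u1 := gauss_upper hLs hlip (δ * N) (mul_nonneg hδ hN.le)
    have u2 := gauss_upper hLs hneg (δ * N) (mul_nonneg hδ hN.le)
    rw [integral_neg] at u2
    rw [e] at u1 u2
    refine ((measureReal_mono (s₂ := {x | ∫ y, T y ∂gauss (Idx N) + δ * N ≤ T x}
      ∪ {x | -∫ y, T y ∂gauss (Idx N) + δ * N ≤ -T x}) fun x hx => ?_).trans
        (measureReal_union_le _ _)).trans ?_
    · rcases le_abs.1 (show δ * N ≤ |T x - _| from hx) with h | h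
      · left; show _ ≤ T x; linarith
      · right; show _ ≤ -T x; linarith
    · linarith

/-- The transfer from the planted law to the Gaussian space. -/
theorem planted_le {b : ℝ} {l : Fin N → ℝ} {r : ℝ} (O : OMat N) {a : ℝ} (ha : 0 < a) {i0 : Fin N}
    {keep : Finset (Fin N)} (hi : i0 ∉ keep) (hO : act O (fun _ => (1 : ℝ)) = Real.sqrt N • cv i0)
    (m t t' : ℝ) {E : ℝ}
    (hdef : ∀ U : OMat N, ∃ D : Set (Fin N × Fin N → ℝ), (gauss (Fin N × Fin N)).real D ≤ E ∧
      ∀ g, g ∉ D → ∀ ξ, |phi b l r O (U : Matrix (Fin N) (Fin N) ℝ) ξ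
        - phi b l r O ((U : Matrix (Fin N) (Fin N) ℝ) * matK a i0 keep g) ξ| ≤ t - t') :
    ∃ p : (Fin N → ℝ) → ℝ, Measurable p ∧ (∀ x, 0 ≤ p x) ∧ (∀ x, p x ≤ 1) ∧
      (∀ x, p x ≤ {x : Fin N → ℝ | 1 / 2 < x i0}.indicator 1 x
        + ((gauss (Fin N × Fin N)).prod (gauss (Fin N))).real
            {y | t' ≤ |jfun b l r O a i0 keep x y.1 y.2 - m|}) ∧
      ∫ d, base b l d.1 (ones N) * {d : Dat N | t ≤ |fe b l r d - m|}.indicator 1 d ∂nullM N
        ≤ E + (∫ U, Real.exp ((∑ i, b * l i * act U (Real.sqrt N • cv i0) i ^ 2) / 2)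
            * p (act U (cv i0)) ∂haarO N) / zbar b l := by
  classical
  obtain ⟨ν, hν⟩ : ∃ ν : Measure ((Fin N × Fin N → ℝ) × (Fin N → ℝ)),
      ν = (gauss (Fin N × Fin N)).prod (gauss (Fin N)) := ⟨_, rfl⟩
  have : IsProbabilityMeasure ν := hν ▸ inferInstance
  rw [← hν]
  obtain ⟨P, hP⟩ : ∃ P : Set ((Fin N → ℝ) × (Fin N × Fin N → ℝ) × (Fin N → ℝ)),
      P = {q | t' ≤ |jfun b l r O a i0 keep q.1 q.2.1 q.2.2 - m|} := ⟨_, rfl⟩
  have hPm : MeasurableSet P := hP ▸ measurableSet_le measurable_const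
    (((continuous_jfun b l r O ha i0 keep).sub continuous_const).abs.measurable)
  obtain ⟨p0, hp0⟩ : ∃ p0 : (Fin N → ℝ) → ℝ, p0 = fun x => ν.real (Prod.mk x ⁻¹' P) := ⟨_, rfl⟩
  obtain ⟨p, hp⟩ : ∃ p : (Fin N → ℝ) → ℝ, p = fun x => if 1 / 2 < x i0 then 1 else p0 x := ⟨_, rfl⟩
  have hp0n : ∀ x, 0 ≤ p0 x := fun x => hp0 ▸ measureReal_nonneg
  have hp01 : ∀ x, p0 x ≤ 1 := fun x => hp0 ▸ measureReal_le_one
  have hpn : ∀ x, 0 ≤ p x := fun x => by
    simp only [hp]; split_ifs; exacts [zero_le_one, hp0n x]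
  have hp1 : ∀ x, p x ≤ 1 := fun x => by
    simp only [hp]; split_ifs; exacts [le_rfl, hp01 x]
  have hpm : Measurable p := by
    rw [hp]
    exact Measurable.ite (measurableSet_lt measurable_const (measurable_pi_apply i0))
      measurable_const (hp0 ▸ measurable_slice ν hPm)
  refine ⟨p, hpm, hpn, hp1, fun x => ?_, ?_⟩
  · have e : p0 x = ν.real {y | t' ≤ |jfun b l r O a i0 keep x y.1 y.2 - m|} := by
      rw [hp0, hP]; rfl
    simp only [hp]
    split_ifs with h
    · rw [Set.indicator_of_mem (show x ∈ {x : Fin N → ℝ | 1 / 2 < x i0} from h), Pi.one_apply]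
      exact le_add_of_nonneg_right measureReal_nonneg
    · rw [Set.indicator_of_notMem (show x ∉ {x : Fin N → ℝ | 1 / 2 < x i0} from h), zero_add, e]
  -- the weight in the rotated coordinates
  obtain ⟨w, hw⟩ : ∃ w : OMat N → ℝ, w = fun U => base b l (U * O) (ones N) := ⟨_, rfl⟩
  have hwc : Continuous w := hw ▸ (Plant.continuous_base b l (ones N)).comp (continuous_mul_const O)
  have hw0 : ∀ U, 0 ≤ w U := fun U => hw ▸ (Plant.base_pos b l _ _).le
  have hw1 : ∫ U, w U ∂haarO N = 1 := by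
    rw [hw]
    exact (haar_right_meas O (Plant.continuous_base b l (ones N)).measurable).trans
      (Plant.integral_base b l (ones N))
  have hwe : ∀ U, w U
      = Real.exp ((∑ i, b * l i * act U (Real.sqrt N • cv i0) i ^ 2) / 2) / zbar b l := by
    intro U
    have e : spin (ones N) = fun _ => (1 : ℝ) := by funext i; simp [spin, ones]
    have h : ∀ i, coord (U * O) (ones N) i = act U (Real.sqrt N • cv i0) i ^ 2 := fun i => by
      rw [← hO, ← act_mul, ← e]; rfl
    simp only [hw, base, P166.wt, h]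
    rw [Finset.mul_sum, Finset.sum_div]
    congr 2
    exact Finset.sum_congr rfl fun i _ => by ring
  -- the events
  have hcm : ∀ (f : (Fin N × Fin N → ℝ) → Matrix (Fin N) (Fin N) ℝ), Continuous f →
      MeasurableSet {q : OMat N × (Fin N × Fin N → ℝ) × (Fin N → ℝ) |
        t' ≤ |phi b l r O ((q.1 : Matrix (Fin N) (Fin N) ℝ) * f q.2.1) q.2.2 - m|} := by
    intro f hf
    have h1 : Continuous fun q : OMat N × (Fin N × Fin N → ℝ) × (Fin N → ℝ) =>
        ((q.1 : Matrix (Fin N) (Fin N) ℝ) * f q.2.1, q.2.2) :=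
      ((continuous_subtype_val.comp continuous_fst).matrix_mul
        (hf.comp (continuous_fst.comp continuous_snd))).prodMk (continuous_snd.comp continuous_snd)
    have h2 := Continuous.comp (g := fun q : Matrix (Fin N) (Fin N) ℝ × (Fin N → ℝ) =>
      phi b l r O q.1 q.2) (continuous_phi b l r O) h1
    exact measurableSet_le measurable_const ((h2.sub continuous_const).abs.measurable)
  obtain ⟨SK, hSK⟩ : ∃ SK : Set (OMat N × (Fin N × Fin N → ℝ) × (Fin N → ℝ)), SK = {q |
      t' ≤ |phi b l r O ((q.1 : Matrix (Fin N) (Fin N) ℝ) * matK a i0 keep q.2.1) q.2.2 - m|} :=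
    ⟨_, rfl⟩
  obtain ⟨SB, hSB⟩ : ∃ SB : Set (OMat N × (Fin N × Fin N → ℝ) × (Fin N → ℝ)), SB = {q |
      t' ≤ |phi b l r O ((q.1 : Matrix (Fin N) (Fin N) ℝ) * matB a i0 keep q.2.1) q.2.2 - m|} :=
    ⟨_, rfl⟩
  have hSKm : MeasurableSet SK := hSK ▸ hcm _ (continuous_matK ha i0 keep)
  have hSBm : MeasurableSet SB := hSB ▸ hcm _ (continuous_matB ha i0 keep)
  obtain ⟨SA, hSA⟩ : ∃ SA : Set (OMat N × (Fin N → ℝ)),
      SA = {q | t ≤ |phi b l r O (q.1 : Matrix (Fin N) (Fin N) ℝ) q.2 - m|} := ⟨_, rfl⟩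
  have hSAm : MeasurableSet SA := by
    have h1 : Continuous fun q : OMat N × (Fin N → ℝ) => ((q.1 : Matrix (Fin N) (Fin N) ℝ), q.2) :=
      (continuous_subtype_val.comp continuous_fst).prodMk continuous_snd
    have h2 := Continuous.comp (g := fun q : Matrix (Fin N) (Fin N) ℝ × (Fin N → ℝ) =>
      phi b l r O q.1 q.2) (continuous_phi b l r O) h1
    rw [hSA]
    exact measurableSet_le measurable_const ((h2.sub continuous_const).abs.measurable)
  -- to the rotated coordinates
  have e1 : ∫ d, base b l d.1 (ones N) * {d : Dat N | t ≤ |fe b l r d - m|}.indicator 1 d ∂nullM N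
      = ∫ U, w U * (gauss (Fin N)).real (Prod.mk U ⁻¹' SA) ∂haarO N := by
    rw [← haar_right_meas O⁻¹ (f := fun U => w U * (gauss (Fin N)).real (Prod.mk U ⁻¹' SA))
      (hwc.measurable.mul (measurable_slice _ hSAm))]
    have hS : MeasurableSet {d : Dat N | t ≤ |fe b l r d - m|} :=
      measurableSet_le measurable_const
        ((((Plant.measurable_lik b l r).comp (Plant.measurable_sh r)).log).sub measurable_const).abs
    have hi : Integrable (fun d : Dat N => base b l d.1 (ones N)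
        * {d : Dat N | t ≤ |fe b l r d - m|}.indicator 1 d) (nullM N) := by
      refine (Plant.Gd.of_bdd ?_ (B := Plant.bdC b l) fun d => ?_).integrable
      · exact ((Plant.continuous_base b l _).measurable.comp measurable_fst).mul
          (measurable_one.indicator hS)
      · rw [abs_mul, abs_of_pos (Plant.base_pos _ _ _ _)]
        refine (mul_le_of_le_one_right (Plant.base_pos _ _ _ _).le ?_).trans (Plant.base_le _ _ _ _)
        by_cases hd : d ∈ {d : Dat N | t ≤ |fe b l r d - m|} <;> simp [hd]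
    rw [show nullM N = (haarO N).prod (gauss (Fin N)) from rfl] at hi ⊢
    rw [integral_prod _ hi]
    refine integral_congr_ae (ae_of_all _ fun U => ?_)
    simp only [hw, inv_mul_cancel_right]
    rw [integral_const_mul]
    congr 1
    have e : (fun ξ => {d : Dat N | t ≤ |fe b l r d - m|}.indicator (1 : Dat N → ℝ) (U, ξ))
        = (Prod.mk (U * O⁻¹) ⁻¹' SA).indicator 1 := by
      funext ξ
      have hiff : (U, ξ) ∈ {d : Dat N | t ≤ |fe b l r d - m|}
          ↔ ξ ∈ Prod.mk (U * O⁻¹) ⁻¹' SA := by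
        simp only [hSA, Set.mem_preimage, Set.mem_ofPred_eq, fe_eq b l r O]
      by_cases hd : (U, ξ) ∈ {d : Dat N | t ≤ |fe b l r d - m|}
      · rw [Set.indicator_of_mem hd, Set.indicator_of_mem (hiff.1 hd), Pi.one_apply, Pi.one_apply]
      · rw [Set.indicator_of_notMem hd, Set.indicator_of_notMem (mt hiff.2 hd)]
    rw [e, integral_indicator_one (measurable_prodMk_left hSAm)]
  -- the defect
  have e2 : ∀ U, (gauss (Fin N)).real (Prod.mk U ⁻¹' SA) ≤ E + ν.real (Prod.mk U ⁻¹' SK) := by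
    intro U
    obtain ⟨D, hD, hDg⟩ := hdef U
    have e : (gauss (Fin N)).real (Prod.mk U ⁻¹' SA)
        = ν.real (Set.univ ×ˢ (Prod.mk U ⁻¹' SA)) := by
      rw [hν, measureReal_prod_prod, probReal_univ, one_mul]
    rw [e]
    refine (measureReal_mono (s₂ := D ×ˢ Set.univ ∪ Prod.mk U ⁻¹' SK) fun y hy => ?_).trans
      ((measureReal_union_le _ _).trans (add_le_add ?_ le_rfl))
    · by_cases hyD : y.1 ∈ D
      · exact Or.inl ⟨hyD, Set.mem_univ _⟩
      · right
        have hy' : t ≤ |phi b l r O (U : Matrix (Fin N) (Fin N) ℝ) y.2 - m| := by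
          have := hy.2; rw [hSA] at this; exact this
        rw [hSK]
        show t' ≤ _
        have h := hDg y.1 hyD y.2
        have := abs_sub_le (phi b l r O (U : Matrix (Fin N) (Fin N) ℝ) y.2)
          (phi b l r O ((U : Matrix (Fin N) (Fin N) ℝ) * matK a i0 keep y.1) y.2) m
        linarith
    · rw [hν, measureReal_prod_prod, probReal_univ, mul_one]; exact hD
  -- the polar factor
  have e3 : ∫ U, w U * ν.real (Prod.mk U ⁻¹' SK) ∂haarO N
      = ∫ U, w U * ν.real (Prod.mk U ⁻¹' SB) ∂haarO N := by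
    rw [weight_slice ν hwc hSKm, weight_slice ν hwc hSBm]
    refine integral_congr_ae (ae_of_all _ fun y => ?_)
    obtain ⟨O', hOe, hOB⟩ := exists_polar a i0 keep y.1 ha hi
    have hm : Measurable fun U : OMat N => SK.indicator (fun q => w q.1) (U, y) :=
      ((hwc.measurable.comp measurable_fst).indicator hSKm).comp measurable_prodMk_right
    show ∫ U, SK.indicator (fun q => w q.1) (U, y) ∂haarO N = _
    rw [← haar_right_meas O' hm]
    refine integral_congr_ae (ae_of_all _ fun U => ?_)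
    have hwU : w (U * O') = w U := by
      rw [hwe, hwe]
      simp only [act_mul, act_smul, hOe]
    have hiff : (U * O', y) ∈ SK ↔ (U, y) ∈ SB := by
      simp only [hSK, hSB, Set.mem_ofPred_eq, Submonoid.coe_mul, Matrix.mul_assoc, hOB]
    by_cases hd : (U, y) ∈ SB
    · show SK.indicator _ (U * O', y) = SB.indicator _ (U, y)
      rw [Set.indicator_of_mem hd, Set.indicator_of_mem (hiff.2 hd)]
      exact hwU
    · show SK.indicator _ (U * O', y) = SB.indicator _ (U, y)
      rw [Set.indicator_of_notMem hd, Set.indicator_of_notMem (mt hiff.1 hd)]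
  -- given the planted direction
  have e4 : ∀ U : OMat N, ν.real (Prod.mk U ⁻¹' SB) ≤ p (act U (cv i0)) := by
    intro U
    obtain ⟨x, hx⟩ : ∃ x, x = act U (cv i0) := ⟨_, rfl⟩
    rw [← hx]
    simp only [hp]
    split_ifs with hxi
    · exact measureReal_le_one
    obtain ⟨S, hS, hSx⟩ := refl_orth i0 (u := x) (by rw [hx, sq_act, sq_cv]) (not_lt.1 hxi)
    obtain ⟨R, hR⟩ : ∃ R, R = S⁻¹ * U := ⟨_, rfl⟩
    have hRe : act R (cv i0) = cv i0 := by
      rw [hR, act_mul, ← hx, ← hSx, ← act_mul, inv_mul_cancel, act_one]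
    have hUR : U = S * R := by rw [hR, mul_inv_cancel_left]
    obtain ⟨φ, hφ⟩ : ∃ φ : (Fin N × Fin N → ℝ) → Fin N × Fin N → ℝ,
        φ = fun g p => ((R : Matrix (Fin N) (Fin N) ℝ) * toMat g) p.1 p.2 := ⟨_, rfl⟩
    have hφm : Measurable φ := by
      rw [hφ]
      refine measurable_pi_lambda _ fun p => ?_
      simp only [Matrix.mul_apply, toMat, Matrix.of_apply]
      fun_prop
    have hmapG : (gauss (Fin N × Fin N)).map φ = gauss (Fin N × Fin N) := by
      have h := gauss_mat_map R 1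
      simpa [hφ] using h
    have hmapν : ν.map (Prod.map φ id) = ν := by
      rw [hν, ← Measure.map_prod_map _ _ hφm measurable_id, hmapG, Measure.map_id]
    have hset : Prod.map φ id ⁻¹' (Prod.mk x ⁻¹' P) = Prod.mk U ⁻¹' SB := by
      ext ⟨g, ξ⟩
      simp only [Set.mem_preimage, Prod.map_apply, id, hP, hSB, Set.mem_ofPred_eq, jfun]
      rw [hφ, ← matB_left ha i0 keep (fix_of_cv hRe), hUR, Submonoid.coe_mul, hS,
        Matrix.mul_assoc]
    rw [← hset, ← map_measureReal_apply (hφm.prodMap measurable_id)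
      (measurable_prodMk_left hPm), hmapν, hp0]
  -- assembly
  have hiK : Integrable (fun U => w U * ν.real (Prod.mk U ⁻¹' SK)) (haarO N) :=
    (P166.integrable_of_continuous hwc).mono' (hwc.measurable.mul (measurable_slice ν hSKm)).aestronglyMeasurable
      (ae_of_all _ fun U => by
        rw [Real.norm_eq_abs, abs_of_nonneg (mul_nonneg (hw0 U) measureReal_nonneg)]
        exact mul_le_of_le_one_right (hw0 U) measureReal_le_one)
  rw [e1]
  refine (integral_mono_of_nonneg (ae_of_all _ fun U => mul_nonneg (hw0 U) measureReal_nonneg)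
    (((P166.integrable_of_continuous hwc).const_mul E).add hiK) (ae_of_all _ fun U => ?_)).trans ?_
  · show _ ≤ E * w U + w U * ν.real (Prod.mk U ⁻¹' SK)
    linarith [mul_le_mul_of_nonneg_left (e2 U) (hw0 U)]
  simp only [Pi.add_apply]
  rw [integral_add ((P166.integrable_of_continuous hwc).const_mul E) hiK, integral_const_mul, hw1,
    mul_one, e3, ← integral_div]
  refine add_le_add le_rfl ?_
  have hiP : Integrable (fun U => w U * p (act U (cv i0))) (haarO N) :=
    (P166.integrable_of_continuous hwc).mono'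
      (hwc.measurable.mul (hpm.comp (continuous_act_left _).measurable)).aestronglyMeasurable
      (ae_of_all _ fun U => by
        rw [Real.norm_eq_abs, abs_of_nonneg (mul_nonneg (hw0 U) (hpn _))]
        exact mul_le_of_le_one_right (hw0 U) (hp1 _))
  refine (integral_mono_of_nonneg (ae_of_all _ fun U => mul_nonneg (hw0 U) measureReal_nonneg) hiP
    (ae_of_all _ fun U => mul_le_mul_of_nonneg_left (e4 U) (hw0 U))).trans (le_of_eq ?_)
  refine integral_congr_ae (ae_of_all _ fun U => ?_)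
  simp only [hwe]
  ring

/-- The average over the tilted Gaussian vector. -/
lemma dir_avg_le {κ : ℝ} (hκ : 0 < κ) (i0 : Fin N) {q : Fin N → ℝ} (hq : ∀ i, κ ≤ 1 + q i)
    (hsum : ∑ i, (1 + q i)⁻¹ = N) {b : ℝ} {l : Fin N → ℝ} {r : ℝ} (O : OMat N) {a : ℝ} (ha : 0 < a)
    (keep : Finset (Fin N)) (m t : ℝ) {p : (Fin N → ℝ) → ℝ} (hp0 : ∀ x, 0 ≤ p x)
    (hp1 : ∀ x, p x ≤ 1)
    (hp : ∀ x, p x ≤ {x : Fin N → ℝ | 1 / 2 < x i0}.indicator 1 x
      + ((gauss (Fin N × Fin N)).prod (gauss (Fin N))).real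
          {y | t ≤ |jfun b l r O a i0 keep x y.1 y.2 - m|}) :
    ∫ g, p (dir (scl q g)) ∂gauss (Fin N) ≤ Real.exp (-(κ * N / 32)) + Real.exp (-(κ * N / 64))
      + (gauss (Idx N)).real {z | t ≤ |tfun b l r O a i0 keep q z - m|} := by
  have hN : (0 : ℝ) < N := Nat.cast_pos.2 (Fin.pos i0)
  have hsN : 0 < Real.sqrt N := Real.sqrt_pos.2 hN
  obtain ⟨S, hS⟩ : ∃ S : Set ((Fin N → ℝ) × (Fin N × Fin N → ℝ) × (Fin N → ℝ)), S = {w |
      t ≤ |jfun b l r O a i0 keep (clip (Real.sqrt N / 2) (scl q w.1)) w.2.1 w.2.2 - m|} :=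
    ⟨_, rfl⟩
  have hSm : MeasurableSet S := by
    have h1 : Continuous fun w : (Fin N → ℝ) × (Fin N × Fin N → ℝ) × (Fin N → ℝ) =>
        (clip (Real.sqrt N / 2) (scl q w.1), w.2) :=
      ((continuous_clip (by positivity)).comp ((continuous_scl q).comp continuous_fst)).prodMk
        continuous_snd
    have h2 := Continuous.comp
      (g := fun p : (Fin N → ℝ) × (Fin N × Fin N → ℝ) × (Fin N → ℝ) =>
        jfun b l r O a i0 keep p.1 p.2.1 p.2.2) (continuous_jfun b l r O ha i0 keep) h1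
    rw [hS]
    exact measurableSet_le measurable_const ((h2.sub continuous_const).abs.measurable)
  obtain ⟨ν, hν⟩ : ∃ ν : Measure ((Fin N × Fin N → ℝ) × (Fin N → ℝ)),
      ν = (gauss (Fin N × Fin N)).prod (gauss (Fin N)) := ⟨_, rfl⟩
  have : IsProbabilityMeasure ν := hν ▸ inferInstance
  have hT : (gauss (Idx N)).real {z | t ≤ |tfun b l r O a i0 keep q z - m|}
      = ∫ g, ν.real (Prod.mk g ⁻¹' S) ∂gauss (Fin N) := by
    rw [← real_slice _ _ hSm, hν, ← gauss_triple,
      map_measureReal_apply (by fun_prop) hSm, hS]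
    rfl
  have hsm : MeasurableSet {g | sq (scl q g) ≤ (N : ℝ) / 4} :=
    measurableSet_le (continuous_sq.comp (continuous_scl q)).measurable measurable_const
  have hcm : MeasurableSet {g | Real.sqrt N / 4 ≤ scl q g i0} :=
    measurableSet_le measurable_const ((continuous_apply i0).comp (continuous_scl q)).measurable
  have hi : Integrable (fun g => ν.real (Prod.mk g ⁻¹' S)) (gauss (Fin N)) :=
    Integrable.of_bound (measurable_slice ν hSm).aestronglyMeasurable 1
      (ae_of_all _ fun g => by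
        rw [Real.norm_eq_abs, abs_of_nonneg measureReal_nonneg]; exact measureReal_le_one)
  have hi1 := (integrable_const (μ := gauss (Fin N)) (1 : ℝ)).indicator hsm
  have hi2 := (integrable_const (μ := gauss (Fin N)) (1 : ℝ)).indicator hcm
  rw [hT]
  refine (integral_mono_of_nonneg (ae_of_all _ fun g => hp0 _) ((hi1.add hi2).add hi)
    (ae_of_all _ fun g => ?_)).trans ?_
  · simp only [Pi.add_apply]
    by_cases hs : sq (scl q g) ≤ (N : ℝ) / 4
    · rw [Set.indicator_of_mem (show g ∈ {g | sq (scl q g) ≤ (N : ℝ) / 4} from hs)]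
      have h2 : 0 ≤ {g | Real.sqrt N / 4 ≤ scl q g i0}.indicator (fun _ => (1 : ℝ)) g :=
        Set.indicator_nonneg (fun _ _ => zero_le_one) g
      have h3 : 0 ≤ ν.real (Prod.mk g ⁻¹' S) := measureReal_nonneg
      linarith [hp1 (dir (scl q g))]
    · rw [Set.indicator_of_notMem (show g ∉ {g | sq (scl q g) ≤ (N : ℝ) / 4} from hs), zero_add]
      have hl : Real.sqrt N / 2 ≤ len (scl q g) := by
        refine Real.le_sqrt_of_sq_le ?_
        rw [div_pow, Real.sq_sqrt hN.le]
        linarith [not_le.1 hs]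
      have hd : clip (Real.sqrt N / 2) (scl q g) = dir (scl q g) := by
        rw [clip, dir, max_eq_left hl]
      have hS' : Prod.mk g ⁻¹' S
          = {y | t ≤ |jfun b l r O a i0 keep (dir (scl q g)) y.1 y.2 - m|} := by
        rw [hS, ← hd]; rfl
      rw [hS', hν]
      refine (hp _).trans (add_le_add ?_ le_rfl)
      refine ind_le (fun hh => ?_) (Set.indicator_nonneg (fun _ _ => zero_le_one) g)
      rw [Set.indicator_of_mem (show g ∈ {g | Real.sqrt N / 4 ≤ scl q g i0} from ?_)]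
      · exact le_rfl
      · have hh' : 1 / 2 < (len (scl q g))⁻¹ * scl q g i0 := hh
        rw [inv_mul_eq_div, lt_div_iff₀ (by linarith)] at hh'
        show Real.sqrt N / 4 ≤ scl q g i0
        linarith
  · simp only [Pi.add_apply]
    rw [integral_add (f := fun g => {g | sq (scl q g) ≤ (N : ℝ) / 4}.indicator (fun _ => (1 : ℝ)) g
      + {g | Real.sqrt N / 4 ≤ scl q g i0}.indicator (fun _ => (1 : ℝ)) g) (hi1.add hi2) hi,
      integral_add hi1 hi2, integral_indicator_const _ hsm,
      integral_indicator_const _ hcm]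
    simp only [smul_eq_mul, mul_one]
    exact add_le_add (add_le_add (scl_short hκ hq hsum) (scl_coord hκ hq i0)) le_rfl

end

end Vale.Agent.P166.High.Planted
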