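import Vale.Agent.P166.High.Reg
import Vale.Agent.P166.High.Sph

/-!
# P166: the regularised frame around a planted direction

The regularised polar factor of a Gaussian matrix with one row and a small set of columns removed,
its invariances, and the bound on the defect, uniform over the configurations.
-/

namespace Vale.Agent.P166.High.Planted

open MeasureTheory ProbabilityTheory Matrix

noncomputable section

variable {N : ℕ}

/-- The coordinate vector. -/
def cv (i0 : Fin N) : Fin N → ℝ := Pi.single i0 1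

lemma sq_cv (i0 : Fin N) : sq (cv i0) = 1 := by
  rw [sq, Finset.sum_eq_single i0 (fun j _ hj => by simp [cv, hj]) (by simp)]
  simp [cv]

lemma dot_cv (v : Fin N → ℝ) (i0 : Fin N) : v ⬝ᵥ cv i0 = v i0 := by
  simp [cv]

lemma symFn_ker {ι : Type*} [Fintype ι] [DecidableEq ι] (f : ℝ → ℝ) {A : Matrix ι ι ℝ}
    (hA : A.IsHermitian) {v : ι → ℝ} (hv : A *ᵥ v = 0) : symFn f A *ᵥ v = f 0 • v := by
  obtain ⟨P, hPd⟩ : ∃ P : Matrix ι ι ℝ, P = (hA.eigenvectorUnitary : Matrix ι ι ℝ) := ⟨_, rfl⟩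
  have hP : IsOrth P := hPd ▸ isOrth_eig hA
  have h1 : diagonal hA.eigenvalues *ᵥ (Pᵀ *ᵥ v) = 0 := by
    have h := congrArg (fun w => Pᵀ *ᵥ w) hv
    simp only [mulVec_zero] at h
    rw [← h]
    conv_rhs => rw [eig_decomp hA, ← hPd]
    simp only [mulVec_mulVec, ← Matrix.mul_assoc, hP.left, Matrix.one_mul]
  rw [symFn_def f hA, ← hPd, ← mulVec_mulVec, ← mulVec_mulVec]
  have h2 : diagonal (f ∘ hA.eigenvalues) *ᵥ (Pᵀ *ᵥ v) = f 0 • (Pᵀ *ᵥ v) := by
    funext i
    have h := congrFun h1 i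
    simp only [mulVec_diagonal, Pi.zero_apply] at h
    simp only [mulVec_diagonal, Function.comp_apply, Pi.smul_apply, smul_eq_mul]
    rcases mul_eq_zero.1 h with h | h <;> simp [h]
  rw [h2, mulVec_smul, mulVec_mulVec, hP.right, one_mulVec]

/-- The entries off the row `i0` and in the columns `keep`. -/
def mk (i0 : Fin N) (keep : Finset (Fin N)) (g : Fin N × Fin N → ℝ) :
    Matrix (Fin N) (Fin N) ℝ :=
  Matrix.of fun i j => if i ≠ i0 ∧ j ∈ keep then g (i, j) else 0

/-- The model for an orthogonal matrix fixing the direction `i0`. -/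
def matB (a : ℝ) (i0 : Fin N) (keep : Finset (Fin N)) (g : Fin N × Fin N → ℝ) :
    Matrix (Fin N) (Fin N) ℝ :=
  vecMulVec (cv i0) (cv i0) + regB a (mk i0 keep g)

/-- Its symmetric part. -/
def matK (a : ℝ) (i0 : Fin N) (keep : Finset (Fin N)) (g : Fin N × Fin N → ℝ) :
    Matrix (Fin N) (Fin N) ℝ :=
  vecMulVec (cv i0) (cv i0) + regK a (mk i0 keep g)

lemma proj_mulVec (i0 : Fin N) (v : Fin N → ℝ) :
    vecMulVec (cv i0) (cv i0) *ᵥ v = v i0 • cv i0 := by
  rw [vecMulVec_mulVec, op_smul_eq_smul, dotProduct_comm, dot_cv]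

@[fun_prop]
lemma continuous_mk (i0 : Fin N) (keep : Finset (Fin N)) : Continuous (mk i0 keep) :=
  continuous_pi fun i => continuous_pi fun j => by
    simp only [mk, Matrix.of_apply]
    split_ifs <;> fun_prop

lemma continuous_matB {a : ℝ} (ha : 0 < a) (i0 : Fin N) (keep : Finset (Fin N)) :
    Continuous (matB a i0 keep) :=
  continuous_const.add ((continuous_of_frob_le (C := a⁻¹) fun G H =>
    (regB_lip ha G H).trans_eq (div_eq_inv_mul _ _)).comp (continuous_mk i0 keep))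

lemma continuous_matK {a : ℝ} (ha : 0 < a) (i0 : Fin N) (keep : Finset (Fin N)) :
    Continuous (matK a i0 keep) :=
  continuous_const.add ((continuous_of_frob_le (C := 2 / a) fun G H =>
    (regK_lip ha G H).trans_eq (div_mul_eq_mul_div _ _ _).symm).comp (continuous_mk i0 keep))

section kill

variable (a : ℝ) (i0 : Fin N) (keep : Finset (Fin N)) (g : Fin N × Fin N → ℝ)

lemma mk_mulVec_row (v : Fin N → ℝ) : (mk i0 keep g *ᵥ v) i0 = 0 := by
  simp [mk, mulVec, dotProduct]

lemma mk_mulVec_off {v : Fin N → ℝ} (hv : ∀ j ∈ keep, v j = 0) : mk i0 keep g *ᵥ v = 0 := by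
  funext i
  simp only [mulVec, dotProduct, mk, Matrix.of_apply, Pi.zero_apply]
  refine Finset.sum_eq_zero fun j _ => ?_
  by_cases hj : j ∈ keep
  · rw [hv j hj, mul_zero]
  · simp [hj]

lemma regK_off {v : Fin N → ℝ} (hv : ∀ j ∈ keep, v j = 0) :
    regK a (mk i0 keep g) *ᵥ v = 0 := by
  rw [regK_eq, symFn_ker _ (gram_isHermitian _) (v := v)]
  · simp
  · rw [← mulVec_mulVec, mk_mulVec_off i0 keep g hv, mulVec_zero]

lemma regB_off {v : Fin N → ℝ} (hv : ∀ j ∈ keep, v j = 0) :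
    regB a (mk i0 keep g) *ᵥ v = 0 := by
  rw [regB_eq, ← mulVec_mulVec, symFn_ker _ (gram_isHermitian _) (v := v), mulVec_smul,
    mk_mulVec_off i0 keep g hv, smul_zero]
  rw [← mulVec_mulVec, mk_mulVec_off i0 keep g hv, mulVec_zero]

lemma regB_row (v : Fin N → ℝ) : (regB a (mk i0 keep g) *ᵥ v) i0 = 0 := by
  rw [regB_eq, ← mulVec_mulVec, mk_mulVec_row]

lemma regK_row (hi : i0 ∉ keep) (v : Fin N → ℝ) : (regK a (mk i0 keep g) *ᵥ v) i0 = 0 := by
  have hs : (regK a (mk i0 keep g))ᵀ = regK a (mk i0 keep g) := by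
    rw [regK_eq]
    simpa [IsHermitian, conjTranspose_eq_transpose_of_trivial] using
      symFn_isHermitian _ (gram_isHermitian (mk i0 keep g))
  rw [← dot_cv (regK a (mk i0 keep g) *ᵥ v) i0, dotProduct_comm, dotProduct_mulVec,
    ← mulVec_transpose, hs, regK_off a i0 keep g (v := cv i0), zero_dotProduct]
  intro j hj
  exact Pi.single_eq_of_ne (fun e => hi (by rw [← e]; exact hj)) 1

lemma matB_cv (hi : i0 ∉ keep) : matB a i0 keep g *ᵥ cv i0 = cv i0 := by
  rw [matB, add_mulVec, proj_mulVec, regB_off a i0 keep g (v := cv i0), add_zero]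
  · simp [cv]
  · exact fun j hj => Pi.single_eq_of_ne (fun e : j = i0 => hi (e ▸ hj)) 1

lemma matK_cv (hi : i0 ∉ keep) : matK a i0 keep g *ᵥ cv i0 = cv i0 := by
  rw [matK, add_mulVec, proj_mulVec, regK_off a i0 keep g (v := cv i0), add_zero]
  · simp [cv]
  · exact fun j hj => Pi.single_eq_of_ne (fun e : j = i0 => hi (e ▸ hj)) 1

lemma sq_matB_le (ha : 0 < a) (hi : i0 ∉ keep) (v : Fin N → ℝ) :
    sq (matB a i0 keep g *ᵥ v) ≤ sq v := by
  obtain ⟨u, hu⟩ : ∃ u, u = v - v i0 • cv i0 := ⟨_, rfl⟩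
  have hu0 : u i0 = 0 := by simp [hu, cv]
  have hb : regB a (mk i0 keep g) *ᵥ v = regB a (mk i0 keep g) *ᵥ u := by
    rw [hu, mulVec_sub, regB_off a i0 keep g (v := v i0 • cv i0), sub_zero]
    intro j hj
    simp [cv, show j ≠ i0 from fun e => hi (e ▸ hj)]
  have hpy : ∀ w : Fin N → ℝ, w i0 = 0 → sq (v i0 • cv i0 + w) = v i0 ^ 2 + sq w := by
    intro w hw
    simp only [sq, Pi.add_apply, Pi.smul_apply, smul_eq_mul]
    rw [← Finset.add_sum_erase _ _ (Finset.mem_univ i0),
      ← Finset.add_sum_erase _ (fun i => w i ^ 2) (Finset.mem_univ i0)]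
    simp only [hw, cv, Pi.single_eq_same]
    rw [Finset.sum_congr rfl fun j hj => by
      rw [Pi.single_eq_of_ne (Finset.ne_of_mem_erase hj), mul_zero, zero_add]]
    ring
  have hv : v = v i0 • cv i0 + u := by rw [hu]; abel
  rw [matB, add_mulVec, proj_mulVec, hpy _ (regB_row a i0 keep g v), hb]
  conv_rhs => rw [hv]
  rw [hpy u hu0]
  linarith [sq_regB_le ha (mk i0 keep g) u]

/-- The polar factor can be chosen to fix the direction `i0`. -/
lemma exists_polar (ha : 0 < a) (hi : i0 ∉ keep) :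
    ∃ O : OMat N, act O (cv i0) = cv i0 ∧
      (O : Matrix (Fin N) (Fin N) ℝ) * matK a i0 keep g = matB a i0 keep g := by
  obtain ⟨O, hO⟩ := regB_polar ha (mk i0 keep g)
  obtain ⟨R, hR1, hR2, -⟩ := exists_refl (v := act O (cv i0)) (w := cv i0) (sq_act O _)
  refine ⟨R * O, by rw [act_mul, hR1], ext_iff_mulVec.2 fun v => ?_⟩
  rw [← mulVec_mulVec]
  show act (R * O) (matK a i0 keep g *ᵥ v) = _
  have hB : regB a (mk i0 keep g) *ᵥ v = act O (regK a (mk i0 keep g) *ᵥ v) := by
    rw [hO, ← mulVec_mulVec]; rfl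
  have horth : (act O (cv i0) - cv i0) ⬝ᵥ (regB a (mk i0 keep g) *ᵥ v) = 0 := by
    rw [sub_dotProduct, dotProduct_comm (cv i0), dot_cv, regB_row, sub_zero, hB, dot_act,
      dotProduct_comm, dot_cv, regK_row a i0 keep g hi]
  rw [matK, matB, add_mulVec, add_mulVec, proj_mulVec, act_add, act_smul, act_mul, act_mul, hR1,
    ← hB, hR2 _ horth]

end kill

/-! ### Invariance -/

lemma fix_entry {W : Finset (Fin N)} {O : OMat N} (hO : ∀ i ∈ W, ∀ v, act O v i = v i)
    {i : Fin N} (hi : i ∈ W) (j : Fin N) :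
    (O : Matrix (Fin N) (Fin N) ℝ) i j = (if i = j then 1 else 0) ∧
      (O : Matrix (Fin N) (Fin N) ℝ) j i = (if j = i then 1 else 0) := by
  constructor
  · have h := hO i hi (cv j)
    simpa [act, cv, Pi.single_apply, mulVec_single] using h
  · have h := congrFun (act_fix_supp hO (x := cv i) fun k hk =>
      Pi.single_eq_of_ne (fun e : k = i => hk (e ▸ hi)) 1) j
    simpa [act, cv, Pi.single_apply, mulVec_single] using h

lemma mk_left (i0 : Fin N) (keep : Finset (Fin N)) {S : OMat N}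
    (hS : ∀ i ∈ ({i0} : Finset (Fin N)), ∀ v, act S v i = v i) (g : Fin N × Fin N → ℝ) :
    (S : Matrix (Fin N) (Fin N) ℝ) * mk i0 keep g
      = mk i0 keep fun p => ((S : Matrix (Fin N) (Fin N) ℝ) * toMat g) p.1 p.2 := by
  ext i j
  simp only [Matrix.mul_apply, mk, toMat, Matrix.of_apply]
  have h0 : ∀ k, (S : Matrix (Fin N) (Fin N) ℝ) i0 k = (if i0 = k then 1 else 0) := fun k =>
    (fix_entry hS (Finset.mem_singleton_self i0) k).1
  have h1 : ∀ k, (S : Matrix (Fin N) (Fin N) ℝ) k i0 = (if k = i0 then 1 else 0) := fun k =>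
    (fix_entry hS (Finset.mem_singleton_self i0) k).2
  split_ifs with h
  · refine Finset.sum_congr rfl fun k _ => ?_
    by_cases hk : k = i0
    · subst hk; rw [h1, if_neg h.1]; simp
    · simp [hk, h.2]
  · rcases not_and_or.1 h with h | h
    · rw [not_ne_iff] at h
      subst h
      refine Finset.sum_eq_zero fun k _ => ?_
      rw [h0]
      by_cases hk : k = i
      · simp [hk]
      · simp [hk, Ne.symm hk]
    · exact Finset.sum_eq_zero fun k _ => by simp [h]

lemma matB_left {a : ℝ} (ha : 0 < a) (i0 : Fin N) (keep : Finset (Fin N)) {S : OMat N}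
    (hS : ∀ i ∈ ({i0} : Finset (Fin N)), ∀ v, act S v i = v i) (g : Fin N × Fin N → ℝ) :
    (S : Matrix (Fin N) (Fin N) ℝ) * matB a i0 keep g
      = matB a i0 keep fun p => ((S : Matrix (Fin N) (Fin N) ℝ) * toMat g) p.1 p.2 := by
  have he : act S (cv i0) = cv i0 := act_fix_supp hS fun k hk =>
    Pi.single_eq_of_ne (fun e => hk (by simp [e])) 1
  rw [matB, matB, Matrix.mul_add, ← regB_left ha, mk_left i0 keep hS, mul_vecMulVec]
  rw [show (S : Matrix (Fin N) (Fin N) ℝ) *ᵥ cv i0 = cv i0 from he]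

lemma fix_of_cv {S : OMat N} {i0 : Fin N} (h : act S (cv i0) = cv i0) :
    ∀ i ∈ ({i0} : Finset (Fin N)), ∀ v, act S v i = v i := by
  intro i hi v
  rw [Finset.mem_singleton.1 hi, ← dot_cv (act S v) i0, ← dot_cv v i0]
  conv_lhs => rw [← h]
  exact dot_act S v (cv i0)

lemma mk_right (i0 : Fin N) (keep : Finset (Fin N)) {R : OMat N}
    (hR : ∀ i ∈ keepᶜ, ∀ v, act R v i = v i) (g : Fin N × Fin N → ℝ) :
    mk i0 keep g * (R : Matrix (Fin N) (Fin N) ℝ)
      = mk i0 keep fun p => (toMat g * (R : Matrix (Fin N) (Fin N) ℝ)) p.1 p.2 := by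
  ext i j
  simp only [Matrix.mul_apply, mk, toMat, Matrix.of_apply]
  have h0 : ∀ k, k ∉ keep → ∀ m, (R : Matrix (Fin N) (Fin N) ℝ) k m = (if k = m then 1 else 0) :=
    fun k hk m => (fix_entry hR (Finset.mem_compl.2 hk) m).1
  have h1 : ∀ k, k ∉ keep → ∀ m, (R : Matrix (Fin N) (Fin N) ℝ) m k = (if m = k then 1 else 0) :=
    fun k hk m => (fix_entry hR (Finset.mem_compl.2 hk) m).2
  split_ifs with h
  · refine Finset.sum_congr rfl fun k _ => ?_
    by_cases hk : k ∈ keep
    · simp [h.1, hk]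
    · rw [h0 k hk, if_neg (fun e : k = j => hk (e ▸ h.2))]; simp
  · rcases not_and_or.1 h with h | h
    · exact Finset.sum_eq_zero fun k _ => by simp [h]
    · refine Finset.sum_eq_zero fun k _ => ?_
      by_cases hk : k ∈ keep
      · rw [h1 j h, if_neg (fun e : k = j => h (e ▸ hk))]; simp
      · simp [hk]

/-! ### The defect -/

/-- A family of `k` vectors can be rotated into the span of `k` coordinates. -/
lemma exists_supp {α : Type*} (s : Finset α) (f : α → Fin N → ℝ) :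
    ∃ (O : OMat N) (T : Finset (Fin N)),
      T.card ≤ s.card ∧ ∀ x ∈ s, ∀ i ∉ T, act O (f x) i = 0 := by
  induction s using Finset.cons_induction with
  | empty => exact ⟨1, ∅, le_rfl, by simp⟩
  | cons x s hx ih =>
    obtain ⟨O, T, hT, hO⟩ := ih
    by_cases hTu : ∀ i, i ∈ T
    · exact ⟨O, T, hT.trans (by simp), fun y _ i hi => absurd (hTu i) hi⟩
    push Not at hTu
    obtain ⟨j, hj⟩ := hTu
    obtain ⟨y, hy⟩ : ∃ y, y = act O (f x) := ⟨_, rfl⟩
    obtain ⟨u, hu⟩ : ∃ u : Fin N → ℝ, u = fun i => if i ∈ T then 0 else y i := ⟨_, rfl⟩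
    have hsq : sq u = sq (Real.sqrt (sq u) • cv j) := by
      rw [sq_smul, Real.sq_sqrt (sq_nonneg' u), sq_cv, mul_one]
    obtain ⟨R, hR, hRu⟩ := exists_map_vec T (v := u) (w := Real.sqrt (sq u) • cv j)
      (fun i hi => by simp [hu, hi])
      (fun i hi => by simp [cv, show i ≠ j from fun e => hj (e ▸ hi)]) hsq
    refine ⟨R * O, insert j T, (Finset.card_insert_le _ _).trans (by simpa using hT),
      fun z hz i hi => ?_⟩
    rw [Finset.mem_insert, not_or] at hi
    rw [act_mul]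
    rcases Finset.mem_cons.1 hz with rfl | hz
    · rw [← hy]
      have hsplit : y = (y - u) + u := by abel
      rw [hsplit, act_add, hRu, act_fix_supp hR (x := y - u) (fun k hk => by simp [hu, hk])]
      simp [hu, hi.2, cv, hi.1]
    · rw [act_fix_supp hR fun k hk => hO z hz k hk]
      exact hO z hz i hi.2

lemma orth_sq {ι : Type*} [Fintype ι] [DecidableEq ι] {P : Matrix ι ι ℝ} (hP : IsOrth P)
    (x : ι → ℝ) : (P *ᵥ x) ⬝ᵥ (P *ᵥ x) = x ⬝ᵥ x := by
  rw [dotProduct_mulVec, ← mulVec_transpose, mulVec_mulVec, hP.left, one_mulVec]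

/-- If a column stays at squared distance `Q` from the others, the defect at it is small. -/
lemma defect_at {a Q : ℝ} (ha : 0 < a) (hQ : 0 ≤ Q) (G : Matrix (Fin N) (Fin N) ℝ) (j0 : Fin N)
    (h : ∀ y : Fin N → ℝ, Q * y j0 ^ 2 ≤ sq (G *ᵥ y)) :
    sq ((1 - regK a G) *ᵥ cv j0) ≤ a / (a + Q) := by
  have hG := gram_isHermitian G
  obtain ⟨P, hPd⟩ : ∃ P : Matrix (Fin N) (Fin N) ℝ,
      P = (hG.eigenvectorUnitary : Matrix (Fin N) (Fin N) ℝ) := ⟨_, rfl⟩
  have hP : IsOrth P := hPd ▸ isOrth_eig hG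
  obtain ⟨lam, hlam⟩ : ∃ lam, lam = hG.eigenvalues := ⟨_, rfl⟩
  have hl0 : ∀ i, 0 ≤ lam i := fun i => hlam ▸ gram_nonneg hG i
  obtain ⟨c, hc⟩ : ∃ c, c = Pᵀ *ᵥ cv j0 := ⟨_, rfl⟩
  obtain ⟨d, hd⟩ : ∃ d : Fin N → ℝ, d = fun i => c i / (lam i + a) := ⟨_, rfl⟩
  obtain ⟨X, hX⟩ : ∃ X, X = ∑ i, c i ^ 2 / (lam i + a) := ⟨_, rfl⟩
  have hX0 : 0 ≤ X := hX ▸ Finset.sum_nonneg fun i _ =>
    div_nonneg (sq_nonneg _) (by linarith [hl0 i])
  -- the quadratic form at `w = P d`
  have hyj : (P *ᵥ d) j0 = X := by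
    rw [← dot_cv (P *ᵥ d) j0, dotProduct_comm, dotProduct_mulVec, ← mulVec_transpose, ← hc, hX]
    simp only [dotProduct, hd]
    exact Finset.sum_congr rfl fun i _ => by ring
  have hy2 : sq (P *ᵥ d) = ∑ i, d i ^ 2 := by
    rw [sq_eq_dot, orth_sq hP, ← sq_eq_dot]; rfl
  have hGy : sq (G *ᵥ (P *ᵥ d)) = ∑ i, lam i * d i ^ 2 := by
    calc sq (G *ᵥ (P *ᵥ d)) = (P *ᵥ d) ⬝ᵥ ((Gᵀ * G) *ᵥ (P *ᵥ d)) := by
          rw [sq_eq_dot]
          conv_rhs => rw [← mulVec_mulVec, dotProduct_mulVec, vecMul_transpose]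
      _ = d ⬝ᵥ ((Pᵀ * (Gᵀ * G) * P) *ᵥ d) := by
          conv_rhs => rw [← mulVec_mulVec, ← mulVec_mulVec, dotProduct_mulVec, vecMul_transpose]
      _ = _ := by
          have e : Pᵀ * (Gᵀ * G) * P = diagonal lam := by
            conv_lhs => rw [eig_decomp hG, ← hPd, ← hlam]
            simp only [← Matrix.mul_assoc, hP.left, Matrix.one_mul]
            rw [Matrix.mul_assoc, hP.left, Matrix.mul_one]
          rw [e]
          simp only [dotProduct, mulVec_diagonal]
          exact Finset.sum_congr rfl fun i _ => by ring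
  have hcX : ∑ i, lam i * d i ^ 2 + a * ∑ i, d i ^ 2 = X := by
    rw [hX, Finset.mul_sum, ← Finset.sum_add_distrib]
    refine Finset.sum_congr rfl fun i _ => ?_
    have := hl0 i
    simp only [hd]
    field_simp
  have hkey : (a + Q) * X ^ 2 ≤ X := by
    have h1 := h (P *ᵥ d)
    rw [hyj, hGy] at h1
    have h2 : X ^ 2 ≤ ∑ i, d i ^ 2 := by
      rw [← hy2, ← hyj]
      exact Finset.single_le_sum (f := fun i => (P *ᵥ d) i ^ 2) (fun i _ => sq_nonneg _)
        (Finset.mem_univ j0)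
    have h3 := mul_le_mul_of_nonneg_left h2 ha.le
    linarith
  have hXle : X ≤ 1 / (a + Q) := by
    rw [le_div_iff₀ (by linarith)]
    rcases hX0.eq_or_lt with h0 | h0
    · rw [← h0]; simp
    · exact le_of_mul_le_mul_left (by linarith : X * (X * (a + Q)) ≤ X * 1) h0
  have e : (1 - regK a G) *ᵥ cv j0
      = P *ᵥ (fun i => (1 - Real.sqrt (lam i) / Real.sqrt (lam i + a)) * c i) := by
    rw [regK_eq, symFn_def _ hG, ← hPd, ← hlam, sub_mulVec, one_mulVec, ← mulVec_mulVec,
      ← mulVec_mulVec, ← hc]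
    have e1 : cv j0 = P *ᵥ c := by rw [hc, mulVec_mulVec, hP.right, one_mulVec]
    rw [e1, ← mulVec_sub]
    congr 1
    funext i
    simp only [Pi.sub_apply, mulVec_diagonal, Function.comp_apply]
    ring
  rw [e, sq_eq_dot, orth_sq hP]
  simp only [dotProduct]
  calc ∑ i, (1 - Real.sqrt (lam i) / Real.sqrt (lam i + a)) * c i
        * ((1 - Real.sqrt (lam i) / Real.sqrt (lam i + a)) * c i)
      ≤ ∑ i, a * (c i ^ 2 / (lam i + a)) := by
        refine Finset.sum_le_sum fun i _ => ?_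
        have hl := hl0 i
        obtain ⟨k, hk⟩ : ∃ k, k = Real.sqrt (lam i) / Real.sqrt (lam i + a) := ⟨_, rfl⟩
        have hk0 : 0 ≤ k := hk ▸ by positivity
        have hk1 : k ≤ 1 := by
          rw [hk, div_le_one (Real.sqrt_pos.2 (by linarith))]
          exact Real.sqrt_le_sqrt (by linarith)
        have hk2 : k ^ 2 = 1 - a / (lam i + a) := by
          rw [hk, div_pow, Real.sq_sqrt hl, Real.sq_sqrt (by linarith)]
          field_simp; ring
        rw [← hk, show a * (c i ^ 2 / (lam i + a)) = a / (lam i + a) * c i ^ 2 by ring,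
          show (1 - k) * c i * ((1 - k) * c i) = (1 - k) ^ 2 * c i ^ 2 by ring]
        refine mul_le_mul_of_nonneg_right ?_ (sq_nonneg _)
        nlinarith
    _ = a * X := by rw [hX, Finset.mul_sum]
    _ ≤ a / (a + Q) := by
        rw [div_eq_mul_one_div a (a + Q)]
        exact mul_le_mul_of_nonneg_left hXle ha.le

/-- One column may be resampled. -/
lemma gauss_col (j0 : Fin N) :
    Measure.map (fun q : (Fin N × Fin N → ℝ) × (Fin N → ℝ) => fun p : Fin N × Fin N =>
        if p.2 = j0 then q.2 p.1 else q.1 p)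
      ((gauss (Fin N × Fin N)).prod (gauss (Fin N))) = gauss (Fin N × Fin N) := by
  have hm : Measurable (fun q : (Fin N × Fin N → ℝ) × (Fin N → ℝ) => fun p : Fin N × Fin N =>
      if p.2 = j0 then q.2 p.1 else q.1 p) := measurable_pi_lambda _ fun p => by
    split_ifs <;> fun_prop
  refine (Measure.pi_eq fun s hs => ?_).symm
  rw [Measure.map_apply hm (MeasurableSet.univ_pi hs)]
  have e : (fun q : (Fin N × Fin N → ℝ) × (Fin N → ℝ) => fun p : Fin N × Fin N =>
      if p.2 = j0 then q.2 p.1 else q.1 p) ⁻¹' (Set.univ.pi s)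
      = (Set.univ.pi fun p : Fin N × Fin N => if p.2 = j0 then Set.univ else s p)
        ×ˢ (Set.univ.pi fun i => s (i, j0)) := by
    ext ⟨g, h⟩
    simp only [Set.mem_preimage, Set.mem_pi, Set.mem_univ, true_implies, Set.mem_prod]
    constructor
    · intro H
      refine ⟨fun p => ?_, fun i => by simpa using H (i, j0)⟩
      split_ifs with hp
      · trivial
      · simpa [hp] using H p
    · rintro ⟨H1, H2⟩ p
      have h1 := H1 p
      obtain ⟨i, j⟩ := p
      by_cases hp : j = j0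
      · subst hp; simpa using H2 i
      · simpa [hp] using h1
  rw [e, Measure.prod_prod, Measure.pi_pi, Measure.pi_pi, Fintype.prod_prod_type,
    Fintype.prod_prod_type, ← Finset.prod_mul_distrib]
  refine Finset.prod_congr rfl fun i _ => ?_
  rw [← Finset.mul_prod_erase Finset.univ _ (Finset.mem_univ j0),
    ← Finset.mul_prod_erase Finset.univ (fun j => gaussianReal 0 1 (s (i, j))) (Finset.mem_univ j0)]
  simp only [if_true, measure_univ, one_mul]
  rw [mul_comm, Finset.prod_congr rfl fun j hj => by rw [if_neg (Finset.ne_of_mem_erase hj)]]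

lemma small_ball (S : Finset (Fin N)) {t : ℝ} (ht : 0 < t) :
    (gauss (Fin N)).real {h | ∑ i ∈ S, h i ^ 2 ≤ t}
      ≤ Real.exp ((N : ℝ) / 2 - S.card * Real.log (1 + N / t) / 2) := by
  classical
  obtain ⟨s, hs⟩ : ∃ s, s = (N : ℝ) / t := ⟨_, rfl⟩
  have hs0 : 0 ≤ s := hs ▸ by positivity
  have hq : ∀ h : Fin N → ℝ, quad (fun i => if i ∈ S then -s else 0) h
      = -(s * ∑ i ∈ S, h i ^ 2) := fun h => by
    simp [quad, ite_mul, Finset.sum_ite_mem, Finset.mul_sum]
  have h := gauss_quad_ge (r := fun i => if i ∈ S then -s else 0)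
    (fun i => by split_ifs <;> linarith) (-(s * t))
  have hlog : (∑ i : Fin N, Real.log (1 - if i ∈ S then -s else 0))
      = S.card * Real.log (1 + s) := by
    rw [← Finset.sum_add_sum_compl S, Finset.sum_congr rfl fun i hi => by rw [if_pos hi],
      Finset.sum_eq_zero (s := Sᶜ) fun i hi => by
        rw [if_neg (Finset.mem_compl.1 hi), sub_zero, Real.log_one]]
    simp
  simp only [hq, hlog] at h
  refine (measureReal_mono (s₂ := {x : Fin N → ℝ | -(s * t) ≤ -(s * ∑ i ∈ S, x i ^ 2)})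
    fun x hx => ?_).trans (h.trans (le_of_eq ?_))
  · have hx' : ∑ i ∈ S, x i ^ 2 ≤ t := hx
    show -(s * t) ≤ -(s * ∑ i ∈ S, x i ^ 2)
    linarith [mul_le_mul_of_nonneg_left hx' hs0]
  · rw [← hs, show s * t = N by rw [hs]; field_simp]
    ring_nf

/-- The defect at one coordinate vector is large with tiny probability. -/
lemma defect_prob {ε θ : ℝ} (hε : 0 < ε) (hθ : 0 < θ) (i0 : Fin N) (keep : Finset (Fin N))
    (j0 : Fin N) (hj0 : j0 ∈ keep) :
    (gauss (Fin N × Fin N)).real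
        {g | θ < sq ((1 - regK (ε * N) (mk i0 keep g)) *ᵥ cv j0)}
      ≤ Real.exp ((N : ℝ) / 2 - (keepᶜ : Finset (Fin N)).card * Real.log (1 + θ / ε) / 2) := by
  have hN : (0 : ℝ) < N := Nat.cast_pos.2 (Fin.pos i0)
  have ha : 0 < ε * (N : ℝ) := mul_pos hε hN
  have hc : Continuous fun g : Fin N × Fin N → ℝ =>
      sq ((1 - regK (ε * N) (mk i0 keep g)) *ᵥ cv j0) := by
    have hK : Continuous fun g : Fin N × Fin N → ℝ => regK (ε * N) (mk i0 keep g) :=
      (continuous_of_frob_le (C := 2 / (ε * N)) fun G H =>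
        (regK_lip ha G H).trans_eq (div_mul_eq_mul_div _ _ _).symm).comp (continuous_mk i0 keep)
    exact continuous_sq.comp ((continuous_const.sub hK).matrix_mulVec continuous_const)
  have hm : MeasurableSet {g | θ < sq ((1 - regK (ε * N) (mk i0 keep g)) *ᵥ cv j0)} :=
    measurableSet_lt measurable_const hc.measurable
  have hpm : Measurable (fun q : (Fin N × Fin N → ℝ) × (Fin N → ℝ) => fun p : Fin N × Fin N =>
      if p.2 = j0 then q.2 p.1 else q.1 p) := measurable_pi_lambda _ fun p => by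
    split_ifs <;> fun_prop
  refine ENNReal.toReal_le_of_le_ofReal (Real.exp_pos _).le ?_
  conv_lhs => rw [← gauss_col j0]
  rw [Measure.map_apply hpm hm, Measure.prod_apply (hpm hm)]
  refine (lintegral_mono (g := fun _ => ENNReal.ofReal (Real.exp ((N : ℝ) / 2
    - (keepᶜ : Finset (Fin N)).card * Real.log (1 + θ / ε) / 2))) fun g => ?_).trans
      (le_of_eq (by simp))
  rw [← ofReal_measureReal]
  refine ENNReal.ofReal_le_ofReal ?_
  -- rotate the other columns into few coordinates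
  obtain ⟨col, hcol⟩ : ∃ col : Fin N → Fin N → ℝ,
      col = fun j => if j = j0 then cv i0 else fun i => mk i0 keep g i j := ⟨_, rfl⟩
  obtain ⟨O, T, hT, hO⟩ := exists_supp keep col
  have hS : (keepᶜ : Finset (Fin N)).card ≤ (Tᶜ : Finset (Fin N)).card := by
    rw [Finset.card_compl, Finset.card_compl]; omega
  have hrot := gauss_act O
  have hlt : (gauss (Fin N)).real {h | ∑ i ∈ Tᶜ, act O h i ^ 2 ≤ ε * N / θ}
      ≤ Real.exp ((N : ℝ) / 2 - (keepᶜ : Finset (Fin N)).card * Real.log (1 + θ / ε) / 2) := by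
    have hmS : MeasurableSet {h : Fin N → ℝ | ∑ i ∈ Tᶜ, h i ^ 2 ≤ ε * N / θ} :=
      measurableSet_le (by fun_prop) measurable_const
    have e : (gauss (Fin N)).real {h | ∑ i ∈ Tᶜ, act O h i ^ 2 ≤ ε * N / θ}
        = (gauss (Fin N)).real {h | ∑ i ∈ Tᶜ, h i ^ 2 ≤ ε * N / θ} := by
      conv_rhs => rw [← hrot, map_measureReal_apply (continuous_act_right O).measurable hmS]
      rfl
    rw [e]
    refine (small_ball Tᶜ (by positivity)).trans (Real.exp_le_exp.2 ?_)
    rw [show (N : ℝ) / (ε * N / θ) = θ / ε by field_simp]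
    have hl : 0 ≤ Real.log (1 + θ / ε) := Real.log_nonneg (by linarith [div_pos hθ hε])
    have := mul_le_mul_of_nonneg_right (Nat.cast_le (α := ℝ).2 hS) hl
    linarith
  refine le_trans (measureReal_mono fun h hh => ?_) hlt
  simp only [Set.mem_preimage, Set.mem_ofPred_eq] at hh ⊢
  by_contra hQ
  rw [not_le] at hQ
  obtain ⟨G, hG⟩ : ∃ G, G = mk i0 keep (fun p : Fin N × Fin N => if p.2 = j0 then h p.1 else g p) :=
    ⟨_, rfl⟩
  rw [← hG] at hh
  have hOG : ∀ y : Fin N → ℝ, ∀ i ∈ Tᶜ, act O (G *ᵥ y) i = y j0 * act O h i := by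
    intro y i hi
    rw [Finset.mem_compl] at hi
    have e : G *ᵥ y = ∑ j, y j • fun k => G k j := by
      funext k
      simp only [mulVec, dotProduct, Finset.sum_apply, Pi.smul_apply, smul_eq_mul]
      exact Finset.sum_congr rfl fun j _ => mul_comm _ _
    have hlin : act O (∑ j, y j • fun k => G k j) = ∑ j, y j • act O fun k => G k j := by
      simp only [act, mulVec_sum, mulVec_smul]
    rw [e, hlin, Finset.sum_apply, Finset.sum_eq_single j0]
    · have hGj : (fun k => G k j0) = h - h i0 • cv i0 := by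
        funext k
        by_cases hk : k = i0
        · subst hk; simp [hG, mk, cv]
        · simp [hG, mk, cv, hk, hj0]
      have he := hO j0 hj0 i hi
      simp only [hcol, if_true] at he
      rw [Pi.smul_apply, smul_eq_mul, hGj, sub_eq_add_neg, ← neg_smul, act_add, act_smul,
        Pi.add_apply, Pi.smul_apply, he, smul_zero, add_zero]
    · intro j _ hj
      rw [Pi.smul_apply, smul_eq_mul]
      by_cases hjk : j ∈ keep
      · have he := hO j hjk i hi
        simp only [hcol, if_neg hj] at he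
        have : (fun k => G k j) = fun k => mk i0 keep g k j := by
          funext k; simp [hG, mk, hj]
        rw [this, he, mul_zero]
      · have : (fun k => G k j) = 0 := by funext k; simp [hG, mk, hjk]
        rw [this]
        simp [act]
    · intro h'; exact absurd (Finset.mem_univ _) h'
  have hQ0 : (0 : ℝ) ≤ ∑ i ∈ Tᶜ, act O h i ^ 2 := Finset.sum_nonneg fun i _ => sq_nonneg _
  have hb := defect_at ha hQ0 G j0 fun y => by
    rw [← sq_act O (G *ᵥ y), sq, Finset.sum_mul]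
    refine le_trans (le_of_eq (Finset.sum_congr rfl fun i hi => ?_))
      (Finset.sum_le_sum_of_subset_of_nonneg (Finset.subset_univ Tᶜ) fun i _ _ => sq_nonneg _)
    rw [hOG y i hi]; ring
  have : ε * N / (ε * N + ∑ i ∈ Tᶜ, act O h i ^ 2) ≤ θ := by
    rw [div_le_iff₀ (by linarith)]
    rw [div_lt_iff₀ hθ] at hQ
    have := mul_pos hθ ha
    linarith
  linarith

/-- The defect at a fixed vector supported in `keep`. -/
lemma defect_vec {ε θ : ℝ} (hε : 0 < ε) (hθ : 0 < θ) (i0 : Fin N) (keep : Finset (Fin N))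
    {v : Fin N → ℝ} (hv : ∀ i ∉ keep, v i = 0) (hvN : sq v ≤ N) :
    (gauss (Fin N × Fin N)).real
        {g | θ * N < sq ((1 - regK (ε * N) (mk i0 keep g)) *ᵥ v)}
      ≤ Real.exp ((N : ℝ) / 2 - (keepᶜ : Finset (Fin N)).card * Real.log (1 + θ / ε) / 2) := by
  have hN : (0 : ℝ) < N := Nat.cast_pos.2 (Fin.pos i0)
  have ha : 0 < ε * (N : ℝ) := mul_pos hε hN
  by_cases hk : keep = ∅
  · have : v = 0 := funext fun i => hv i (by simp [hk])
    subst this
    have he : {g : Fin N × Fin N → ℝ |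
        θ * N < sq ((1 - regK (ε * N) (mk i0 keep g)) *ᵥ (0 : Fin N → ℝ))} = ∅ :=
      Set.eq_empty_of_forall_notMem fun g hg => by
        simp [sq] at hg
        linarith [mul_pos hθ hN]
    rw [he, measureReal_empty]
    exact (Real.exp_pos _).le
  obtain ⟨j0, hj0⟩ := Finset.nonempty_of_ne_empty hk
  obtain ⟨c, hc⟩ : ∃ c, c = Real.sqrt (sq v) := ⟨_, rfl⟩
  have hc2 : c ^ 2 = sq v := hc ▸ Real.sq_sqrt (sq_nonneg' v)
  obtain ⟨R, hR, hRv⟩ := exists_map_vec keepᶜ (v := c • cv j0) (w := v)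
    (fun i hi => by
      simp [cv, show i ≠ j0 from fun e => Finset.mem_compl.1 hi (e ▸ hj0)])
    (fun i hi => hv i (Finset.mem_compl.1 hi)) (by rw [sq_smul, sq_cv, mul_one, hc2])
  obtain ⟨φ, hφ⟩ : ∃ φ : (Fin N × Fin N → ℝ) → Fin N × Fin N → ℝ,
      φ = fun g p => (toMat g * (R : Matrix (Fin N) (Fin N) ℝ)) p.1 p.2 := ⟨_, rfl⟩
  have hmap : (gauss (Fin N × Fin N)).map φ = gauss (Fin N × Fin N) := by
    have h := gauss_mat_map 1 R
    simpa [hφ] using h
  have hφm : Measurable φ := by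
    rw [hφ]
    refine measurable_pi_lambda _ fun p => ?_
    simp only [Matrix.mul_apply, toMat, Matrix.of_apply]
    fun_prop
  have hKc : Continuous fun g : Fin N × Fin N → ℝ => regK (ε * N) (mk i0 keep g) :=
    (continuous_of_frob_le (C := 2 / (ε * N)) fun G H =>
      (regK_lip ha G H).trans_eq (div_mul_eq_mul_div _ _ _).symm).comp (continuous_mk i0 keep)
  have hm : MeasurableSet {g : Fin N × Fin N → ℝ |
      θ < sq ((1 - regK (ε * N) (mk i0 keep g)) *ᵥ cv j0)} :=
    measurableSet_lt measurable_const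
      (continuous_sq.comp ((continuous_const.sub hKc).matrix_mulVec continuous_const)).measurable
  refine le_trans ?_ (defect_prob hε hθ i0 keep j0 hj0)
  conv_rhs => rw [← hmap, map_measureReal_apply hφm hm]
  refine measureReal_mono fun g hg => ?_
  simp only [Set.mem_preimage, Set.mem_ofPred_eq] at hg ⊢
  have hK : regK (ε * N) (mk i0 keep (φ g))
      = (R : Matrix (Fin N) (Fin N) ℝ)ᵀ * regK (ε * N) (mk i0 keep g)
          * (R : Matrix (Fin N) (Fin N) ℝ) := by
    rw [hφ, ← mk_right i0 keep hR, regK_right ha]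
  have e : (1 - regK (ε * N) (mk i0 keep g)) *ᵥ v
      = c • act R ((1 - regK (ε * N) (mk i0 keep (φ g))) *ᵥ cv j0) := by
    rw [← act_smul, ← mulVec_smul, ← hRv, hK]
    simp only [act, mulVec_mulVec, Matrix.mul_sub, Matrix.sub_mul, Matrix.mul_one,
      Matrix.one_mul, ← Matrix.mul_assoc, (isOrth_OMat R).right]
  rw [e, sq_smul, sq_act, hc2] at hg
  by_contra hle
  rw [not_lt] at hle
  have := mul_le_mul hvN hle (sq_nonneg' _) hN.le
  linarith

/-- An orthogonal change of coordinates: the vector of ones becomes `√N e`, and a small set of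
coordinates carries little mass of every configuration. -/
lemma exists_frame {A : Finset (Fin N)} {i0 : Fin N} (hi : i0 ∈ A) :
    ∃ O : OMat N, act O (fun _ => (1 : ℝ)) = Real.sqrt N • cv i0 ∧
      ∀ s : Fin N → Bool, ∑ i ∈ A.erase i0, act O (spin s) i ^ 2 ≤ A.card := by
  classical
  obtain ⟨v, hv⟩ : ∃ v : Fin N → ℝ, v = fun i => if i ∈ A then 1 else 0 := ⟨_, rfl⟩
  have hsv : sq v = A.card := by
    have e : ∀ i, (if i ∈ A then (1 : ℝ) else 0) ^ 2 = if i ∈ A then 1 else 0 := fun i => by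
      split_ifs <;> norm_num
    simp [sq, hv, e]
  obtain ⟨O1, h1, h1v⟩ := exists_map_vec Aᶜ (v := v) (w := Real.sqrt A.card • cv i0)
    (fun i hi' => by simp [hv, Finset.mem_compl.1 hi'])
    (fun i hi' => by
      simp [cv, show i ≠ i0 from fun e => Finset.mem_compl.1 hi' (e ▸ hi)])
    (by rw [hsv, sq_smul, sq_cv, mul_one, Real.sq_sqrt (Nat.cast_nonneg _)])
  obtain ⟨w, hw⟩ : ∃ w, w = act O1 (fun _ => (1 : ℝ)) := ⟨_, rfl⟩
  have hwD : ∀ i ∈ A.erase i0, w i = 0 := by
    intro i hi'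
    have hsplit : (fun _ => (1 : ℝ)) = v + ((fun _ => (1 : ℝ)) - v) := by abel
    rw [hw, hsplit, act_add, h1v, act_fix_supp h1 (x := (fun _ => (1 : ℝ)) - v) fun k hk => by
      simp [hv, show k ∈ A by simpa using hk]]
    simp [hv, Finset.mem_of_mem_erase hi', cv, Finset.ne_of_mem_erase hi']
  obtain ⟨O2, h2, h2w⟩ := exists_map_vec (A.erase i0) (v := w) (w := Real.sqrt N • cv i0) hwD
    (fun i hi' => by simp [cv, Finset.ne_of_mem_erase hi'])
    (by rw [hw, sq_act, sq_smul, sq_cv, Real.sq_sqrt (Nat.cast_nonneg _)]; simp [sq])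
  refine ⟨O2 * O1, by rw [act_mul, ← hw, h2w], fun s => ?_⟩
  have hs : sq (act O1 (spin s)) = N := by rw [sq_act, sq_spin]
  rw [sq, ← Finset.sum_add_sum_compl A,
    Finset.sum_congr (s₁ := Aᶜ) rfl fun i hi' => by rw [h1 i hi' (spin s)]] at hs
  have hone : ∀ i, spin s i ^ 2 = 1 := fun i => by unfold spin; split_ifs <;> norm_num
  simp only [hone, Finset.sum_const, nsmul_eq_mul, mul_one, Finset.card_compl, Fintype.card_fin]
    at hs
  rw [Nat.cast_sub (by simpa using Finset.card_le_univ A)] at hs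
  calc ∑ i ∈ A.erase i0, act (O2 * O1) (spin s) i ^ 2
      = ∑ i ∈ A.erase i0, act O1 (spin s) i ^ 2 :=
        Finset.sum_congr rfl fun i hi' => by rw [act_mul, h2 i hi']
    _ ≤ ∑ i ∈ A, act O1 (spin s) i ^ 2 :=
        Finset.sum_le_sum_of_subset_of_nonneg (Finset.erase_subset _ _) fun i _ _ => sq_nonneg _
    _ ≤ A.card := by linarith

/-- The effect of `matK` on a vector. -/
lemma sq_matK_sub_le (a : ℝ) {A : Finset (Fin N)} {i0 : Fin N} (hi : i0 ∈ A)
    (g : Fin N × Fin N → ℝ) (v : Fin N → ℝ) :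
    sq (matK a i0 Aᶜ g *ᵥ v - v) ≤ 2 * ∑ i ∈ A.erase i0, v i ^ 2
      + 2 * sq ((1 - regK a (mk i0 Aᶜ g)) *ᵥ fun i => if i ∈ Aᶜ then v i else 0) := by
  classical
  obtain ⟨u, hu⟩ : ∃ u : Fin N → ℝ, u = fun i => if i ∈ Aᶜ then v i else 0 := ⟨_, rfl⟩
  obtain ⟨d, hd⟩ : ∃ d : Fin N → ℝ, d = fun i => if i ∈ A.erase i0 then v i else 0 := ⟨_, rfl⟩
  have hK : regK a (mk i0 Aᶜ g) *ᵥ v = regK a (mk i0 Aᶜ g) *ᵥ u := by
    have h := regK_off a i0 Aᶜ g (v := v - u) fun j hj => by simp [hu, Finset.mem_compl.1 hj]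
    rwa [mulVec_sub, sub_eq_zero] at h
  have hv : v = v i0 • cv i0 + d + u := by
    funext i
    by_cases h : i = i0
    · subst h; simp [hu, hd, cv, hi]
    · by_cases hA : i ∈ A
      · simp [hu, hd, cv, h, hA]
      · simp [hu, hd, cv, h, hA]
  have e : matK a i0 Aᶜ g *ᵥ v - v = -d + -((1 - regK a (mk i0 Aᶜ g)) *ᵥ u) := by
    rw [matK, add_mulVec, proj_mulVec, hK, sub_mulVec, one_mulVec]
    conv_lhs => enter [2]; rw [hv]
    abel
  have hsd : sq d = ∑ i ∈ A.erase i0, v i ^ 2 := by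
    rw [sq, hd, ← Finset.sum_subset (Finset.subset_univ (A.erase i0))]
    · exact Finset.sum_congr rfl fun i hi' => by simp [hi']
    · intro i _ hi'; simp [hi']
  rw [e, ← hu, ← hsd]
  simp only [sq, Pi.add_apply, Pi.neg_apply, Finset.mul_sum, ← Finset.sum_add_distrib]
  refine Finset.sum_le_sum fun i _ => ?_
  nlinarith [sq_nonneg (d i - ((1 - regK a (mk i0 Aᶜ g)) *ᵥ u) i)]

/-- Outside an event of exponentially small probability, `matK` moves no configuration much. -/
theorem defect_union {κ : ℝ} (hκ : 0 < κ) (A : Finset (Fin N)) {i0 : Fin N} (hi : i0 ∈ A)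
    (hA : κ * N ≤ A.card) (hA2 : (A.card : ℝ) ≤ 2 * κ * N) (O : OMat N)
    (hO : ∀ s : Fin N → Bool, ∑ i ∈ A.erase i0, act O (spin s) i ^ 2 ≤ A.card) :
    (gauss (Fin N × Fin N)).real {g | ∃ s : Fin N → Bool, 6 * κ * N
        < sq (matK (κ * Real.exp (-(5 / κ)) * N) i0 Aᶜ g *ᵥ act O (spin s) - act O (spin s))}
      ≤ Real.exp (-(N : ℝ)) := by
  classical
  obtain ⟨ε, hε⟩ : ∃ ε, ε = κ * Real.exp (-(5 / κ)) := ⟨_, rfl⟩
  have hε0 : 0 < ε := hε ▸ by positivity
  obtain ⟨u, hu⟩ : ∃ u : (Fin N → Bool) → Fin N → ℝ,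
      u = fun s i => if i ∈ Aᶜ then act O (spin s) i else 0 := ⟨_, rfl⟩
  rw [← hε]
  refine (measureReal_mono (s₂ := ⋃ s : Fin N → Bool,
    {g | κ * N < sq ((1 - regK (ε * N) (mk i0 Aᶜ g)) *ᵥ u s)}) fun g hg => ?_).trans ?_
  · obtain ⟨s, hs⟩ := hg
    refine Set.mem_iUnion.2 ⟨s, ?_⟩
    show κ * N < _
    have h := sq_matK_sub_le (ε * N) hi g (act O (spin s))
    rw [show (fun i => if i ∈ Aᶜ then act O (spin s) i else 0) = u s by rw [hu]] at h
    linarith [hO s]
  refine (measureReal_iUnion_fintype_le _).trans ?_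
  have hs : ∀ s : Fin N → Bool, (gauss (Fin N × Fin N)).real
      {g | κ * N < sq ((1 - regK (ε * N) (mk i0 Aᶜ g)) *ᵥ u s)}
      ≤ Real.exp (-(2 * N : ℝ)) := by
    intro s
    refine (defect_vec hε0 hκ i0 Aᶜ (v := u s) (fun i hi' => by simp only [hu, if_neg hi'])
      ?_).trans (Real.exp_le_exp.2 ?_)
    · refine le_trans ?_ (le_of_eq (by rw [sq_act, sq_spin] : sq (act O (spin s)) = N))
      refine Finset.sum_le_sum fun i _ => ?_
      simp only [hu]
      split_ifs <;> simp [sq_nonneg]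
    · rw [compl_compl]
      have hl : 5 / κ ≤ Real.log (1 + κ / ε) := by
        rw [hε, div_mul_eq_div_div, div_self hκ.ne', one_div, ← Real.exp_neg, neg_neg]
        exact (Real.log_exp _).symm.trans_le
          (Real.log_le_log (Real.exp_pos _) (by linarith))
      have h1 := mul_le_mul hA hl (by positivity) (Nat.cast_nonneg _)
      rw [show κ * (N : ℝ) * (5 / κ) = 5 * N by field_simp] at h1
      linarith
  refine (Finset.sum_le_sum fun s _ => hs s).trans ?_
  have h2 : (2 : ℝ) ^ N ≤ Real.exp (N : ℝ) := by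
    rw [← mul_one (N : ℝ), Real.exp_nat_mul]
    exact pow_le_pow_left₀ zero_le_two (by linarith [Real.add_one_le_exp (1 : ℝ)]) N
  simp only [Finset.sum_const, Finset.card_univ, Fintype.card_fun, Fintype.card_bool,
    Fintype.card_fin, nsmul_eq_mul, Nat.cast_pow, Nat.cast_ofNat]
  calc (2 : ℝ) ^ N * Real.exp (-(2 * N : ℝ)) ≤ Real.exp (N : ℝ) * Real.exp (-(2 * N : ℝ)) :=
        mul_le_mul_of_nonneg_right h2 (Real.exp_pos _).le
    _ = _ := by rw [← Real.exp_add]; ring_nf

end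

end Vale.Agent.P166.High.Planted
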