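import Vale.Agent.P166.Plant.ConcPhi
import Vale.Agent.P157.Plant.Chan

/-!
# P166: Gaussian estimates for the planted direction
-/

namespace Vale.Agent.P166.High.Planted

open MeasureTheory ProbabilityTheory Matrix

noncomputable section

variable {N : ℕ}

/-- The direction of a vector. -/
def dir (y : Fin N → ℝ) : Fin N → ℝ := (len y)⁻¹ • y

@[fun_prop]
lemma measurable_dir : Measurable (dir (N := N)) := by
  unfold dir
  exact continuous_len.measurable.inv.smul measurable_id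

/-- The scale of the tilted Gaussian vector. -/
def scl (q : Fin N → ℝ) (g : Fin N → ℝ) : Fin N → ℝ := fun i => (Real.sqrt (1 + q i))⁻¹ * g i

@[fun_prop]
lemma continuous_scl (q : Fin N → ℝ) : Continuous (scl q) := by unfold scl; fun_prop

lemma gauss_one_change {q : ℝ} (hq : -1 < q) :
    (gaussianReal 0 1).withDensity
        (fun x => ENNReal.ofReal (Real.sqrt (1 + q) * Real.exp (-(q * x ^ 2) / 2)))
      = (gaussianReal 0 1).map fun x => (Real.sqrt (1 + q))⁻¹ * x := by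
  have h0 : 0 < 1 + q := by linarith
  have hs : 0 < Real.sqrt (1 + q) := Real.sqrt_pos.2 h0
  rw [gaussianReal_map_const_mul]
  have hv : (NNReal.mk ((Real.sqrt (1 + q))⁻¹ ^ 2) (sq_nonneg _) * 1 : NNReal) ≠ 0 := by
    rw [mul_one]
    exact fun h => (pow_pos (inv_pos.2 hs) 2).ne' (congrArg NNReal.toReal h)
  rw [gaussianReal_of_var_ne_zero _ one_ne_zero, gaussianReal_of_var_ne_zero _ hv,
    ← withDensity_mul _ (measurable_gaussianPDF 0 1) (by fun_prop)]
  congr 1
  funext x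
  simp only [Pi.mul_apply, gaussianPDF]
  rw [← ENNReal.ofReal_mul (gaussianPDFReal_nonneg 0 1 x)]
  congr 1
  simp only [gaussianPDFReal, NNReal.coe_one, mul_one, NNReal.coe_mk, mul_zero,
    sub_zero]
  rw [inv_pow, Real.sq_sqrt h0.le, Real.sqrt_mul' (2 * Real.pi) (inv_nonneg.2 h0.le),
    Real.sqrt_inv, mul_inv, inv_inv]
  rw [show ∀ a b c d : ℝ, a * b * (c * d) = a * c * (b * d) from fun a b c d => by ring,
    ← Real.exp_add]
  congr 2
  field_simp
  ring

/-- A Gaussian tilt is a change of scale. -/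
lemma gauss_change {q : Fin N → ℝ} (hq : ∀ i, -1 < q i) {F : (Fin N → ℝ) → ℝ} (hF : Measurable F) :
    ∫ g, tilt q g * F g ∂gauss (Fin N)
      = Real.exp (-(∑ i, Real.log (1 + q i)) / 2) * ∫ g, F (scl q g) ∂gauss (Fin N) := by
  obtain ⟨ρ, hρ⟩ : ∃ ρ : Fin N → ℝ → ℝ,
      ρ = fun i x => Real.sqrt (1 + q i) * Real.exp (-(q i * x ^ 2) / 2) := ⟨_, rfl⟩
  have hρ0 : ∀ i x, 0 ≤ ρ i x := fun i x => by rw [hρ]; positivity
  have hρm : ∀ i, Measurable (ρ i) := fun i => by rw [hρ]; fun_prop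
  have hρi : ∀ i, Integrable (ρ i) (gaussianReal 0 1) := fun i => by
    rw [hρ]; exact (gauss_one (hq i)).1.const_mul _
  have hmap : (gauss (Fin N)).withDensity (fun g => ENNReal.ofReal (∏ i, ρ i (g i)))
      = (gauss (Fin N)).map (scl q) := by
    rw [gauss, P157.Plant.pi_withDensity' (gaussianReal 0 1) hρ0 hρm hρi]
    have h := Measure.pi_map_pi (μ := fun _ : Fin N => gaussianReal 0 1)
      (f := fun i (x : ℝ) => (Real.sqrt (1 + q i))⁻¹ * x) (fun i => by fun_prop)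
    refine Eq.trans ?_ h.symm
    congr 1
    funext i
    rw [hρ]
    exact gauss_one_change (hq i)
  have e : ∀ g, ∏ i, ρ i (g i) = Real.exp ((∑ i, Real.log (1 + q i)) / 2) * tilt q g := by
    intro g
    simp only [hρ, Finset.prod_mul_distrib]
    rw [tilt, quad, ← Finset.sum_neg_distrib, Finset.sum_div, Finset.sum_div, Real.exp_sum,
      Real.exp_sum]
    congr 1
    refine Finset.prod_congr rfl fun i _ => ?_
    rw [Real.exp_half, Real.exp_log (by linarith [hq i])]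
  have h2 : ∫ g, (∏ i, ρ i (g i)) * F g ∂gauss (Fin N) = ∫ g, F (scl q g) ∂gauss (Fin N) := by
    rw [← integral_map (continuous_scl q).aemeasurable hF.aestronglyMeasurable, ← hmap,
      integral_withDensity_eq_integral_toReal_smul (by fun_prop)
        (ae_of_all _ fun _ => ENNReal.ofReal_lt_top)]
    refine integral_congr_ae (ae_of_all _ fun g => ?_)
    simp only [smul_eq_mul, ENNReal.toReal_ofReal (Finset.prod_nonneg fun i _ => hρ0 i (g i))]
  rw [← h2]
  simp only [e, mul_assoc]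
  rw [integral_const_mul, ← mul_assoc, ← Real.exp_add]
  ring_nf
  simp

/-- The weighted average over the sphere is at most that over a tilted Gaussian vector. -/
lemma sphere_le (i0 : Fin N) {M δ : ℝ} (hδ : 0 < δ) (hδh : δ ≤ 1 / 2) (hN : 256 ≤ δ ^ 2 * N)
    (c : Fin N → ℝ) (θ : ℝ) (hc : ∀ i, |c i| ≤ M) (hθ : |θ| ≤ M) (hlt : ∀ i, c i < θ)
    {p : (Fin N → ℝ) → ℝ} (hp : Measurable p) (hp0 : ∀ x, 0 ≤ p x) (hp1 : ∀ x, p x ≤ 1) :
    ∫ U, Real.exp ((∑ i, c i * act U (Real.sqrt N • cv i0) i ^ 2) / 2) * p (act U (cv i0)) ∂haarO N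
      ≤ 2 * Real.exp (δ * (2 * |M| + 1) * N / 2
            + ((θ - 1) * N - ∑ i, Real.log (θ - c i)) / 2)
          * ∫ g, p (dir (scl (fun i => θ - c i - 1) g)) ∂gauss (Fin N) := by
  have hN0 : (0 : ℝ) < N := Nat.cast_pos.2 (Fin.pos i0)
  obtain ⟨K, hK⟩ : ∃ K, K = 2 * |M| + 1 := ⟨_, rfl⟩
  have hK0 : 0 < K := hK ▸ by positivity
  have hδ1 : δ ≤ 1 := by linarith
  obtain ⟨q, hq⟩ : ∃ q : Fin N → ℝ, q = fun i => θ - c i - 1 := ⟨_, rfl⟩
  have hq1 : ∀ i, -1 < q i := fun i => by rw [hq]; linarith [hlt i]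
  have hqK : ∀ i, |q i| ≤ K := fun i => by rw [hq, hK]; exact abs_tilt_param hθ (hc i)
  obtain ⟨W, hW⟩ : ∃ W : Set (Fin N → ℝ), W = upWin (∅ : Finset (Fin N)) δ := ⟨_, rfl⟩
  have hWm : MeasurableSet W := hW ▸ upWin_measurable _ δ
  have hmem : ∀ g, g ∈ W ↔ |sq g - (N : ℝ)| ≤ δ * N := fun g => by
    simp [hW, upWin, sq]
  obtain ⟨G, hG⟩ : ∃ G : (Fin N → ℝ) → ℝ, G = W.indicator fun g => tilt q g * p (dir g) := ⟨_, rfl⟩
  have hG0 : ∀ g, 0 ≤ G g := fun g => by
    rw [hG]; exact Set.indicator_nonneg (fun y _ => mul_nonneg (Real.exp_pos _).le (hp0 _)) g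
  have hGm : Measurable G := by
    rw [hG]; exact ((continuous_tilt q).measurable.mul (hp.comp measurable_dir)).indicator hWm
  have hGb : ∀ g, |G g| ≤ Real.exp (K * N) := fun g => by
    rw [abs_of_nonneg (hG0 g), hG]
    refine ind_le (fun hg => ?_) (Real.exp_pos _).le
    refine (mul_le_of_le_one_right (Real.exp_pos _).le (hp1 _)).trans (Real.exp_le_exp.2 ?_)
    have h1 := abs_quad_le hqK g
    have h2 := (abs_le.1 ((hmem g).1 hg)).2
    have h3 := mul_le_mul_of_nonneg_right hδ1 hN0.le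
    linarith [neg_abs_le (quad q g), mul_le_mul_of_nonneg_left (show sq g ≤ 2 * N by linarith) hK0.le]
  obtain ⟨P, hP⟩ : ∃ P, P = -(δ * K * N) / 2 - (θ - 1) * N / 2 := ⟨_, rfl⟩
  obtain ⟨I, hI⟩ : ∃ I, I = ∫ U, Real.exp ((∑ i, c i * act U (Real.sqrt N • cv i0) i ^ 2) / 2)
      * p (act U (cv i0)) ∂haarO N := ⟨_, rfl⟩
  have hI0 : 0 ≤ I := hI ▸ integral_nonneg fun U => mul_nonneg (Real.exp_pos _).le (hp0 _)
  have key : Real.exp P * I * (gauss (Fin N)).real W ≤ ∫ g, G g ∂gauss (Fin N) := by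
    refine avg_lower (gauss (Fin N)) (haarO N) act continuous_act.measurable gauss_act hGm hGb hG0
      hWm fun g hg => ?_
    obtain ⟨ρ, hρ⟩ : ∃ ρ, ρ = sq g / N := ⟨_, rfl⟩
    have hwin := (hmem g).1 hg
    have hρ1 : |ρ - 1| ≤ δ := hρ ▸ abs_div_sub_one_le hN0 hwin
    have hρ0 : 0 ≤ ρ := hρ ▸ div_nonneg (sq_nonneg' _) hN0.le
    obtain ⟨F, hF⟩ : ∃ F : (Fin N → ℝ) → ℝ, F = G := ⟨_, rfl⟩
    obtain ⟨g', hg'⟩ : ∃ g', g' = Real.sqrt ρ • (Real.sqrt N • cv i0) := ⟨_, rfl⟩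
    have hsq : sq g = sq g' := by
      rw [hg', sq_smul, sq_smul, Real.sq_sqrt hρ0, Real.sq_sqrt hN0.le, sq_cv, hρ]
      field_simp
    rw [sub_vec_invariant' (sub_haar (N := N)) (w := g') (by simp) (by simp) hsq G hGm, hI,
      ← integral_const_mul]
    have hb1 : ∀ U : OMat N, ‖G (act U g')‖ ≤ Real.exp (K * N) := fun U => hGb _
    have hi1 : Integrable (fun U : OMat N => G (act U g')) (haarO N) :=
      Integrable.of_bound (hGm.comp (continuous_act_left g').measurable).aestronglyMeasurable _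
        (ae_of_all _ hb1)
    refine integral_mono_of_nonneg (ae_of_all _ fun U => mul_nonneg (Real.exp_pos _).le
      (mul_nonneg (Real.exp_pos _).le (hp0 _))) hi1 (ae_of_all _ fun U => ?_)
    obtain ⟨x, hx⟩ : ∃ x, x = act U (Real.sqrt N • cv i0) := ⟨_, rfl⟩
    have hxN : sq x = N := by
      rw [hx, sq_act, sq_smul, sq_cv, mul_one, Real.sq_sqrt hN0.le]
    have hgU : act U g' = Real.sqrt ρ • x := by rw [hg', act_smul, hx]
    have hin : act U g' ∈ W := (hmem _).2 (by rw [sq_act, ← hsq]; exact hwin)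
    have hlen : 0 < sq g := by
      linarith [(abs_le.1 hwin).1, mul_le_mul_of_nonneg_right hδh hN0.le]
    have hd : dir (act U g') = act U (cv i0) := by
      rw [hg', act_smul, act_smul, smul_smul, dir, len_smul, len, sq_act, sq_cv, Real.sqrt_one,
        mul_one, smul_smul, abs_of_nonneg (by positivity), inv_mul_cancel₀, one_smul]
      exact (mul_pos (Real.sqrt_pos.2 (hρ ▸ div_pos hlen hN0)) (Real.sqrt_pos.2 hN0)).ne'
    have hlow : Real.exp P * Real.exp ((∑ i, c i * x i ^ 2) / 2) ≤ tilt q (act U g') := by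
      rw [← Real.exp_add, tilt, hgU, quad_smul, Real.sq_sqrt hρ0]
      refine Real.exp_le_exp.2 ?_
      have hb := quad_scale_le hqK (x := x) hxN hρ1
      have hQ : quad q x = (θ - 1) * N - ∑ i, c i * x i ^ 2 := hq ▸ quad_param c θ hxN
      rw [hP]
      linarith [(abs_le.1 hb).2]
    simp only [hG, Set.indicator_of_mem hin, hd]
    rw [← hx, ← mul_assoc]
    exact mul_le_mul_of_nonneg_right hlow (hp0 _)
  have hhalf : 1 / 2 ≤ (gauss (Fin N)).real W := by
    rw [hW]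
    exact upWin_half _ hδ hδ1 (by simp; positivity) hN
  have hint : Integrable (fun g => tilt q g * p (dir g)) (gauss (Fin N)) :=
    (gauss_tilt hq1).1.mono'
      ((continuous_tilt q).measurable.mul (hp.comp measurable_dir)).aestronglyMeasurable
      (ae_of_all _ fun g => by
        rw [Real.norm_eq_abs, abs_of_nonneg (mul_nonneg (show 0 ≤ tilt q g from (Real.exp_pos _).le) (hp0 _))]
        exact mul_le_of_le_one_right (Real.exp_pos _).le (hp1 _))
  have hle : ∫ g, G g ∂gauss (Fin N) ≤ ∫ g, tilt q g * p (dir g) ∂gauss (Fin N) := by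
    rw [hG]
    refine integral_mono (hint.indicator hWm) hint fun g => ?_
    exact ind_le (fun _ => le_rfl) (mul_nonneg (Real.exp_pos _).le (hp0 _))
  rw [gauss_change hq1 (F := fun y => p (dir y)) (hp.comp measurable_dir)] at hle
  have hlog : ∑ i, Real.log (1 + q i) = ∑ i, Real.log (θ - c i) :=
    Finset.sum_congr rfl fun i _ => by rw [hq]; ring_nf
  rw [hlog] at hle
  obtain ⟨J, hJ⟩ : ∃ J, J = ∫ g, p (dir (scl q g)) ∂gauss (Fin N) := ⟨_, rfl⟩
  rw [← hJ] at hle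
  rw [← hq, ← hI, ← hJ, ← hK]
  have h4 : Real.exp P * I * (1 / 2) ≤ Real.exp (-(∑ i, Real.log (θ - c i)) / 2) * J :=
    ((mul_le_mul_of_nonneg_left hhalf (mul_nonneg (Real.exp_pos _).le hI0)).trans key).trans hle
  rw [show δ * K * N / 2 + ((θ - 1) * N - ∑ i, Real.log (θ - c i)) / 2
    = -(∑ i, Real.log (θ - c i)) / 2 - P by rw [hP]; ring, Real.exp_sub, mul_div_assoc',
    div_mul_eq_mul_div, le_div_iff₀ (Real.exp_pos _)]
  linarith

/-- A tilted Gaussian vector is rarely short. -/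
lemma scl_short {κ : ℝ} (hκ : 0 < κ) {q : Fin N → ℝ} (hq : ∀ i, κ ≤ 1 + q i)
    (hsum : ∑ i, (1 + q i)⁻¹ = N) :
    (gauss (Fin N)).real {g | sq (scl q g) ≤ (N : ℝ) / 4} ≤ Real.exp (-(κ * N / 32)) := by
  obtain ⟨s, hs⟩ : ∃ s, s = κ / 8 := ⟨_, rfl⟩
  have hs0 : 0 < s := hs ▸ by positivity
  have hd : ∀ i, 0 ≤ (1 + q i)⁻¹ := fun i => inv_nonneg.2 (hκ.le.trans (hq i))
  have hquad : ∀ g, quad (fun i => -(s * (1 + q i)⁻¹)) g = -(s * sq (scl q g)) := fun g => by
    simp only [quad, sq, scl, mul_pow, inv_pow, Finset.mul_sum, ← Finset.sum_neg_distrib]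
    exact Finset.sum_congr rfl fun i _ => by
      rw [Real.sq_sqrt (hκ.le.trans (hq i))]; ring
  have h := gauss_quad_ge (r := fun i => -(s * (1 + q i)⁻¹))
    (fun i => by linarith [mul_nonneg hs0.le (hd i)]) (-(s * (N / 4)))
  simp only [hquad] at h
  refine (measureReal_mono (s₂ := {g | -(s * ((N : ℝ) / 4)) ≤ -(s * sq (scl q g))})
    fun g hg => ?_).trans (h.trans (Real.exp_le_exp.2 ?_))
  · have hg' : sq (scl q g) ≤ (N : ℝ) / 4 := hg
    show -(s * ((N : ℝ) / 4)) ≤ -(s * sq (scl q g))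
    linarith [mul_le_mul_of_nonneg_left hg' hs0.le]
  · have hsum2 : ∑ i, (s * (1 + q i)⁻¹ - 2 * s ^ 2 / κ * (1 + q i)⁻¹)
        ≤ ∑ i, Real.log (1 - -(s * (1 + q i)⁻¹)) := by
      refine Finset.sum_le_sum fun i _ => le_trans ?_ (log_one_sub_ge
        (by linarith [mul_nonneg hs0.le (hd i)]))
      have h1 : (1 + q i)⁻¹ ≤ κ⁻¹ := inv_anti₀ hκ (hq i)
      have h2 := mul_le_mul_of_nonneg_left h1 (show 0 ≤ 2 * s ^ 2 * (1 + q i)⁻¹ by
        have := hd i; positivity)
      rw [div_eq_mul_inv]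
      linarith
    rw [Finset.sum_sub_distrib, ← Finset.mul_sum, ← Finset.mul_sum, hsum] at hsum2
    have e : 2 * s ^ 2 / κ * (N : ℝ) = κ * N / 32 := by rw [hs]; field_simp; ring
    rw [e] at hsum2
    rw [hs] at hsum2 ⊢
    linarith

/-- One coordinate of a tilted Gaussian vector is rarely of order `√N`. -/
lemma scl_coord {κ : ℝ} (hκ : 0 < κ) {q : Fin N → ℝ} (hq : ∀ i, κ ≤ 1 + q i) (i0 : Fin N) :
    (gauss (Fin N)).real {g | Real.sqrt N / 4 ≤ scl q g i0} ≤ Real.exp (-(κ * N / 64)) := by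
  have hN : (0 : ℝ) < N := Nat.cast_pos.2 (Fin.pos i0)
  have h := gauss_dot_tail (ι := Fin N) (N := (N : ℝ)) (δ := Real.sqrt κ / 4) (by positivity)
    (a := Real.sqrt N • cv i0) (by
      rw [sq_smul, sq_cv, mul_one, Real.sq_sqrt hN.le]; linarith)
  refine (measureReal_mono (s₂ := {g | Real.sqrt κ / 4 * N ≤ (Real.sqrt N • cv i0) ⬝ᵥ g})
    fun g hg => ?_).trans (h.trans (le_of_eq ?_))
  · have hg' : Real.sqrt N / 4 ≤ (Real.sqrt (1 + q i0))⁻¹ * g i0 := hg
    show Real.sqrt κ / 4 * N ≤ _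
    rw [smul_dotProduct, dotProduct_comm, dot_cv, smul_eq_mul]
    have h1 : 0 < Real.sqrt (1 + q i0) := Real.sqrt_pos.2 (hκ.trans_le (hq i0))
    rw [inv_mul_eq_div, le_div_iff₀ h1] at hg'
    have h2 := mul_le_mul_of_nonneg_left (Real.sqrt_le_sqrt (hq i0))
      (show 0 ≤ Real.sqrt (N : ℝ) / 4 by positivity)
    have h3 := mul_le_mul_of_nonneg_left (h2.trans hg') (Real.sqrt_nonneg (N : ℝ))
    rw [← mul_assoc, ← mul_div_assoc, Real.mul_self_sqrt hN.le] at h3
    linarith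
  · rw [div_pow, Real.sq_sqrt hκ.le]
    congr 1
    ring

/-- The tail of the squared length. -/
lemma sq_tail_mean :
    ∫ g, {g : Fin N → ℝ | 3 * (N : ℝ) ≤ sq g}.indicator sq g ∂gauss (Fin N) ≤ 8 := by
  obtain ⟨hi, he⟩ := gauss_tilt (q := fun _ : Fin N => -(1 / 2 : ℝ)) fun _ => by norm_num
  refine (integral_mono_of_nonneg (ae_of_all _ fun g =>
    Set.indicator_nonneg (fun y _ => sq_nonneg' y) g)
      (hi.const_mul (8 * Real.exp (-(3 * N / 8 : ℝ)))) (ae_of_all _ fun g => ?_)).trans ?_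
  · refine ind_le (fun hg => ?_) (mul_nonneg (by positivity) (Real.exp_pos _).le)
    have hg' : 3 * (N : ℝ) ≤ sq g := hg
    have e : tilt (fun _ : Fin N => -(1 / 2 : ℝ)) g = Real.exp (sq g / 4) := by
      rw [tilt, quad, ← Finset.mul_sum, sq]
      ring_nf
    simp only [e]
    rw [mul_assoc, ← Real.exp_add]
    have h1 := Real.add_one_le_exp (sq g / 8)
    have h2 : Real.exp (sq g / 8) ≤ Real.exp (-(3 * N / 8) + sq g / 4) :=
      Real.exp_le_exp.2 (by linarith)
    linarith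
  · rw [integral_const_mul, he, mul_assoc, ← Real.exp_add]
    refine mul_le_of_le_one_right (by norm_num) (Real.exp_le_one_iff.2 ?_)
    have hl : Real.log (1 + -(1 / 2 : ℝ)) = -Real.log 2 := by
      rw [← Real.log_inv]; norm_num
    rw [Finset.sum_const, hl, Finset.card_univ, Fintype.card_fin, nsmul_eq_mul]
    nlinarith [Real.log_two_lt_d9, Nat.cast_nonneg (α := ℝ) N]

/-- Three Gaussian vectors as one. -/
lemma gauss_triple :
    Measure.map (fun z : Fin N ⊕ (Fin N × Fin N) ⊕ Fin N → ℝ =>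
        ((fun i => z (.inl i)), (fun p => z (.inr (.inl p))), fun i => z (.inr (.inr i))))
      (gauss (Fin N ⊕ (Fin N × Fin N) ⊕ Fin N))
      = (gauss (Fin N)).prod ((gauss (Fin N × Fin N)).prod (gauss (Fin N))) := by
  have h1 := measurePreserving_sumPiEquivProdPi
    (fun _ : Fin N ⊕ (Fin N × Fin N) ⊕ Fin N => gaussianReal 0 1)
  have h2 := measurePreserving_sumPiEquivProdPi
    (fun _ : (Fin N × Fin N) ⊕ Fin N => gaussianReal 0 1)
  have h := ((MeasurePreserving.id (gauss (Fin N))).prod h2).comp h1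
  exact h.map_eq

end

end Vale.Agent.P166.High.Planted
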