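import Vale.Agent.P166.Plant.Model
import Vale.Agent.P166.Plant.ConcFrame

/-!
# P166: the log-likelihood as a function of a matrix, and its Lipschitz bounds
-/

namespace Vale.Agent.P166.High.Planted

open MeasureTheory ProbabilityTheory Matrix
open Vale.Agent.P166.Plant (zbar base fe sh lik pwt Dat sp_eq_spin)
open Vale.Agent.P157.Plant (Cfg ones lin shv)

noncomputable section

variable {N : ℕ}

/-- The Euclidean length. -/
def len {ι : Type*} [Fintype ι] (x : ι → ℝ) : ℝ := Real.sqrt (sq x)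

section len

variable {ι : Type*} [Fintype ι]

lemma len_nonneg (x : ι → ℝ) : 0 ≤ len x := Real.sqrt_nonneg _

lemma len_sq (x : ι → ℝ) : len x ^ 2 = sq x := Real.sq_sqrt (sq_nonneg' x)

lemma len_le_of_sq {x : ι → ℝ} {c : ℝ} (h : sq x ≤ c) : len x ≤ Real.sqrt c := Real.sqrt_le_sqrt h

lemma abs_dot_le (x y : ι → ℝ) : |x ⬝ᵥ y| ≤ len x * len y := by
  refine (Finset.abs_sum_le_sum_abs _ _).trans ?_
  have h := Real.sum_mul_le_sqrt_mul_sqrt Finset.univ (fun i => |x i|) fun i => |y i|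
  simp only [sq_abs] at h
  simp only [abs_mul]
  exact h

lemma len_smul (c : ℝ) (x : ι → ℝ) : len (c • x) = |c| * len x := by
  rw [len, sq_smul, Real.sqrt_mul (sq_nonneg c), Real.sqrt_sq_eq_abs, len]

lemma len_neg (x : ι → ℝ) : len (-x) = len x := by simp [len, sq]

lemma len_add_le (x y : ι → ℝ) : len (x + y) ≤ len x + len y := by
  refine (Real.sqrt_le_left (add_nonneg (len_nonneg x) (len_nonneg y))).2 ?_
  have e : sq (x + y) = sq x + 2 * (x ⬝ᵥ y) + sq y := by
    simp only [sq, dotProduct, Pi.add_apply, Finset.mul_sum, ← Finset.sum_add_distrib]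
    exact Finset.sum_congr rfl fun i _ => by ring
  rw [e, ← len_sq x, ← len_sq y]
  linarith [(le_abs_self _).trans (abs_dot_le x y)]

lemma abs_len_sub_le (x y : ι → ℝ) : |len x - len y| ≤ len (x - y) := by
  have h1 := len_add_le (x - y) y
  have h2 := len_add_le (y - x) x
  rw [sub_add_cancel] at h1 h2
  rw [show y - x = -(x - y) by abel, len_neg] at h2
  exact abs_le.2 ⟨by linarith, by linarith⟩

/-- A vector shortened to length at most one, linear inside the ball of radius `r`. -/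
def clip (r : ℝ) (y : ι → ℝ) : ι → ℝ := (max (len y) r)⁻¹ • y

lemma len_clip_le {r : ℝ} (hr : 0 < r) (y : ι → ℝ) : len (clip r y) ≤ 1 := by
  rw [clip, len_smul, abs_inv, abs_of_pos (lt_max_of_lt_right hr), inv_mul_eq_div,
    div_le_one (lt_max_of_lt_right hr)]
  exact le_max_left _ _

lemma clip_lip {r : ℝ} (hr : 0 < r) (x y : ι → ℝ) :
    len (clip r x - clip r y) ≤ 2 / r * len (x - y) := by
  obtain ⟨p, hp⟩ : ∃ p, p = max (len x) r := ⟨_, rfl⟩
  obtain ⟨q, hq⟩ : ∃ q, q = max (len y) r := ⟨_, rfl⟩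
  have hp0 : r ≤ p := hp ▸ le_max_right _ _
  have hq0 : r ≤ q := hq ▸ le_max_right _ _
  have hp1 : 0 < p := hr.trans_le hp0
  have hq1 : 0 < q := hr.trans_le hq0
  have e : clip r x - clip r y = p⁻¹ • (x - y) + ((q - p) / (p * q)) • y := by
    funext i
    simp only [clip, ← hp, ← hq, Pi.sub_apply, Pi.add_apply, Pi.smul_apply, smul_eq_mul]
    field_simp
    ring
  have hpq : |q - p| ≤ len (x - y) := by
    rw [hp, hq]
    refine (abs_max_sub_max_le_abs (len y) (len x) r).trans ?_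
    rw [abs_sub_comm]
    exact abs_len_sub_le x y
  have hyq : len y ≤ q := hq ▸ le_max_left _ _
  rw [e]
  refine (len_add_le _ _).trans ?_
  rw [len_smul, len_smul, abs_inv, abs_of_pos hp1, abs_div, abs_of_pos (mul_pos hp1 hq1)]
  have h2 : |q - p| / (p * q) * len y ≤ len (x - y) / p := by
    calc |q - p| / (p * q) * len y ≤ |q - p| / (p * q) * q :=
          mul_le_mul_of_nonneg_left hyq (by positivity)
      _ = |q - p| / p := by field_simp
      _ ≤ len (x - y) / p := div_le_div_of_nonneg_right hpq hp1.le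
  have h3 : len (x - y) / p ≤ len (x - y) / r :=
    div_le_div_of_nonneg_left (len_nonneg _) hr hp0
  calc p⁻¹ * len (x - y) + |q - p| / (p * q) * len y ≤ len (x - y) / r + len (x - y) / r :=
        add_le_add (by rwa [inv_mul_eq_div]) (h2.trans h3)
    _ = 2 / r * len (x - y) := by ring

@[fun_prop]
lemma continuous_len : Continuous fun x : ι → ℝ => len x := by unfold len; fun_prop

lemma continuous_clip {r : ℝ} (hr : 0 < r) : Continuous (clip (ι := ι) r) := by
  refine Continuous.smul (Continuous.inv₀ (continuous_len.max continuous_const) fun y => ?_)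
    continuous_id
  exact (lt_max_of_lt_right hr).ne'

end len

/-! ### A reflection taking `e` to a given direction -/

/-- The axis of the reflection. -/
def wv (i0 : Fin N) (u : Fin N → ℝ) : Fin N → ℝ := clip (1 / 2) (cv i0 - u)

/-- The reflection, orthogonal when `u` is a unit vector away from `e`. -/
def refl (i0 : Fin N) (u : Fin N → ℝ) : Matrix (Fin N) (Fin N) ℝ :=
  1 - (2 : ℝ) • vecMulVec (wv i0 u) (wv i0 u)

lemma refl_mulVec (i0 : Fin N) (u x : Fin N → ℝ) :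
    refl i0 u *ᵥ x = x - (2 * (wv i0 u ⬝ᵥ x)) • wv i0 u := by
  rw [refl, sub_mulVec, one_mulVec, smul_mulVec, vecMulVec_mulVec, op_smul_eq_smul, smul_smul]

lemma len_refl_le (i0 : Fin N) (u x : Fin N → ℝ) : len (refl i0 u *ᵥ x) ≤ len x := by
  refine Real.sqrt_le_sqrt ?_
  obtain ⟨w, hw⟩ : ∃ w, w = wv i0 u := ⟨_, rfl⟩
  have hw1 : sq w ≤ 1 := by
    have h := len_clip_le (r := 1 / 2) (by norm_num) (cv i0 - u)
    rw [show clip (1 / 2) (cv i0 - u) = w from hw.symm] at h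
    rw [← len_sq]
    exact pow_le_one₀ (len_nonneg _) h
  rw [refl_mulVec, ← hw]
  have e : sq (x - (2 * (w ⬝ᵥ x)) • w) = sq x - 4 * (w ⬝ᵥ x) ^ 2 * (1 - sq w) := by
    have e' : sq (x - (2 * (w ⬝ᵥ x)) • w)
        = sq x - 2 * (2 * (w ⬝ᵥ x)) * (w ⬝ᵥ x) + (2 * (w ⬝ᵥ x)) ^ 2 * sq w := by
      generalize 2 * (w ⬝ᵥ x) = c
      simp only [sq, dotProduct, Pi.sub_apply, Pi.smul_apply, smul_eq_mul, Finset.mul_sum,
        ← Finset.sum_add_distrib, ← Finset.sum_sub_distrib]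
      exact Finset.sum_congr rfl fun i _ => by ring
    rw [e']; ring
  rw [e]
  nlinarith [sq_nonneg (w ⬝ᵥ x)]

lemma refl_sub_le (i0 : Fin N) (u u' x : Fin N → ℝ) :
    len (refl i0 u *ᵥ x - refl i0 u' *ᵥ x) ≤ 16 * len (u - u') * len x := by
  obtain ⟨w, hw⟩ : ∃ w, w = wv i0 u := ⟨_, rfl⟩
  obtain ⟨w', hw'⟩ : ∃ w', w' = wv i0 u' := ⟨_, rfl⟩
  have h1 : len w ≤ 1 := hw ▸ len_clip_le (by norm_num) _
  have h2 : len w' ≤ 1 := hw' ▸ len_clip_le (by norm_num) _
  have hd : len (w - w') ≤ 4 * len (u - u') := by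
    rw [hw, hw']
    refine (clip_lip (by norm_num) _ _).trans ?_
    rw [show cv i0 - u - (cv i0 - u') = -(u - u') by abel, len_neg]
    norm_num
  rw [refl_mulVec, refl_mulVec, ← hw, ← hw']
  have e : x - (2 * (w ⬝ᵥ x)) • w - (x - (2 * (w' ⬝ᵥ x)) • w')
      = (2 * ((w' - w) ⬝ᵥ x)) • w + (2 * (w' ⬝ᵥ x)) • (w' - w) := by
    rw [sub_dotProduct]
    funext i
    simp only [Pi.sub_apply, Pi.add_apply, Pi.smul_apply, smul_eq_mul]
    ring
  rw [e]
  refine (len_add_le _ _).trans ?_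
  rw [len_smul, len_smul, abs_mul, abs_mul, abs_two]
  have hd' : len (w' - w) = len (w - w') := by rw [← len_neg, neg_sub]
  have hA : |(w' - w) ⬝ᵥ x| * len w ≤ len (w - w') * len x := by
    refine (mul_le_of_le_one_right (abs_nonneg _) h1).trans ?_
    exact (abs_dot_le _ _).trans_eq (by rw [hd'])
  have hB : |w' ⬝ᵥ x| * len (w' - w) ≤ len (w - w') * len x := by
    rw [hd', mul_comm]
    refine mul_le_mul_of_nonneg_left ((abs_dot_le _ _).trans ?_) (len_nonneg _)
    exact mul_le_of_le_one_left (len_nonneg _) h2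
  have hC := mul_le_mul_of_nonneg_right hd (len_nonneg x)
  linarith

lemma refl_orth (i0 : Fin N) {u : Fin N → ℝ} (hu : sq u = 1) (hui : u i0 ≤ 1 / 2) :
    ∃ S : OMat N, (S : Matrix (Fin N) (Fin N) ℝ) = refl i0 u ∧ act S (cv i0) = u := by
  obtain ⟨d, hd⟩ : ∃ d, d = cv i0 - u := ⟨_, rfl⟩
  have hdd : sq d = 2 - 2 * u i0 := by
    have e : sq d = sq (cv i0) - 2 * (cv i0 ⬝ᵥ u) + sq u := by
      simp only [hd, sq, dotProduct, Pi.sub_apply, Finset.mul_sum, ← Finset.sum_sub_distrib,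
        ← Finset.sum_add_distrib]
      exact Finset.sum_congr rfl fun i _ => by ring
    rw [e, sq_cv, hu, dotProduct_comm, dot_cv]
    ring
  obtain ⟨ρ, hρ⟩ : ∃ ρ, ρ = len d := ⟨_, rfl⟩
  have hρ2 : ρ ^ 2 = 2 - 2 * u i0 := by rw [hρ, len_sq, hdd]
  have hρh : 1 / 2 ≤ ρ := by
    refine le_of_pow_le_pow_left₀ two_ne_zero (hρ ▸ len_nonneg d) ?_
    rw [hρ2]; linarith
  have hρ0 : ρ ≠ 0 := by linarith
  obtain ⟨w, hw⟩ : ∃ w, w = wv i0 u := ⟨_, rfl⟩
  have hwd : w = ρ⁻¹ • d := by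
    rw [hw, wv, clip, ← hd, ← hρ, max_eq_left hρh]
  have hw1 : w ⬝ᵥ w = 1 := by
    rw [← sq_eq_dot, hwd, sq_smul, ← len_sq, ← hρ]
    field_simp
  have hHH : ∀ x, refl i0 u *ᵥ (refl i0 u *ᵥ x) = x := fun x => by
    rw [refl_mulVec, refl_mulVec, ← hw, dotProduct_sub, dotProduct_smul, hw1, smul_eq_mul]
    funext i
    simp only [Pi.sub_apply, Pi.smul_apply, smul_eq_mul]
    ring
  have hmem : refl i0 u ∈ Matrix.orthogonalGroup (Fin N) ℝ := by
    rw [mem_orthogonalGroup_iff]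
    have hT : (refl i0 u)ᵀ = refl i0 u := by
      rw [refl, transpose_sub, transpose_one, transpose_smul, transpose_vecMulVec]
    rw [hT]
    exact ext_iff_mulVec.2 fun x => by rw [← mulVec_mulVec, hHH, one_mulVec]
  refine ⟨⟨_, hmem⟩, rfl, ?_⟩
  show refl i0 u *ᵥ cv i0 = u
  have hde : d ⬝ᵥ cv i0 = 1 - u i0 := by rw [dot_cv, hd]; simp [cv]
  rw [refl_mulVec, ← hw, hwd, smul_dotProduct, smul_eq_mul, hde, smul_smul,
    show 2 * (ρ⁻¹ * (1 - u i0)) * ρ⁻¹ = 1 by
      field_simp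
      linarith, one_smul, hd]
  abel

lemma continuous_refl (i0 : Fin N) : Continuous (refl i0) := by
  have hw : Continuous (wv i0) :=
    (continuous_clip (by norm_num)).comp (continuous_const.sub continuous_id)
  have h : Continuous fun u => vecMulVec (wv i0 u) (wv i0 u) := continuous_pi fun i => continuous_pi fun j => by
    simp only [vecMulVec_apply]
    fun_prop
  exact continuous_const.sub (h.const_smul (2 : ℝ))

/-! ### The log-likelihood of a matrix -/

/-- The exponent of a configuration. -/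
def expo (b : ℝ) (l : Fin N → ℝ) (r : ℝ) (O : OMat N) (B : Matrix (Fin N) (Fin N) ℝ)
    (ξ : Fin N → ℝ) (s : Cfg N) : ℝ :=
  b / 2 * ∑ i, l i * ((B *ᵥ act O (spin s)) i) ^ 2 + Real.sqrt r * lin (shv r ξ) s - r * N / 2

/-- The log-likelihood with `B` in place of `U O⁻¹`. -/
def phi (b : ℝ) (l : Fin N → ℝ) (r : ℝ) (O : OMat N) (B : Matrix (Fin N) (Fin N) ℝ)
    (ξ : Fin N → ℝ) : ℝ :=
  Real.log (∑ s, Real.exp (expo b l r O B ξ s)) - Real.log (2 ^ N) - Real.log (zbar b l)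

lemma fe_eq (b : ℝ) (l : Fin N → ℝ) (r : ℝ) (O : OMat N) (U : OMat N) (ξ : Fin N → ℝ) :
    fe b l r (U, ξ) = phi b l r O ((U * O⁻¹ : OMat N) : Matrix (Fin N) (Fin N) ℝ) ξ := by
  have hS : 0 < ∑ s, Real.exp (expo b l r O ((U * O⁻¹ : OMat N) : Matrix (Fin N) (Fin N) ℝ) ξ s) :=
    Finset.sum_pos (fun _ _ => Real.exp_pos _) Finset.univ_nonempty
  have e : ∀ s, pwt b l r (sh r (U, ξ)) s
      = Real.exp (expo b l r O ((U * O⁻¹ : OMat N) : Matrix (Fin N) (Fin N) ℝ) ξ s) / zbar b l := by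
    intro s
    have h : ((U * O⁻¹ : OMat N) : Matrix (Fin N) (Fin N) ℝ) *ᵥ act O (spin s)
        = (U : Matrix (Fin N) (Fin N) ℝ) *ᵥ spin s := by
      show act (U * O⁻¹) (act O (spin s)) = act U (spin s)
      rw [← act_mul, inv_mul_cancel_right]
    simp only [pwt, base, P166.wt, sh, expo, h, coord, div_mul_eq_mul_div, ← Real.exp_add]
    ring_nf
  rw [fe, lik, phi, Finset.sum_congr rfl fun s _ => e s, ← Finset.sum_div,
    Real.log_mul (by positivity) (div_pos hS (Plant.zbar_pos b l)).ne',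
    Real.log_div hS.ne' (Plant.zbar_pos b l).ne', Real.log_pow, Real.log_inv, Real.log_pow]
  ring

lemma log_sum_exp_le {α : Type*} [Fintype α] [Nonempty α] (x y : α → ℝ) {D : ℝ}
    (h : ∀ s, x s ≤ y s + D) :
    Real.log (∑ s, Real.exp (x s)) ≤ Real.log (∑ s, Real.exp (y s)) + D := by
  have hy : 0 < ∑ s, Real.exp (y s) :=
    Finset.sum_pos (fun _ _ => Real.exp_pos _) Finset.univ_nonempty
  rw [← Real.log_exp D, ← Real.log_mul hy.ne' (Real.exp_ne_zero _)]
  refine Real.log_le_log (Finset.sum_pos (fun _ _ => Real.exp_pos _) Finset.univ_nonempty) ?_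
  rw [Finset.sum_mul]
  exact Finset.sum_le_sum fun s _ => by rw [← Real.exp_add]; exact Real.exp_le_exp.2 (h s)

lemma abs_phi_sub_le (b : ℝ) (l : Fin N → ℝ) (r : ℝ) (O : OMat N)
    (B B' : Matrix (Fin N) (Fin N) ℝ) (ξ ξ' : Fin N → ℝ) {D : ℝ}
    (h : ∀ s, |expo b l r O B ξ s - expo b l r O B' ξ' s| ≤ D) :
    |phi b l r O B ξ - phi b l r O B' ξ'| ≤ D := by
  have h1 := log_sum_exp_le (expo b l r O B ξ) (expo b l r O B' ξ') (D := D) fun s => by
    linarith [(abs_le.1 (h s)).2]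
  have h2 := log_sum_exp_le (expo b l r O B' ξ') (expo b l r O B ξ) (D := D) fun s => by
    linarith [(abs_le.1 (h s)).1]
  unfold phi
  exact abs_le.2 ⟨by linarith, by linarith⟩

lemma len_spin (O : OMat N) (s : Cfg N) : len (act O (spin s)) = Real.sqrt N := by
  rw [len, sq_act, sq_spin]

lemma abs_wsum_sub_le {M : ℝ} {l : Fin N → ℝ} (hl : ∀ i, |l i| ≤ M) {y y' : Fin N → ℝ} {K : ℝ}
    (hy : len y ≤ K) (hy' : len y' ≤ K) :
    |∑ i, l i * y i ^ 2 - ∑ i, l i * y' i ^ 2| ≤ 2 * (|M| * K) * len (y - y') := by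
  have e : ∑ i, l i * y i ^ 2 - ∑ i, l i * y' i ^ 2
      = (fun i => l i * (y i + y' i)) ⬝ᵥ (y - y') := by
    simp only [dotProduct, Pi.sub_apply, ← Finset.sum_sub_distrib]
    exact Finset.sum_congr rfl fun i _ => by ring
  rw [e]
  refine (abs_dot_le _ _).trans (mul_le_mul_of_nonneg_right ?_ (len_nonneg _))
  have h1 : len (fun i => l i * (y i + y' i)) ≤ |M| * len (y + y') := by
    rw [← abs_abs M, ← len_smul]
    refine Real.sqrt_le_sqrt (Finset.sum_le_sum fun i _ => ?_)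
    simp only [Pi.smul_apply, Pi.add_apply, smul_eq_mul, mul_pow]
    refine mul_le_mul_of_nonneg_right ?_ (sq_nonneg _)
    rw [sq_le_sq, abs_abs]
    exact (hl i).trans (le_abs_self M)
  have h2 : len (y + y') ≤ 2 * K := (len_add_le y y').trans (by linarith)
  linarith [mul_le_mul_of_nonneg_left h2 (abs_nonneg M)]

/-- The change of the log-likelihood in terms of the change of the matrix on the configurations
and of the side observation. -/
lemma phi_lip {M : ℝ} {b : ℝ} (hb : 0 ≤ b) {l : Fin N → ℝ} (hl : ∀ i, |l i| ≤ M) (r : ℝ)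
    (O : OMat N) {B B' : Matrix (Fin N) (Fin N) ℝ} (hB : ∀ v, len (B *ᵥ v) ≤ len v)
    (hB' : ∀ v, len (B' *ᵥ v) ≤ len v) (ξ ξ' : Fin N → ℝ) {E : ℝ}
    (hE : ∀ s, len (B *ᵥ act O (spin s) - B' *ᵥ act O (spin s)) ≤ E) :
    |phi b l r O B ξ - phi b l r O B' ξ'|
      ≤ b * |M| * Real.sqrt N * E + Real.sqrt r * Real.sqrt N * len (ξ - ξ') := by
  refine abs_phi_sub_le b l r O B B' ξ ξ' fun s => ?_
  have h1 := abs_wsum_sub_le hl (y := B *ᵥ act O (spin s)) (y' := B' *ᵥ act O (spin s))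
    ((hB _).trans_eq (len_spin O s)) ((hB' _).trans_eq (len_spin O s))
  have h2 : |lin (shv r ξ) s - lin (shv r ξ') s| ≤ Real.sqrt N * len (ξ - ξ') := by
    have e : lin (shv r ξ) s - lin (shv r ξ') s = spin s ⬝ᵥ (ξ - ξ') := by
      simp only [lin, shv, dotProduct, Pi.sub_apply, ← Finset.sum_sub_distrib, sp_eq_spin]
      exact Finset.sum_congr rfl fun i _ => by ring
    rw [e]
    refine (abs_dot_le _ _).trans (le_of_eq ?_)
    rw [len, sq_spin]
  have h3 := mul_le_mul_of_nonneg_left h2 (Real.sqrt_nonneg r)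
  have h4 : |∑ i, l i * (B *ᵥ act O (spin s)) i ^ 2 - ∑ i, l i * (B' *ᵥ act O (spin s)) i ^ 2|
      ≤ 2 * (|M| * Real.sqrt N) * E :=
    h1.trans (mul_le_mul_of_nonneg_left (hE s) (by positivity))
  have h5 := mul_le_mul_of_nonneg_left h4 (show (0 : ℝ) ≤ b / 2 by positivity)
  have e : expo b l r O B ξ s - expo b l r O B' ξ' s
      = b / 2 * (∑ i, l i * (B *ᵥ act O (spin s)) i ^ 2
          - ∑ i, l i * (B' *ᵥ act O (spin s)) i ^ 2)
        + Real.sqrt r * (lin (shv r ξ) s - lin (shv r ξ') s) := by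
    simp only [expo]; ring
  rw [e]
  refine (abs_add_le _ _).trans ?_
  rw [abs_mul, abs_mul, abs_of_nonneg (show (0 : ℝ) ≤ b / 2 by positivity),
    abs_of_nonneg (Real.sqrt_nonneg r)]
  linarith

lemma abs_log_zbar_le {M : ℝ} {b : ℝ} (hb : 0 ≤ b) {l : Fin N → ℝ} (hl : ∀ i, |l i| ≤ M) :
    |Real.log (zbar b l)| ≤ b * |M| * N / 2 := by
  have h : ∀ U : OMat N, |b / 2 * ∑ i, l i * coord U (ones N) i| ≤ b * |M| * N / 2 := fun U => by
    rw [abs_mul, abs_of_nonneg (show (0 : ℝ) ≤ b / 2 by positivity)]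
    have : |∑ i, l i * coord U (ones N) i| ≤ |M| * N := by
      rw [← sum_coord U (ones N), Finset.mul_sum]
      refine (Finset.abs_sum_le_sum_abs _ _).trans (Finset.sum_le_sum fun i _ => ?_)
      rw [abs_mul, abs_of_nonneg (coord_nonneg _ _ _)]
      exact mul_le_mul_of_nonneg_right ((hl i).trans (le_abs_self M)) (coord_nonneg _ _ _)
    linarith [mul_le_mul_of_nonneg_left this (show (0 : ℝ) ≤ b / 2 by positivity)]
  have hi := P166.integrable_of_continuous (P166.continuous_wt b l (ones N))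
  have h1 : Real.exp (-(b * |M| * N / 2)) ≤ zbar b l := by
    simpa [zbar] using integral_mono (integrable_const _) hi fun U =>
      Real.exp_le_exp.2 (abs_le.1 (h U)).1
  have h2 : zbar b l ≤ Real.exp (b * |M| * N / 2) := by
    simpa [zbar] using integral_mono hi (integrable_const _) fun U =>
      Real.exp_le_exp.2 (abs_le.1 (h U)).2
  exact abs_le.2 ⟨(Real.le_log_iff_exp_le (Plant.zbar_pos b l)).2 h1,
    (Real.log_le_iff_le_exp (Plant.zbar_pos b l)).2 h2⟩

lemma abs_phi_le {M : ℝ} {b : ℝ} (hb : 0 ≤ b) {l : Fin N → ℝ} (hl : ∀ i, |l i| ≤ M) {r : ℝ}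
    (hr : 0 ≤ r) (O : OMat N) {B : Matrix (Fin N) (Fin N) ℝ} (hB : ∀ v, len (B *ᵥ v) ≤ len v)
    (ξ : Fin N → ℝ) : |phi b l r O B ξ| ≤ b * |M| * N + 2 * r * N + sq ξ / 2 := by
  have hN : (0 : ℝ) ≤ N := Nat.cast_nonneg N
  have hx : ∀ s, |expo b l r O B ξ s| ≤ b * |M| * N / 2 + 2 * r * N + sq ξ / 2 := by
    intro s
    have h1 : |∑ i, l i * (B *ᵥ act O (spin s)) i ^ 2| ≤ |M| * N := by
      refine (Finset.abs_sum_le_sum_abs _ _).trans ?_
      have hy : sq (B *ᵥ act O (spin s)) ≤ N := by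
        have := hB (act O (spin s))
        rw [len_spin, len, Real.sqrt_le_sqrt_iff hN] at this
        exact this
      refine le_trans ?_ (mul_le_mul_of_nonneg_left hy (abs_nonneg M))
      rw [sq, Finset.mul_sum]
      refine Finset.sum_le_sum fun i _ => ?_
      rw [abs_mul, abs_of_nonneg (sq_nonneg ((B *ᵥ act O (spin s)) i))]
      exact mul_le_mul_of_nonneg_right ((hl i).trans (le_abs_self M)) (sq_nonneg _)
    have h2 : |Real.sqrt r * lin (shv r ξ) s| ≤ 3 / 2 * r * N + sq ξ / 2 := by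
      rw [lin, Finset.mul_sum, sq, Finset.sum_div,
        show (3 : ℝ) / 2 * r * N = ∑ _i : Fin N, 3 / 2 * r by simp; ring, ← Finset.sum_add_distrib]
      refine (Finset.abs_sum_le_sum_abs _ _).trans (Finset.sum_le_sum fun i _ => ?_)
      rw [abs_mul, abs_mul, Plant.sp_eq_spin,
        show |spin s i| = 1 by unfold spin; split_ifs <;> simp, mul_one,
        abs_of_nonneg (Real.sqrt_nonneg r), shv]
      have ha := abs_add_le (Real.sqrt r) (ξ i)
      rw [abs_of_nonneg (Real.sqrt_nonneg r)] at ha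
      nlinarith [mul_le_mul_of_nonneg_left ha (Real.sqrt_nonneg r), Real.mul_self_sqrt hr,
        sq_nonneg (Real.sqrt r - |ξ i|), sq_abs (ξ i)]
    have h3 := mul_le_mul_of_nonneg_left h1 (show (0 : ℝ) ≤ b / 2 by positivity)
    simp only [expo]
    refine (abs_sub _ _).trans ?_
    rw [abs_of_nonneg (show (0 : ℝ) ≤ r * N / 2 by positivity)]
    refine (add_le_add_left (abs_add_le _ _) _).trans ?_
    rw [abs_mul (b / 2), abs_of_nonneg (show (0 : ℝ) ≤ b / 2 by positivity)]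
    linarith
  have hz := abs_log_zbar_le hb hl
  have e0 : Real.log (∑ _s : Cfg N, Real.exp (0 : ℝ)) = Real.log (2 ^ N) := by simp
  have h1 := log_sum_exp_le (expo b l r O B ξ) (fun _ => 0)
    (D := b * |M| * N / 2 + 2 * r * N + sq ξ / 2) fun s => by
      linarith [(abs_le.1 (hx s)).2]
  have h2 := log_sum_exp_le (fun _ => 0) (expo b l r O B ξ)
    (D := b * |M| * N / 2 + 2 * r * N + sq ξ / 2) fun s => by
      linarith [(abs_le.1 (hx s)).1]
  rw [e0] at h1 h2
  unfold phi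
  rw [abs_le] at hz ⊢
  constructor <;> linarith [hz.1, hz.2]

lemma continuous_phi (b : ℝ) (l : Fin N → ℝ) (r : ℝ) (O : OMat N) :
    Continuous fun p : Matrix (Fin N) (Fin N) ℝ × (Fin N → ℝ) => phi b l r O p.1 p.2 := by
  refine ((Continuous.log ?_ fun p =>
    (Finset.sum_pos (fun _ _ => Real.exp_pos _) Finset.univ_nonempty).ne').sub continuous_const).sub
      continuous_const
  refine continuous_finsetSum _ fun s _ => Real.continuous_exp.comp ?_
  have h1 : Continuous fun p : Matrix (Fin N) (Fin N) ℝ × (Fin N → ℝ) => p.1 *ᵥ act O (spin s) :=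
    continuous_fst.matrix_mulVec continuous_const
  unfold expo lin shv
  fun_prop

/-! ### The function on the Gaussian space -/

/-- The model given the planted direction. -/
def jfun (b : ℝ) (l : Fin N → ℝ) (r : ℝ) (O : OMat N) (a : ℝ) (i0 : Fin N)
    (keep : Finset (Fin N)) (x : Fin N → ℝ) (g : Fin N × Fin N → ℝ) (ξ : Fin N → ℝ) : ℝ :=
  phi b l r O (refl i0 x * matB a i0 keep g) ξ

lemma len_model_le {a : ℝ} (ha : 0 < a) {i0 : Fin N} {keep : Finset (Fin N)} (hi : i0 ∉ keep)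
    (x : Fin N → ℝ) (g : Fin N × Fin N → ℝ) (v : Fin N → ℝ) :
    len ((refl i0 x * matB a i0 keep g) *ᵥ v) ≤ len v := by
  rw [← mulVec_mulVec]
  exact (len_refl_le _ _ _).trans (Real.sqrt_le_sqrt (sq_matB_le a i0 keep g ha hi v))

lemma continuous_jfun (b : ℝ) (l : Fin N → ℝ) (r : ℝ) (O : OMat N) {a : ℝ} (ha : 0 < a)
    (i0 : Fin N) (keep : Finset (Fin N)) :
    Continuous fun p : (Fin N → ℝ) × (Fin N × Fin N → ℝ) × (Fin N → ℝ) =>
      jfun b l r O a i0 keep p.1 p.2.1 p.2.2 :=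
  by
    have h1 : Continuous fun p : (Fin N → ℝ) × (Fin N × Fin N → ℝ) × (Fin N → ℝ) => refl i0 p.1 :=
      (continuous_refl i0).comp continuous_fst
    have h2 : Continuous fun p : (Fin N → ℝ) × (Fin N × Fin N → ℝ) × (Fin N → ℝ) =>
        matB a i0 keep p.2.1 := (continuous_matB ha i0 keep).comp (by fun_prop)
    have h3 : Continuous fun p : (Fin N → ℝ) × (Fin N × Fin N → ℝ) × (Fin N → ℝ) =>
        (refl i0 p.1 * matB a i0 keep p.2.1, p.2.2) := (h1.matrix_mul h2).prodMk (by fun_prop)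
    have h4 := Continuous.comp (g := fun q : Matrix (Fin N) (Fin N) ℝ × (Fin N → ℝ) =>
      phi b l r O q.1 q.2) (continuous_phi b l r O) h3
    simpa only [jfun, Function.comp_def] using h4

lemma jfun_lip {M : ℝ} {b : ℝ} (hb : 0 ≤ b) {l : Fin N → ℝ} (hl : ∀ i, |l i| ≤ M) (r : ℝ)
    (O : OMat N) {a : ℝ} (ha : 0 < a) {i0 : Fin N} {keep : Finset (Fin N)} (hi : i0 ∉ keep)
    (x x' : Fin N → ℝ) (g g' : Fin N × Fin N → ℝ) (ξ ξ' : Fin N → ℝ) :
    |jfun b l r O a i0 keep x g ξ - jfun b l r O a i0 keep x' g' ξ'|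
      ≤ b * |M| * Real.sqrt N
          * (Real.sqrt N * (16 * len (x - x') + len (g - g') / Real.sqrt a))
        + Real.sqrt r * Real.sqrt N * len (ξ - ξ') := by
  refine phi_lip hb hl r O (len_model_le ha hi x g) (len_model_le ha hi x' g') ξ ξ' fun s => ?_
  obtain ⟨v, hv⟩ : ∃ v, v = act O (spin s) := ⟨_, rfl⟩
  have hvl : len v = Real.sqrt N := hv ▸ len_spin O s
  rw [← hv, ← mulVec_mulVec, ← mulVec_mulVec]
  obtain ⟨y, hy⟩ : ∃ y, y = matB a i0 keep g *ᵥ v := ⟨_, rfl⟩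
  obtain ⟨y', hy'⟩ : ∃ y', y' = matB a i0 keep g' *ᵥ v := ⟨_, rfl⟩
  rw [← hy, ← hy']
  have h1 : len y ≤ Real.sqrt N :=
    hvl ▸ hy ▸ Real.sqrt_le_sqrt (sq_matB_le a i0 keep g ha hi v)
  have hd : len (y - y') ≤ len (g - g') / Real.sqrt a * Real.sqrt N := by
    have e : y - y' = (regB a (mk i0 keep g) - regB a (mk i0 keep g')) *ᵥ v := by
      rw [hy, hy', ← sub_mulVec, matB, matB, add_sub_add_left_eq_sub]
    rw [e, ← hvl]
    refine (Real.sqrt_le_sqrt (mulVec_sq_le _ v)).trans ?_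
    rw [Real.sqrt_mul (frob_nonneg _), len, len, ← Real.sqrt_div' _ ha.le]
    refine mul_le_mul_of_nonneg_right (Real.sqrt_le_sqrt ?_) (Real.sqrt_nonneg _)
    refine (regB_lip ha _ _).trans (div_le_div_of_nonneg_right ?_ ha.le)
    simp only [frob, sq, Fintype.sum_prod_type, Pi.sub_apply]
    refine Finset.sum_le_sum fun i _ => Finset.sum_le_sum fun j _ => ?_
    simp only [Matrix.sub_apply, mk, Matrix.of_apply]
    split_ifs <;> simp [sq_nonneg]
  have e : refl i0 x *ᵥ y - refl i0 x' *ᵥ y'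
      = (refl i0 x *ᵥ y - refl i0 x' *ᵥ y) + refl i0 x' *ᵥ (y - y') := by
    rw [mulVec_sub]; abel
  rw [e]
  refine (len_add_le _ _).trans ?_
  have h2 := (refl_sub_le i0 x x' y).trans
    (mul_le_mul_of_nonneg_left h1 (mul_nonneg (by norm_num) (len_nonneg _)))
  have h3 := (len_refl_le i0 x' (y - y')).trans hd
  linarith

end

end Vale.Agent.P166.High.Planted
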