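import Vale.Agent.P166.High.Defs
import Vale.Agent.P157.Plant.Defs

/-!
The functional that decides where the annealed phase ends.
-/

open MeasureTheory

namespace Vale.Agent.P166.Plant

noncomputable section

/-- With `β = G z`: `S(β(1-q)) - S(β) + q (z G z - 1)/2`, the information at overlap `q`. -/
def entK (μ : Measure ℝ) (b z q : ℝ) : ℝ :=
  annealed μ b (stieltjes μ z * (1 - q)) - annealed μ b (stieltjes μ z)
    + q * (z * stieltjes μ z - 1) / 2

/-- `β` does not exceed the edge value of `G`, and up to `β` the information at every overlap is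
at most that of the scalar channel. -/
def AnnealedCond (μ : Measure ℝ) (b β : ℝ) : Prop :=
  (∀ γ < β, ∃ z, b < z ∧ γ < stieltjes μ z) ∧
    ∀ z, b < z → stieltjes μ z ≤ β → ∀ q, 0 ≤ q → q < 1 →
      ∃ r, 0 ≤ r ∧ entK μ b z q ≤ r * q / 2 - Vale.Agent.P157.Plant.cubeInfo r

end

end Vale.Agent.P166.Plant
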