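import Mathlib

/-!
Finite size scalar functions of a list of eigenvalues.
-/

namespace Vale.Agent.P166.Plant

noncomputable section

variable {N : ℕ}

/-- `N⁻¹ ∑ (z - l i)⁻¹`. -/
def empG (l : Fin N → ℝ) (z : ℝ) : ℝ := (∑ i, (z - l i)⁻¹) / N

/-- `N⁻¹ ∑ (z - l i)⁻²`. -/
def empG2 (l : Fin N → ℝ) (z : ℝ) : ℝ := (∑ i, ((z - l i) ^ 2)⁻¹) / N

/-- Bounded eigenvalues and room at least `η` between them and the point where `empG` equals
`β`. -/
structure Tame (M η β : ℝ) (l : Fin N → ℝ) : Prop where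
  bdd : ∀ i, |l i| ≤ M
  pos : 0 < η
  room : ∃ t, (∀ i, l i + η ≤ t) ∧ β ≤ empG l t

open Classical in
/-- The point above all eigenvalues where `empG` equals `x`. -/
def root (l : Fin N → ℝ) (x : ℝ) : ℝ :=
  if h : ∃ z, (∀ i, l i < z) ∧ empG l z = x then h.choose else 0

/-- `x R(x)`, the finite size version, with value `0` at `0`. -/
def gfun (l : Fin N → ℝ) (x : ℝ) : ℝ := if x ≤ 0 then 0 else x * root l x - 1

/-- The derivative of `gfun`. -/
def dg (l : Fin N → ℝ) (x : ℝ) : ℝ :=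
  if x ≤ 0 then (∑ i, l i) / N else root l x - x / empG2 l (root l x)

/-- The rate of growth in `b` of the planted entropy at overlap `q`. -/
def kq (l : Fin N → ℝ) (b q : ℝ) : ℝ :=
  ((gfun l (b * (1 - q)) - gfun l b) / b + q * dg l b) / 2

/-- The derivative of `kq` in `q`. -/
def cq (l : Fin N → ℝ) (b q : ℝ) : ℝ := (dg l b - dg l (b * (1 - q))) / 2

/-- The annealed exponent of finite size. -/
def phiN (l : Fin N → ℝ) (b : ℝ) : ℝ :=
  if b ≤ 0 then 0 else
    (b * root l b - 1 - Real.log b - (∑ i, Real.log (root l b - l i)) / N) / 2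

/-- The integral of `kq` in `b`. -/
def KN (l : Fin N → ℝ) (b q : ℝ) : ℝ := phiN l (b * (1 - q)) - phiN l b + q * gfun l b / 2

end

end Vale.Agent.P166.Plant
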