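import Vale.Agent.P166.High.Pot
import Vale.Agent.P166.Plant.Defs
import Vale.Agent.P166.Plant.Roots

/-!
Properties of the scalar functions: roots, convexity, bounds uniform in the size, limits.
-/

open MeasureTheory Filter Topology Set

namespace Vale.Agent.P166.Plant

noncomputable section

variable {N : ℕ} {M η β : ℝ} {l : Fin N → ℝ}

/-- A bound for the ratios of the distances from a root to the eigenvalues. -/
def scRho (M η : ℝ) : ℝ := (2 * M + η) / η

/-- The Lipschitz constant of `dg`. -/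
def scLip (M η : ℝ) : ℝ := 4 * M ^ 2 * (1 + scRho M η ^ 2) * scRho M η ^ 2

/-- The mean of `l` with the weights `w`. -/
def scMean (l w : Fin N → ℝ) : ℝ := (∑ i, l i * w i) / ∑ i, w i

lemma scLip_nonneg (M η : ℝ) : 0 ≤ scLip M η := by unfold scLip; positivity

lemma sc_M_nonneg (hN : 0 < N) (T : Tame M η β l) : 0 ≤ M :=
  (abs_nonneg (l ⟨0, hN⟩)).trans (T.bdd _)

lemma Tame.mono (T : Tame M η β l) {β' : ℝ} (h : β' ≤ β) : Tame M η β' l :=
  ⟨T.bdd, T.pos, T.room.imp fun _ ht => ⟨ht.1, h.trans ht.2⟩⟩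

lemma sc_le_avg (hN : 0 < N) {f : Fin N → ℝ} {c : ℝ} (h : ∀ i, c ≤ f i) :
    c ≤ (∑ i, f i) / N := by
  rw [le_div_iff₀ (by exact_mod_cast hN)]
  simpa [mul_comm] using Finset.sum_le_sum (s := Finset.univ) (f := fun _ : Fin N => c)
    fun i _ => h i

lemma sc_avg_le (hN : 0 < N) {f : Fin N → ℝ} {c : ℝ} (h : ∀ i, f i ≤ c) :
    (∑ i, f i) / N ≤ c := by
  rw [div_le_iff₀ (by exact_mod_cast hN)]
  simpa [mul_comm] using Finset.sum_le_sum (s := Finset.univ) (g := fun _ : Fin N => c)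
    fun i _ => h i

lemma sc_empG_sub {z w : ℝ} (hz : ∀ i, l i < z) (hw : ∀ i, l i < w) :
    empG l z - empG l w = (w - z) * ((∑ i, ((z - l i) * (w - l i))⁻¹) / N) := by
  rw [empG, empG, ← sub_div, ← Finset.sum_sub_distrib, mul_div_assoc', Finset.mul_sum]
  congr 1
  refine Finset.sum_congr rfl fun i _ => ?_
  have := (sub_pos.2 (hz i)).ne'
  have := (sub_pos.2 (hw i)).ne'
  field_simp
  ring

lemma sc_empG_lt (hN : 0 < N) {z w : ℝ} (hz : ∀ i, l i < z) (hzw : z < w) :
    empG l w < empG l z := by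
  have hw : ∀ i, l i < w := fun i => (hz i).trans hzw
  have h : 0 < (∑ i, ((z - l i) * (w - l i))⁻¹) / (N : ℝ) :=
    div_pos (Finset.sum_pos (fun i _ => inv_pos.2 (mul_pos (sub_pos.2 (hz i)) (sub_pos.2 (hw i))))
      ⟨⟨0, hN⟩, Finset.mem_univ _⟩) (by exact_mod_cast hN)
  have := sc_empG_sub hz hw
  have := mul_pos (sub_pos.2 hzw) h
  linarith

lemma sc_le_of_empG (hN : 0 < N) {z w : ℝ} (hw : ∀ i, l i < w) (h : empG l w ≤ empG l z) :
    z ≤ w := le_of_not_gt fun hlt => (sc_empG_lt hN hw hlt).not_ge h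

theorem root_unique (hN : 0 < N) {x z : ℝ} (hz : ∀ i, l i < z) (h : empG l z = x) :
    root l x = z := by
  have h0 : ∃ w, (∀ i, l i < w) ∧ empG l w = x := ⟨z, hz, h⟩
  rw [root, dif_pos h0]
  obtain ⟨h1, h2⟩ := h0.choose_spec
  exact le_antisymm (sc_le_of_empG hN hz (by rw [h, h2])) (sc_le_of_empG hN h1 (by rw [h, h2]))

lemma sc_exists_root (hN : 0 < N) (T : Tame M η β l) {x : ℝ} (hx : 0 < x) (hxβ : x ≤ β) :
    ∃ z, (∀ i, l i + η ≤ z) ∧ empG l z = x := by
  obtain ⟨t, ht, hβt⟩ := T.room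
  have htZ : t ≤ max t (M + 1 / x) := le_max_left _ _
  have hc : ContinuousOn (empG l) (Icc t (max t (M + 1 / x))) := by
    refine ContinuousOn.div_const (continuousOn_finsetSum _ fun i _ =>
      ContinuousOn.inv₀ (by fun_prop) fun w hw => ?_) _
    have := ht i
    have := T.pos
    have := hw.1
    exact (show 0 < w - l i by linarith).ne'
  have hZ : empG l (max t (M + 1 / x)) ≤ x := by
    refine sc_avg_le hN fun i => ?_
    have h1 : 1 / x ≤ max t (M + 1 / x) - l i := by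
      linarith [le_max_right t (M + 1 / x), (abs_le.1 (T.bdd i)).2]
    simpa using inv_anti₀ (by positivity) h1
  obtain ⟨z, hz, h⟩ := intermediate_value_Icc' htZ hc ⟨hZ, hxβ.trans hβt⟩
  exact ⟨z, fun i => (ht i).trans hz.1, h⟩

theorem root_spec (hN : 0 < N) (T : Tame M η β l) {x : ℝ} (hx : 0 < x) (hxβ : x ≤ β) :
    (∀ i, l i + η ≤ root l x) ∧ empG l (root l x) = x ∧ root l x ≤ M + 1 / x := by
  obtain ⟨z, hz, h⟩ := sc_exists_root hN T hx hxβ
  rw [root_unique hN (fun i => by linarith [hz i, T.pos]) h]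
  refine ⟨hz, h, le_of_not_gt fun hlt => ?_⟩
  have h1 : x ≤ (z - M)⁻¹ := h ▸ sc_avg_le hN fun i => inv_anti₀
    (by linarith [one_div_pos.2 hx]) (by linarith [(abs_le.1 (T.bdd i)).2])
  have h2 : (z - M)⁻¹ < x := by
    simpa using inv_strictAnti₀ (by positivity) (show 1 / x < z - M by linarith)
  linarith

lemma sc_root_lt (hN : 0 < N) (T : Tame M η β l) {x : ℝ} (hx : 0 < x) (hxβ : x ≤ β) (i : Fin N) :
    l i < root l x := by linarith [(root_spec hN T hx hxβ).1 i, T.pos]

theorem root_antitone (hN : 0 < N) (T : Tame M η β l) {x y : ℝ} (hx : 0 < x) (hxy : x ≤ y)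
    (hy : y ≤ β) : root l y ≤ root l x :=
  sc_le_of_empG hN (sc_root_lt hN T hx (hxy.trans hy))
    (by rw [(root_spec hN T hx (hxy.trans hy)).2.1, (root_spec hN T (hx.trans_le hxy) hy).2.1]
        exact hxy)

lemma sc_ratio (hN : 0 < N) (T : Tame M η β l) {x : ℝ} (hx : 0 < x) (hxβ : x ≤ β) (i j : Fin N) :
    root l x - l i ≤ scRho M η * (root l x - l j) ∧
      (root l x - l j)⁻¹ ≤ scRho M η * x := by
  have key : ∀ i j, root l x - l i ≤ scRho M η * (root l x - l j) := fun i j => by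
    have h := (root_spec hN T hx hxβ).1 j
    have h1 := abs_le.1 (T.bdd i)
    have h2 := abs_le.1 (T.bdd j)
    have e : scRho M η = 1 + 2 * M / η := by
      have := T.pos.ne'; unfold scRho; field_simp; ring
    have h3 : 2 * M ≤ 2 * M / η * (root l x - l j) := by
      rw [div_mul_eq_mul_div, le_div_iff₀ T.pos]
      exact mul_le_mul_of_nonneg_left (by linarith) (by linarith [sc_M_nonneg hN T])
    rw [e]; linarith
  refine ⟨key i j, ?_⟩
  have hρ : 0 < scRho M η := by
    have := sc_M_nonneg hN T; have := T.pos; unfold scRho; positivity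
  have hj := sub_pos.2 (sc_root_lt hN T hx hxβ j)
  have h := sc_le_avg hN (c := (scRho M η * (root l x - l j))⁻¹)
    (f := fun k => (root l x - l k)⁻¹)
    fun k => inv_anti₀ (sub_pos.2 (sc_root_lt hN T hx hxβ k)) (key k j)
  rw [← empG, (root_spec hN T hx hxβ).2.1, mul_inv, inv_mul_le_iff₀ hρ] at h
  exact h

lemma Tame.wide (hN : 0 < N) (T : Tame M η β l) : ∃ β' > β, Tame M (η / 2) β' l := by
  obtain ⟨t, ht, hβ⟩ := T.room
  have := T.pos
  refine ⟨_, lt_of_le_of_lt hβ (sc_empG_lt hN (z := t - η / 2) (w := t)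
    (fun i => by linarith [ht i]) (by linarith)), T.bdd, by linarith, t - η / 2,
    fun i => by linarith [ht i], le_rfl⟩

lemma sc_root_lip (hN : 0 < N) (T : Tame M η β l) {x₀ x y : ℝ} (hx₀ : 0 < x₀) (hx : x₀ ≤ x)
    (hxy : x ≤ y) (hy : y ≤ β) :
    root l x - root l y ≤ (2 * M + 1 / x₀) ^ 2 * (y - x) := by
  have hx' := hx₀.trans_le hx
  have hy' := hx'.trans_le hxy
  have hz := sc_root_lt hN T hx' (hxy.trans hy)
  have hw := sc_root_lt hN T hy' hy
  have h := sc_empG_sub hw hz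
  rw [(root_spec hN T hx' (hxy.trans hy)).2.1, (root_spec hN T hy' hy).2.1] at h
  have hd : ∀ z ≤ M + 1 / x₀, ∀ i, z - l i ≤ 2 * M + 1 / x₀ := fun z hz i => by
    linarith [(abs_le.1 (T.bdd i)).1]
  have hD : 0 < 2 * M + 1 / x₀ := by have := sc_M_nonneg hN T; positivity
  have hle : ∀ u, x₀ ≤ u → u ≤ β → root l u ≤ M + 1 / x₀ := fun u hu hu' =>
    (root_spec hN T (hx₀.trans_le hu) hu').2.2.trans
      (add_le_add_right (one_div_le_one_div_of_le hx₀ hu) M)
  have havg := sc_le_avg hN (c := ((2 * M + 1 / x₀) ^ 2)⁻¹)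
    (f := fun i => ((root l y - l i) * (root l x - l i))⁻¹) fun i => by
      refine inv_anti₀ (mul_pos (sub_pos.2 (hw i)) (sub_pos.2 (hz i))) ?_
      rw [sq]
      exact mul_le_mul (hd _ (hle y (hx.trans hxy) hy) i) (hd _ (hle x hx (hxy.trans hy)) i)
        (sub_pos.2 (hz i)).le hD.le
  have h2 := mul_le_mul_of_nonneg_left havg (sub_nonneg.2 (root_antitone hN T hx' hxy hy))
  rw [← h, ← div_eq_mul_inv, div_le_iff₀ (by positivity)] at h2
  linarith

lemma sc_hasDerivAt_root (hN : 0 < N) (T : Tame M η β l) {x : ℝ} (hx : 0 < x) (hxβ : x ≤ β) :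
    HasDerivAt (root l) (-(empG2 l (root l x))⁻¹) x := by
  obtain ⟨β', hβ', T'⟩ := T.wide hN
  have hxs : x < β' := hxβ.trans_lt hβ'
  have hnear : ∀ᶠ u in 𝓝 x, u ∈ Icc (x / 2) β' :=
    Icc_mem_nhds (by linarith) hxs
  have hcont : ContinuousAt (root l) x := by
    refine continuousAt_of_locally_lipschitz (r := min (x / 2) (β' - x))
      (lt_min (by linarith) (by linarith)) ((2 * M + 1 / (x / 2)) ^ 2) fun u hu => ?_
    rw [Real.dist_eq] at hu
    obtain ⟨h1, h2⟩ := abs_lt.1 hu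
    have := min_le_left (x / 2) (β' - x)
    have := min_le_right (x / 2) (β' - x)
    rw [Real.dist_eq, Real.dist_eq]
    rcases le_total u x with h | h
    · rw [abs_of_nonneg (sub_nonneg.2 (root_antitone hN T' (by linarith) h hxs.le)),
        abs_of_nonpos (sub_nonpos.2 h), neg_sub]
      exact sc_root_lip hN T' (by linarith) (by linarith) h hxs.le
    · rw [abs_of_nonpos (sub_nonpos.2 (root_antitone hN T' hx h (by linarith))),
        abs_of_nonneg (sub_nonneg.2 h), neg_sub]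
      exact sc_root_lip hN T' (by linarith) (by linarith) h (by linarith)
  have hz := sc_root_lt hN T hx hxβ
  have hd : HasDerivAt (empG l) (-empG2 l (root l x)) (root l x) := by
    have h := HasDerivAt.fun_sum (u := Finset.univ) fun i _ =>
      ((hasDerivAt_id' (root l x)).sub_const (l i)).inv (sub_pos.2 (hz i)).ne'
    refine (h.div_const (N : ℝ)).congr_deriv ?_
    simp [empG2, neg_div, Finset.sum_neg_distrib]
  have hpos : 0 < empG2 l (root l x) := div_pos (Finset.sum_pos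
    (fun i _ => inv_pos.2 (pow_pos (sub_pos.2 (hz i)) 2)) ⟨⟨0, hN⟩, Finset.mem_univ _⟩)
    (by exact_mod_cast hN)
  rw [← inv_neg]
  exact hd.of_local_left_inverse hcont (neg_ne_zero.2 hpos.ne')
    (hnear.mono fun u hu => (root_spec hN T' (by linarith [hu.1]) hu.2).2.1)

lemma sc_gfun_eq (hN : 0 < N) (T : Tame M η β l) {x : ℝ} (hx : 0 < x) (hxβ : x ≤ β) :
    gfun l x = (∑ i, l i * (root l x - l i)⁻¹) / N := by
  have hN' : (N : ℝ) ≠ 0 := Nat.cast_ne_zero.2 hN.ne'
  have h := (root_spec hN T hx hxβ).2.1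
  have e : ∀ i, l i * (root l x - l i)⁻¹ = root l x * (root l x - l i)⁻¹ - 1 := fun i => by
    have := (sub_pos.2 (sc_root_lt hN T hx hxβ i)).ne'
    field_simp; ring
  rw [gfun, if_neg (not_le.2 hx)]
  simp only [e]
  rw [Finset.sum_sub_distrib, ← Finset.mul_sum, sub_div, mul_div_assoc, ← empG, h]
  simp [hN', mul_comm]

lemma sc_gfun_abs (hN : 0 < N) (T : Tame M η β l) {x : ℝ} (hx : 0 ≤ x) (hxβ : x ≤ β) :
    |gfun l x| ≤ M * x := by
  rcases hx.eq_or_lt with rfl | hx
  · simp [gfun]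
  have h := (root_spec hN T hx hxβ).2.1
  have hb : ∀ i, |l i * (root l x - l i)⁻¹| ≤ M * (root l x - l i)⁻¹ := fun i => by
    have := inv_pos.2 (sub_pos.2 (sc_root_lt hN T hx hxβ i))
    rw [abs_mul, abs_of_pos this]
    exact mul_le_mul_of_nonneg_right (T.bdd i) this.le
  rw [sc_gfun_eq hN T hx hxβ, abs_div, Nat.abs_cast]
  calc |∑ i, l i * (root l x - l i)⁻¹| / (N : ℝ)
      ≤ (∑ i, M * (root l x - l i)⁻¹) / N := by
        gcongr
        exact (Finset.abs_sum_le_sum_abs _ _).trans (Finset.sum_le_sum fun i _ => hb i)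
    _ = M * x := by rw [← Finset.mul_sum, mul_div_assoc, ← empG, h]

lemma sc_dg_eq (hN : 0 < N) (T : Tame M η β l) {x : ℝ} (hx : 0 < x) (hxβ : x ≤ β) :
    dg l x = scMean l fun i => ((root l x - l i) ^ 2)⁻¹ := by
  have hN' : (N : ℝ) ≠ 0 := Nat.cast_ne_zero.2 hN.ne'
  have hz := fun i => sub_pos.2 (sc_root_lt hN T hx hxβ i)
  have h := (root_spec hN T hx hxβ).2.1
  have hs : (0 : ℝ) < ∑ i, ((root l x - l i) ^ 2)⁻¹ :=
    Finset.sum_pos (fun i _ => inv_pos.2 (pow_pos (hz i) 2)) ⟨⟨0, hN⟩, Finset.mem_univ _⟩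
  have e : ∀ i, l i * ((root l x - l i) ^ 2)⁻¹
      = root l x * ((root l x - l i) ^ 2)⁻¹ - (root l x - l i)⁻¹ := fun i => by
    have := (hz i).ne'
    field_simp; ring
  rw [dg, if_neg (not_le.2 hx), scMean]
  simp only [e]
  rw [Finset.sum_sub_distrib, ← Finset.mul_sum, empG2]
  rw [empG, div_eq_iff hN'] at h
  rw [h, div_div_eq_mul_div, sub_div, mul_div_cancel_right₀ _ hs.ne']

lemma sc_mean_abs (hN : 0 < N) {w : Fin N → ℝ} (hw : ∀ i, 0 < w i) (hl : ∀ i, |l i| ≤ M) :
    |scMean l w| ≤ M := by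
  have hs : 0 < ∑ i, w i := Finset.sum_pos (fun i _ => hw i) ⟨⟨0, hN⟩, Finset.mem_univ _⟩
  rw [scMean, abs_div, abs_of_pos hs, div_le_iff₀ hs, Finset.mul_sum]
  refine (Finset.abs_sum_le_sum_abs _ _).trans (Finset.sum_le_sum fun i _ => ?_)
  rw [abs_mul, abs_of_pos (hw i)]
  exact mul_le_mul_of_nonneg_right (hl i) (hw i).le

lemma sc_mean_one (hN : 0 < N) (l : Fin N → ℝ) : scMean l (fun _ => 1) = (∑ i, l i) / N := by
  simp [scMean]

lemma sc_dg_abs (hN : 0 < N) (T : Tame M η β l) {x : ℝ} (hxβ : x ≤ β) : |dg l x| ≤ M := by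
  rcases le_or_gt x 0 with hx | hx
  · rw [dg, if_pos hx, ← sc_mean_one hN]
    exact sc_mean_abs hN (fun _ => one_pos) T.bdd
  rw [sc_dg_eq hN T hx hxβ]
  exact sc_mean_abs hN (fun i => inv_pos.2 (pow_pos (sub_pos.2 (sc_root_lt hN T hx hxβ i)) 2))
    T.bdd

/-- Comparison of two weighted means, by symmetrising the double sum. -/
lemma sc_mean_cmp (hN : 0 < N) (hl : ∀ i, |l i| ≤ M) {w w' : Fin N → ℝ} {K : ℝ}
    (hw : ∀ i, 0 < w i) (hw' : ∀ i, 0 < w' i) (e : Fin N → Fin N → ℝ)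
    (he : ∀ i j, w i * w' j - w' i * w j = (l i - l j) * e i j ∧ 0 ≤ e i j ∧
      e i j ≤ K * (w i * w' j)) :
    0 ≤ scMean l w - scMean l w' ∧ scMean l w - scMean l w' ≤ 2 * M ^ 2 * K := by
  have hs : 0 < ∑ i, w i := Finset.sum_pos (fun i _ => hw i) ⟨⟨0, hN⟩, Finset.mem_univ _⟩
  have hs' : 0 < ∑ i, w' i := Finset.sum_pos (fun i _ => hw' i) ⟨⟨0, hN⟩, Finset.mem_univ _⟩
  set X := (∑ i, l i * w i) * (∑ i, w' i) - (∑ i, w i) * (∑ i, l i * w' i) with hX
  have e1 : X = ∑ i, ∑ j, l i * (w i * w' j - w' i * w j) := by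
    rw [hX, mul_comm (∑ i, w i)]
    simp only [Finset.sum_mul_sum, ← Finset.sum_sub_distrib]
    exact Finset.sum_congr rfl fun i _ => Finset.sum_congr rfl fun j _ => by ring
  have e2 : 2 * X = ∑ i, ∑ j, (l i - l j) ^ 2 * e i j := by
    rw [two_mul]
    conv_lhs => arg 2; rw [e1, Finset.sum_comm]
    rw [e1, ← Finset.sum_add_distrib]
    refine Finset.sum_congr rfl fun i _ => ?_
    rw [← Finset.sum_add_distrib]
    refine Finset.sum_congr rfl fun j _ => ?_
    linear_combination (l i - l j) * (he i j).1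
  have h0 : 0 ≤ 2 * X := e2 ▸ Finset.sum_nonneg fun i _ => Finset.sum_nonneg fun j _ =>
    mul_nonneg (sq_nonneg _) (he i j).2.1
  have h1 : 2 * X ≤ 4 * M ^ 2 * K * ((∑ i, w i) * ∑ i, w' i) := by
    rw [e2, Finset.sum_mul_sum, Finset.mul_sum]
    refine Finset.sum_le_sum fun i _ => ?_
    rw [Finset.mul_sum]
    refine Finset.sum_le_sum fun j _ => ?_
    have hij : (l i - l j) ^ 2 ≤ 4 * M ^ 2 := by
      nlinarith [abs_le.1 (hl i), abs_le.1 (hl j)]
    calc (l i - l j) ^ 2 * e i j ≤ 4 * M ^ 2 * (K * (w i * w' j)) :=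
          mul_le_mul hij (he i j).2.2 (he i j).2.1 (by positivity)
      _ = _ := by ring
  rw [scMean, scMean, div_sub_div _ _ hs.ne' hs'.ne', ← hX]
  refine ⟨div_nonneg (by linarith) (mul_pos hs hs').le, ?_⟩
  rw [div_le_iff₀ (mul_pos hs hs')]
  linarith

lemma sc_dg_lip (hN : 0 < N) (T : Tame M η β l) {x y : ℝ} (hx : 0 ≤ x) (hxy : x ≤ y)
    (hy : y ≤ β) : 0 ≤ dg l y - dg l x ∧ dg l y - dg l x ≤ scLip M η * (y - x) := by
  have hρ : 1 ≤ scRho M η := by
    rw [scRho, le_div_iff₀ T.pos]; linarith [sc_M_nonneg hN T]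
  rcases (hx.trans hxy).eq_or_lt with h | hy0
  · subst h; obtain rfl := le_antisymm hxy hx; simp
  have hzy := fun i => sub_pos.2 (sc_root_lt hN T hy0 hy i)
  have hw : ∀ i, 0 < ((root l y - l i) ^ 2)⁻¹ := fun i => inv_pos.2 (pow_pos (hzy i) 2)
  rw [sc_dg_eq hN T hy0 hy]
  rcases hx.eq_or_lt with rfl | hx0
  · rw [show dg l 0 = scMean l fun _ => 1 by rw [sc_mean_one hN, dg, if_pos le_rfl], sub_zero]
    obtain ⟨h0, h1⟩ := sc_mean_cmp (M := M) (K := (1 + scRho M η) * scRho M η * y) hN T.bdd hw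
      (fun _ => one_pos) (fun i j => ((root l y - l i) + (root l y - l j)) /
        ((root l y - l i) ^ 2 * (root l y - l j) ^ 2)) fun i j => by
      have hi := hzy i
      have hj := hzy j
      refine ⟨by field_simp; ring, by positivity, ?_⟩
      rw [mul_one]
      calc _ = ((root l y - l i) + (root l y - l j)) / (root l y - l j)
            * (root l y - l j)⁻¹ * ((root l y - l i) ^ 2)⁻¹ := by field_simp
        _ ≤ (1 + scRho M η) * (scRho M η * y) * ((root l y - l i) ^ 2)⁻¹ := by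
            refine mul_le_mul_of_nonneg_right (mul_le_mul ?_ (sc_ratio hN T hy0 hy i j).2
              (inv_nonneg.2 hj.le) (by linarith)) (hw i).le
            rw [div_le_iff₀ hj]
            linarith [(sc_ratio hN T hy0 hy i j).1]
        _ = _ := by ring
    refine ⟨h0, h1.trans ?_⟩
    have h2 : (1 + scRho M η) * scRho M η ≤ (1 + scRho M η ^ 2) * scRho M η ^ 2 :=
      mul_le_mul (by nlinarith) (by nlinarith) (by linarith) (by positivity)
    have h3 := mul_le_mul_of_nonneg_left h2 (show 0 ≤ 4 * M ^ 2 * y by positivity)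
    have h4 : 0 ≤ 2 * M ^ 2 * ((1 + scRho M η) * scRho M η * y) := by positivity
    unfold scLip
    linarith
  have hxβ := hxy.trans hy
  have hzx := fun i => sub_pos.2 (sc_root_lt hN T hx0 hxβ i)
  rw [sc_dg_eq hN T hx0 hxβ]
  have hzz := sub_nonneg.2 (root_antitone hN T hx0 hxy hy)
  have hdiff := sc_empG_sub (sc_root_lt hN T hy0 hy) (sc_root_lt hN T hx0 hxβ)
  rw [(root_spec hN T hy0 hy).2.1, (root_spec hN T hx0 hxβ).2.1] at hdiff
  obtain ⟨h0, h1⟩ := sc_mean_cmp (M := M)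
    (K := (1 + scRho M η ^ 2) * scRho M η ^ 2 * (y - x)) hN T.bdd hw
    (fun i => inv_pos.2 (pow_pos (hzx i) 2)) (fun i j => (root l x - root l y) *
      ((root l x - l i) * (root l y - l j) + (root l y - l i) * (root l x - l j)) /
        (((root l x - l i) * (root l y - l j)) ^ 2 *
          ((root l y - l i) * (root l x - l j)) ^ 2)) fun i j => by
    have h1 := hzx i
    have h2 := hzy i
    have h3 := hzx j
    have h4 := hzy j
    refine ⟨by field_simp; ring, by positivity, ?_⟩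
    set A := (root l x - l i) * (root l y - l j) with hA
    set B := (root l y - l i) * (root l x - l j) with hB
    have hA0 : 0 < A := mul_pos h1 h4
    have hB0 : 0 < B := mul_pos h2 h3
    have hBA : B ≤ scRho M η ^ 2 * A := by
      calc B ≤ (scRho M η * (root l y - l j)) * (scRho M η * (root l x - l i)) :=
            mul_le_mul (sc_ratio hN T hy0 hy i j).1 (sc_ratio hN T hx0 hxβ j i).1 h3.le
              (by positivity)
        _ = _ := by rw [hA]; ring
    have hzA : (root l x - root l y) / A ≤ scRho M η ^ 2 * (y - x) := by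
      have h := sc_le_avg hN (c := (scRho M η ^ 2 * A)⁻¹)
        (f := fun k => ((root l y - l k) * (root l x - l k))⁻¹) fun k => by
          refine inv_anti₀ (mul_pos (hzy k) (hzx k)) ?_
          calc _ ≤ (scRho M η * (root l y - l j)) * (scRho M η * (root l x - l i)) :=
                mul_le_mul (sc_ratio hN T hy0 hy k j).1 (sc_ratio hN T hx0 hxβ k i).1 (hzx k).le
                  (by positivity)
            _ = _ := by rw [hA]; ring
      have h' := mul_le_mul_of_nonneg_left h hzz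
      rw [← hdiff, ← div_eq_mul_inv, div_le_iff₀ (by positivity)] at h'
      rw [div_le_iff₀ hA0]
      linarith
    have hAB : (A + B) / A ≤ 1 + scRho M η ^ 2 := by
      rw [div_le_iff₀ hA0]; linarith
    calc (root l x - root l y) * (A + B) / (A ^ 2 * B ^ 2)
        = ((A + B) / A) * ((root l x - root l y) / A) * (B ^ 2)⁻¹ := by field_simp
      _ ≤ (1 + scRho M η ^ 2) * (scRho M η ^ 2 * (y - x)) * (B ^ 2)⁻¹ :=
          mul_le_mul_of_nonneg_right
            (mul_le_mul hAB hzA (div_nonneg hzz hA0.le) (by positivity)) (by positivity)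
      _ = _ := by rw [hB, mul_pow, mul_inv]; ring
  refine ⟨h0, h1.trans ?_⟩
  have h3 : 0 ≤ M ^ 2 * ((1 + scRho M η ^ 2) * scRho M η ^ 2 * (y - x)) := by
    have := sub_nonneg.2 hxy; positivity
  unfold scLip
  linarith

lemma sc_hasDerivAt_gfun (hN : 0 < N) (T : Tame M η β l) {x : ℝ} (hx : 0 < x) (hxβ : x ≤ β) :
    HasDerivAt (gfun l) (dg l x) x := by
  have h := ((hasDerivAt_id' x).mul (sc_hasDerivAt_root hN T hx hxβ)).sub_const 1
  refine (h.congr_of_eventuallyEq ?_).congr_deriv ?_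
  · filter_upwards [eventually_gt_nhds hx] with u hu
    rw [gfun, if_neg (not_le.2 hu)]; rfl
  · rw [dg, if_neg (not_le.2 hx)]
    ring

lemma sc_hasDerivAt_phiN (hN : 0 < N) (T : Tame M η β l) {x : ℝ} (hx : 0 < x) (hxβ : x ≤ β) :
    HasDerivAt (phiN l) (gfun l x / (2 * x)) x := by
  have hz := fun i => sub_pos.2 (sc_root_lt hN T hx hxβ i)
  have hr := sc_hasDerivAt_root hN T hx hxβ
  have hL := (HasDerivAt.fun_sum (u := Finset.univ) fun i _ =>
    (hr.sub_const (l i)).log (hz i).ne').div_const (N : ℝ)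
  have h := (((((hasDerivAt_id' x).mul hr).sub_const 1).sub (Real.hasDerivAt_log hx.ne')).sub
    hL).div_const 2
  refine (h.congr_of_eventuallyEq ?_).congr_deriv ?_
  · filter_upwards [eventually_gt_nhds hx] with u hu
    rw [phiN, if_neg (not_le.2 hu)]; rfl
  · have e : (∑ i, -(empG2 l (root l x))⁻¹ / (root l x - l i)) / (N : ℝ)
        = -(empG2 l (root l x))⁻¹ * x := by
      conv_rhs => arg 2; rw [← (root_spec hN T hx hxβ).2.1]
      rw [empG, mul_div_assoc', Finset.mul_sum]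
      simp only [div_eq_mul_inv]
    rw [e, gfun, if_neg (not_le.2 hx)]
    field_simp
    ring

theorem hasDerivAt_phiN (hN : 0 < N) (T : Tame M η β l) {b : ℝ} (hb : 0 < b) (hbβ : b ≤ β) :
    HasDerivAt (phiN l) ((root l b - 1 / b) / 2) b := by
  refine (sc_hasDerivAt_phiN hN T hb hbβ).congr_deriv ?_
  rw [gfun, if_neg (not_le.2 hb)]
  field_simp

lemma sc_gfun_lip (hN : 0 < N) (T : Tame M η β l) {x y : ℝ} (hx : x ∈ Icc 0 β)
    (hy : y ∈ Icc 0 β) : |gfun l x - gfun l y| ≤ M * |x - y| := by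
  wlog hxy : x ≤ y generalizing x y
  · rw [abs_sub_comm, abs_sub_comm x]; exact this hy hx (le_of_not_ge hxy)
  rw [abs_sub_comm, abs_sub_comm x, abs_of_nonneg (sub_nonneg.2 hxy)]
  rcases hx.1.eq_or_lt with rfl | hx0
  · simpa [gfun] using sc_gfun_abs hN T hy.1 hy.2
  rcases hxy.eq_or_lt with rfl | hlt
  · simp
  have hd : ∀ t ∈ Icc x y, HasDerivAt (gfun l) (dg l t) t := fun t ht =>
    sc_hasDerivAt_gfun hN T (hx0.trans_le ht.1) (ht.2.trans hy.2)
  obtain ⟨c, hc, e⟩ := exists_hasDerivAt_eq_slope (gfun l) (dg l) hlt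
    (fun t ht => (hd t ht).continuousAt.continuousWithinAt) fun t ht => hd t (Ioo_subset_Icc_self ht)
  rw [eq_div_iff (sub_pos.2 hlt).ne'] at e
  rw [← e, abs_mul, abs_of_pos (sub_pos.2 hlt)]
  exact mul_le_mul_of_nonneg_right (sc_dg_abs hN T (hc.2.le.trans hy.2)) (sub_pos.2 hlt).le

lemma sc_abs_phiN (hN : 0 < N) (T : Tame M η β l) {x : ℝ} (hx : 0 ≤ x) (hxβ : x ≤ β) :
    |phiN l x| ≤ M / 2 * x := by
  rcases hx.eq_or_lt with rfl | hx
  · simp [phiN]
  have hN' : (N : ℝ) ≠ 0 := Nat.cast_ne_zero.2 hN.ne'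
  have hz := fun i => sub_pos.2 (sc_root_lt hN T hx hxβ i)
  have hg := abs_le.1 (sc_gfun_abs hN T hx.le hxβ)
  have hm := abs_le.1 (sc_mean_abs hN (fun _ => one_pos) T.bdd)
  rw [sc_mean_one hN] at hm
  set F := (∑ i, Real.log (root l x - l i)) / (N : ℝ)
  have hl : ∀ i, Real.log (x * (root l x - l i)) = Real.log x + Real.log (root l x - l i) :=
    fun i => Real.log_mul hx.ne' (hz i).ne'
  have h1 : F ≤ x * root l x - x * ((∑ i, l i) / N) - 1 - Real.log x := by
    have h := Finset.sum_le_sum (s := Finset.univ) fun i _ =>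
      Real.log_le_sub_one_of_pos (mul_pos hx (hz i))
    simp only [hl] at h
    simp only [Finset.sum_add_distrib, Finset.sum_const,
      Finset.card_univ, Fintype.card_fin, nsmul_eq_mul, Finset.sum_sub_distrib, mul_one,
      mul_sub, ← Finset.mul_sum] at h
    have h' := div_le_div_of_nonneg_right h (Nat.cast_nonneg (α := ℝ) N)
    simp only [add_div, sub_div, mul_div_assoc, mul_div_cancel_left₀ _ hN', div_self hN'] at h'
    linarith
  have h2 : -Real.log x ≤ F := by
    have h := Finset.sum_le_sum (s := Finset.univ) fun i _ =>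
      Real.one_sub_inv_le_log_of_pos (mul_pos hx (hz i))
    simp only [hl] at h
    simp only [Finset.sum_add_distrib, Finset.sum_const,
      Finset.card_univ, Fintype.card_fin, nsmul_eq_mul, Finset.sum_sub_distrib, mul_one,
      mul_inv, ← Finset.mul_sum] at h
    have h' := div_le_div_of_nonneg_right h (Nat.cast_nonneg (α := ℝ) N)
    simp only [add_div, sub_div, mul_div_assoc, mul_div_cancel_left₀ _ hN', div_self hN'] at h'
    rw [← empG, (root_spec hN T hx hxβ).2.1, inv_mul_cancel₀ hx.ne'] at h'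
    linarith
  have hM := mul_le_mul_of_nonneg_left hm.1 hx.le
  rw [gfun, if_neg (not_le.2 hx)] at hg
  rw [phiN, if_neg (not_le.2 hx), abs_le]
  constructor <;> linarith [mul_le_mul_of_nonneg_left hm.2 hx.le]

lemma sc_phiN_lip (hN : 0 < N) (T : Tame M η β l) {x y : ℝ} (hx : x ∈ Icc 0 β)
    (hy : y ∈ Icc 0 β) : |phiN l x - phiN l y| ≤ M / 2 * |x - y| := by
  wlog hxy : x ≤ y generalizing x y
  · rw [abs_sub_comm, abs_sub_comm x]; exact this hy hx (le_of_not_ge hxy)
  rw [abs_sub_comm, abs_sub_comm x, abs_of_nonneg (sub_nonneg.2 hxy)]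
  rcases hx.1.eq_or_lt with rfl | hx0
  · simpa [phiN] using sc_abs_phiN hN T hy.1 hy.2
  rcases hxy.eq_or_lt with rfl | hlt
  · simp
  have hd : ∀ t ∈ Icc x y, HasDerivAt (phiN l) (gfun l t / (2 * t)) t := fun t ht =>
    sc_hasDerivAt_phiN hN T (hx0.trans_le ht.1) (ht.2.trans hy.2)
  obtain ⟨c, hc, e⟩ := exists_hasDerivAt_eq_slope (phiN l) (fun t => gfun l t / (2 * t)) hlt
    (fun t ht => (hd t ht).continuousAt.continuousWithinAt) fun t ht => hd t (Ioo_subset_Icc_self ht)
  rw [eq_div_iff (sub_pos.2 hlt).ne'] at e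
  rw [← e, abs_mul, abs_of_pos (sub_pos.2 hlt)]
  refine mul_le_mul_of_nonneg_right ?_ (sub_pos.2 hlt).le
  have hc0 : 0 < c := hx0.trans hc.1
  rw [abs_div, abs_of_pos (show 0 < 2 * c by linarith), div_le_iff₀ (by linarith)]
  linarith [sc_gfun_abs hN T hc0.le (hc.2.le.trans hy.2)]

lemma sc_mem {b q : ℝ} (hb : 0 ≤ b) (hbβ : b ≤ β) (hq : q ∈ Icc (0 : ℝ) 1) :
    b * (1 - q) ∈ Icc 0 β :=
  ⟨mul_nonneg hb (sub_nonneg.2 hq.2),
    (mul_le_of_le_one_right hb (by linarith [hq.1])).trans hbβ⟩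

theorem hasDerivAt_KN (hN : 0 < N) (T : Tame M η β l) {b q : ℝ} (hb : 0 < b) (hbβ : b ≤ β)
    (hq : 0 ≤ q) (hq1 : q ≤ 1) : HasDerivAt (fun t => KN l t q) (kq l b q) b := by
  have hp := sc_hasDerivAt_phiN hN T hb hbβ
  have hg := ((sc_hasDerivAt_gfun hN T hb hbβ).const_mul q).div_const 2
  rcases hq1.eq_or_lt with rfl | hlt
  · have h0 : HasDerivAt (fun t : ℝ => phiN l (t * (1 - 1))) 0 b := by
      simpa using hasDerivAt_const b (phiN l 0)
    refine ((h0.sub hp).add hg).congr_deriv ?_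
    simp [kq, gfun]
    ring
  · have hm : b * (1 - q) ≤ β := (sc_mem hb.le hbβ ⟨hq, hq1⟩).2
    have hm0 : 0 < b * (1 - q) := mul_pos hb (sub_pos.2 hlt)
    have h0 := (sc_hasDerivAt_phiN hN T hm0 hm).comp b ((hasDerivAt_id' b).mul_const (1 - q))
    refine ((h0.sub hp).add hg).congr_deriv ?_
    have := hb.ne'
    have := (sub_pos.2 hlt).ne'
    rw [kq]
    field_simp

theorem cq_mono (hN : 0 < N) (T : Tame M η β l) {b : ℝ} (hb : 0 < b) (hbβ : b ≤ β) :
    MonotoneOn (cq l b) (Icc 0 1) ∧ cq l b 0 = 0 := by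
  refine ⟨fun p hp q hq hpq => ?_, by simp [cq]⟩
  have := (sc_dg_lip hN T (sc_mem hb.le hbβ hq).1
    (mul_le_mul_of_nonneg_left (by linarith : 1 - q ≤ 1 - p) hb.le) (sc_mem hb.le hbβ hp).2).1
  unfold cq
  linarith

/-- Convexity of `kq` in the overlap. -/
theorem kq_tangent (hN : 0 < N) (T : Tame M η β l) {b p q : ℝ} (hb : 0 < b) (hbβ : b ≤ β)
    (hp : p ∈ Icc (0 : ℝ) 1) (hq : q ∈ Icc (0 : ℝ) 1) :
    kq l b q + cq l b q * (p - q) ≤ kq l b p := by
  have hgc : ContinuousOn (gfun l) (Icc 0 β) :=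
    (LipschitzOnWith.of_dist_le' (K := M) fun x hx y hy => by
      simpa [Real.dist_eq] using sc_gfun_lip hN T hx hy).continuousOn
  have hc : ContinuousOn (kq l b) (Icc 0 1) := by
    have h : ContinuousOn (fun s => gfun l (b * (1 - s))) (Icc 0 1) :=
      hgc.comp (by fun_prop) fun s hs => sc_mem hb.le hbβ hs
    unfold kq
    fun_prop
  have hd : ∀ s ∈ Ioo (0 : ℝ) 1, HasDerivAt (kq l b) (cq l b s) s := by
    intro s hs
    have h := (sc_hasDerivAt_gfun hN T (mul_pos hb (sub_pos.2 hs.2))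
      (sc_mem hb.le hbβ (Ioo_subset_Icc_self hs)).2).comp s
      (((hasDerivAt_id' s).const_sub 1).const_mul b)
    refine ((((h.sub_const (gfun l b)).div_const b).add
      ((hasDerivAt_id' s).mul_const (dg l b))).div_const 2).congr_deriv ?_
    have := hb.ne'
    rw [cq]
    field_simp
    ring
  have hmono := (cq_mono hN T hb hbβ).1
  rcases lt_trichotomy q p with h | h | h
  · obtain ⟨c, hcm, e⟩ := exists_hasDerivAt_eq_slope (kq l b) (cq l b) h
      (hc.mono (Icc_subset_Icc hq.1 hp.2)) fun t ht => hd t ⟨hq.1.trans_lt ht.1, ht.2.trans_le hp.2⟩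
    rw [eq_div_iff (sub_pos.2 h).ne'] at e
    have := mul_le_mul_of_nonneg_right
      (hmono hq ⟨(hq.1.trans_lt hcm.1).le, hcm.2.le.trans hp.2⟩ hcm.1.le) (sub_pos.2 h).le
    linarith
  · subst h; simp
  · obtain ⟨c, hcm, e⟩ := exists_hasDerivAt_eq_slope (kq l b) (cq l b) h
      (hc.mono (Icc_subset_Icc hp.1 hq.2)) fun t ht => hd t ⟨hp.1.trans_lt ht.1, ht.2.trans_le hq.2⟩
    rw [eq_div_iff (sub_pos.2 h).ne'] at e
    have := mul_le_mul_of_nonneg_right
      (hmono ⟨(hp.1.trans_lt hcm.1).le, hcm.2.le.trans hq.2⟩ hq hcm.2.le) (sub_pos.2 h).le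
    linarith

theorem kq_nonneg (hN : 0 < N) (T : Tame M η β l) {b q : ℝ} (hb : 0 < b) (hbβ : b ≤ β)
    (hq : q ∈ Icc (0 : ℝ) 1) : 0 ≤ kq l b q := by
  have h := kq_tangent hN T hb hbβ hq (left_mem_Icc.2 zero_le_one)
  rw [(cq_mono hN T hb hbβ).2] at h
  simpa [kq] using h

/-- Bounds that do not depend on the size. -/
theorem scalar_bounds (M η β b₀ : ℝ) (hb₀ : 0 < b₀) :
    ∃ L, 0 ≤ L ∧ ∀ (N : ℕ) (l : Fin N → ℝ), 0 < N → Tame M η β l →
      ∀ b ∈ Icc b₀ β, ∀ b' ∈ Icc b₀ β, ∀ q ∈ Icc (0 : ℝ) 1, ∀ q' ∈ Icc (0 : ℝ) 1,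
        |kq l b q - kq l b' q'| ≤ L * (|b - b'| + |q - q'|) ∧
        |cq l b q - cq l b' q'| ≤ L * (|b - b'| + |q - q'|) ∧
        |kq l b q| ≤ L ∧ |cq l b q| ≤ L := by
  refine ⟨scLip M η * (3 + |β|) + 2 * (|M| * (2 + |β|) / b₀) + 2 * |M|,
    by have := scLip_nonneg M η; positivity, fun N l hN T b hb b' hb' q hq q' hq' => ?_⟩
  have hM := sc_M_nonneg hN T
  have hC := scLip_nonneg M η
  rw [abs_of_nonneg hM]
  set C := scLip M η
  set D := |b - b'| + |q - q'| with hDdef
  have hD : 0 ≤ D := by positivity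
  have hbp := hb₀.trans_le hb.1
  have hb'p := hb₀.trans_le hb'.1
  set u := b * (1 - q) with hu
  set u' := b' * (1 - q') with hu'
  have hum : u ∈ Icc 0 β := sc_mem hbp.le hb.2 hq
  have hum' : u' ∈ Icc 0 β := sc_mem hb'p.le hb'.2 hq'
  have hbm : b ∈ Icc 0 β := ⟨hbp.le, hb.2⟩
  have hbm' : b' ∈ Icc 0 β := ⟨hb'p.le, hb'.2⟩
  have hΔ : |u - u'| ≤ (1 + |β|) * D := by
    have e : u - u' = (b - b') * (1 - q) + b' * (q' - q) := by rw [hu, hu']; ring
    rw [e, add_mul, one_mul]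
    refine (abs_add_le _ _).trans (add_le_add ?_ ?_) <;> rw [abs_mul]
    · refine (mul_le_of_le_one_right (abs_nonneg _) ?_).trans
        (le_add_of_nonneg_right (abs_nonneg _))
      exact abs_le.2 ⟨by linarith [hq.2], by linarith [hq.1]⟩
    · rw [abs_sub_comm q']
      refine mul_le_mul ?_ (le_add_of_nonneg_left (abs_nonneg _)) (abs_nonneg _) (abs_nonneg _)
      rw [abs_of_pos hb'p, abs_of_nonneg (hb'p.le.trans hb'.2)]; exact hb'.2
  have hb1 : |b - b'| ≤ (1 + |β|) * D :=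
    (le_add_of_nonneg_right (abs_nonneg _)).trans (le_mul_of_one_le_left hD (by simp))
  have dgl : ∀ {x y : ℝ}, x ∈ Icc 0 β → y ∈ Icc 0 β → |dg l x - dg l y| ≤ C * |x - y| := by
    intro x y hx hy
    rcases le_total x y with h | h
    · obtain ⟨h0, h1⟩ := sc_dg_lip hN T hx.1 h hy.2
      rw [abs_sub_comm, abs_of_nonneg h0, abs_sub_comm x, abs_of_nonneg (sub_nonneg.2 h)]
      exact h1
    · obtain ⟨h0, h1⟩ := sc_dg_lip hN T hy.1 h hx.2
      rw [abs_of_nonneg h0, abs_of_nonneg (sub_nonneg.2 h)]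
      exact h1
  -- the quotients `gfun / b`
  have quot : ∀ {x y : ℝ}, x ∈ Icc 0 β → y ∈ Icc 0 β → |x - y| ≤ (1 + |β|) * D → y ≤ b' →
      |gfun l x / b - gfun l y / b'| ≤ M * (2 + |β|) / b₀ * D := by
    intro x y hx hy hxy hyb
    have e : gfun l x / b - gfun l y / b'
        = (gfun l x - gfun l y) / b + gfun l y / b' * (b' - b) / b := by
      field_simp; ring
    have h1 : |gfun l y / b'| ≤ M := by
      rw [abs_div, abs_of_pos hb'p, div_le_iff₀ hb'p]
      exact (sc_gfun_abs hN T hy.1 hy.2).trans (mul_le_mul_of_nonneg_left hyb hM)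
    rw [e]
    refine (abs_add_le _ _).trans ?_
    rw [abs_div, abs_div, abs_mul, abs_of_pos hbp, abs_sub_comm b', ← add_div,
      div_le_iff₀ hbp]
    have h2 := (sc_gfun_lip hN T hx hy).trans (mul_le_mul_of_nonneg_left hxy hM)
    have h3 : |gfun l y / b'| * |b - b'| ≤ M * D :=
      mul_le_mul h1 (le_add_of_nonneg_right (abs_nonneg _)) (abs_nonneg _) hM
    have h4 : M * (2 + |β|) * D ≤ M * (2 + |β|) / b₀ * D * b := by
      rw [div_mul_eq_mul_div, div_mul_eq_mul_div, le_div_iff₀ hb₀]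
      exact mul_le_mul_of_nonneg_left hb.1 (by positivity)
    linarith
  have hq1 := quot hum hum' hΔ (mul_le_of_le_one_right hb'p.le (by linarith [hq'.1]))
  have hq2 := quot hbm hbm' hb1 le_rfl
  have hd1 : |q * dg l b - q' * dg l b'| ≤ (M + C) * D := by
    have e : q * dg l b - q' * dg l b' = (q - q') * dg l b + q' * (dg l b - dg l b') := by ring
    rw [e, add_mul]
    refine (abs_add_le _ _).trans (add_le_add ?_ ?_) <;> rw [abs_mul]
    · rw [mul_comm]
      exact mul_le_mul (sc_dg_abs hN T hb.2) (le_add_of_nonneg_left (abs_nonneg _))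
        (abs_nonneg _) hM
    · refine (mul_le_of_le_one_left (abs_nonneg _) (by rw [abs_of_nonneg hq'.1]; exact hq'.2)).trans
        ((dgl hbm hbm').trans (mul_le_mul_of_nonneg_left ?_ hC))
      exact le_add_of_nonneg_right (abs_nonneg _)
  have hC1 : 0 ≤ C * |β| * D := by positivity
  have hC2 : 0 ≤ C * D := by positivity
  have hP : 0 ≤ M * (2 + |β|) / b₀ * D := by positivity
  have hMD : 0 ≤ M * D := by positivity
  have hL1 : 2 * M ≤ C * (3 + |β|) + 2 * (M * (2 + |β|) / b₀) + 2 * M :=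
    le_add_of_nonneg_left (by positivity)
  refine ⟨?_, ?_, ?_, ?_⟩
  · have e : kq l b q - kq l b' q' = ((gfun l u / b - gfun l u' / b')
        - (gfun l b / b - gfun l b' / b') + (q * dg l b - q' * dg l b')) / 2 := by
      rw [kq, kq, ← hu, ← hu']; ring
    rw [e, abs_div, abs_two, div_le_iff₀ two_pos]
    refine ((abs_add_le _ _).trans (add_le_add (abs_sub _ _) le_rfl)).trans ?_
    linarith
  · have e : cq l b q - cq l b' q' = ((dg l b - dg l b') - (dg l u - dg l u')) / 2 := by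
      rw [cq, cq, ← hu, ← hu']; ring
    rw [e, abs_div, abs_two, div_le_iff₀ two_pos]
    refine (abs_sub _ _).trans ?_
    have h1 := (dgl hum hum').trans (mul_le_mul_of_nonneg_left hΔ hC)
    have h2 := (dgl hbm hbm').trans (mul_le_mul_of_nonneg_left hb1 hC)
    linarith
  · refine le_trans ?_ hL1
    have h1 : |gfun l u / b| ≤ M := by
      rw [abs_div, abs_of_pos hbp, div_le_iff₀ hbp]
      exact (sc_gfun_abs hN T hum.1 hum.2).trans
        (mul_le_mul_of_nonneg_left (mul_le_of_le_one_right hbp.le (by linarith [hq.1])) hM)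
    have h2 : |gfun l b / b| ≤ M := by
      rw [abs_div, abs_of_pos hbp, div_le_iff₀ hbp]
      exact sc_gfun_abs hN T hbm.1 hbm.2
    have h3 : |q * dg l b| ≤ M := by
      rw [abs_mul]
      exact (mul_le_of_le_one_left (abs_nonneg _)
        (by rw [abs_of_nonneg hq.1]; exact hq.2)).trans (sc_dg_abs hN T hb.2)
    rw [kq, ← hu, sub_div, abs_div, abs_two, div_le_iff₀ two_pos]
    refine ((abs_add_le _ _).trans (add_le_add (abs_sub _ _) le_rfl)).trans ?_
    linarith
  · refine le_trans ?_ hL1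
    rw [cq, abs_div, abs_two, div_le_iff₀ two_pos]
    refine (abs_sub _ _).trans ?_
    linarith [sc_dg_abs hN T hb.2, sc_dg_abs hN T hum.2]

theorem abs_KN_le (hN : 0 < N) (T : Tame M η β l) {b q : ℝ} (hb : 0 < b) (hbβ : b ≤ β)
    (hq : q ∈ Icc (0 : ℝ) 1) : |KN l b q| ≤ 2 * M * b := by
  have hm := sc_mem hb.le hbβ hq
  have hM := sc_M_nonneg hN T
  have h1 := abs_le.1 (sc_abs_phiN hN T hm.1 hm.2)
  have h2 := abs_le.1 (sc_abs_phiN hN T hb.le hbβ)
  have h3 := abs_le.1 (sc_gfun_abs hN T hb.le hbβ)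
  have h4 := mul_le_mul_of_nonneg_left h3.1 hq.1
  have h5 := mul_le_mul_of_nonneg_left h3.2 hq.1
  have h6 := mul_nonneg (mul_nonneg hM hb.le) hq.1
  have h7 := mul_nonneg hM hb.le
  rw [KN, abs_le]
  constructor <;> linarith

theorem abs_KN_sub_le (hN : 0 < N) (T : Tame M η β l) {b q q' : ℝ} (hb : 0 < b) (hbβ : b ≤ β)
    (hq : q ∈ Icc (0 : ℝ) 1) (hq' : q' ∈ Icc (0 : ℝ) 1) :
    |KN l b q - KN l b q'| ≤ 2 * M * b * |q - q'| := by
  have h1 := sc_phiN_lip hN T (sc_mem hb.le hbβ hq) (sc_mem hb.le hbβ hq')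
  rw [show b * (1 - q) - b * (1 - q') = -(b * (q - q')) by ring, abs_neg, abs_mul,
    abs_of_pos hb] at h1
  have h2 : |(q - q') * gfun l b| ≤ |q - q'| * (M * b) := by
    rw [abs_mul]
    exact mul_le_mul_of_nonneg_left (sc_gfun_abs hN T hb.le hbβ) (abs_nonneg _)
  have h3 : 0 ≤ M * b * |q - q'| := by have := sc_M_nonneg hN T; positivity
  rw [show KN l b q - KN l b q' = (phiN l (b * (1 - q)) - phiN l (b * (1 - q')))
    + (q - q') * gfun l b / 2 by rw [KN, KN]; ring]
  refine (abs_add_le _ _).trans ?_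
  rw [abs_div, abs_two]
  linarith

section limits

variable {μ : Measure ℝ} {a bb : ℝ} {la : (N : ℕ) → Fin N → ℝ}

lemma sc_stieltjes_anti (A : Admissible μ a bb la) :
    StrictAntiOn (stieltjes μ) (Ioi bb) :=
  strictAntiOn_of_hasDerivWithinAt_neg (convex_Ioi bb)
    (fun _ hz => (High.pot_hasDeriv_stieltjes A hz).continuousAt.continuousWithinAt)
    (fun _ hz => (High.pot_hasDeriv_stieltjes A (interior_subset hz)).hasDerivWithinAt)
    fun _ hz => neg_neg_of_pos (High.pot_stieltjes2_pos A (interior_subset hz))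

theorem tame_eventually (A : Admissible μ a bb la) {z : ℝ} (hz : bb < z) :
    ∃ M η, 0 < M ∧ 0 < η ∧ ∀ᶠ N in atTop, Tame M η (stieltjes μ z) (la N) := by
  obtain ⟨M, hM, hb⟩ := High.exists_bound A
  have ht : bb < (bb + z) / 2 := by linarith
  have hlt := sc_stieltjes_anti A ht hz (show (bb + z) / 2 < z by linarith)
  refine ⟨M, (z - bb) / 4, hM, by linarith, ?_⟩
  filter_upwards [hb, High.eventually_le A (show 0 < (z - bb) / 4 by linarith),
    (High.tendsto_inv A ht).eventually (eventually_ge_nhds hlt)] with N h1 h2 h3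
  exact ⟨h1, by linarith, (bb + z) / 2, fun i => by linarith [h2 i], h3⟩

lemma sc_annealed_eq (A : Admissible μ a bb la) {z β : ℝ} (hz : bb < z)
    (hG : stieltjes μ z = β) : annealed μ bb β = phi μ β z := by
  have hβ : 0 < β := hG ▸ High.pot_stieltjes_pos A hz
  refine le_antisymm (High.annealed_le A hβ hz) (High.pot_le_annealed fun w hw => ?_)
  have h := High.pot_tangent A hz hw
  rw [hG] at h
  unfold phi
  linarith

lemma sc_log_tangent {z w : ℝ} (hz : ∀ i, l i < z) (hw : ∀ i, l i < w) :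
    (∑ i, Real.log (w - l i)) / N - (∑ i, Real.log (z - l i)) / N ≤ (w - z) * empG l z := by
  rw [← sub_div, ← Finset.sum_sub_distrib, empG, mul_div_assoc', Finset.mul_sum]
  refine div_le_div_of_nonneg_right (Finset.sum_le_sum fun i _ => ?_) (Nat.cast_nonneg N)
  have h1 := sub_pos.2 (hz i)
  have h2 := sub_pos.2 (hw i)
  have h := Real.log_le_sub_one_of_pos (div_pos h2 h1)
  rw [Real.log_div h2.ne' h1.ne'] at h
  refine h.trans (le_of_eq ?_)
  field_simp
  ring

lemma sc_tendsto_root (A : Admissible μ a bb la) {z β : ℝ} (hz : bb < z)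
    (hG : stieltjes μ z = β) : Tendsto (fun N => root (la N) β) atTop (𝓝 z) := by
  have hβ : 0 < β := hG ▸ High.pot_stieltjes_pos A hz
  obtain ⟨M, η, -, -, hT⟩ := tame_eventually A hz
  rw [hG] at hT
  refine tendsto_order.2 ⟨fun u hu => ?_, fun u hu => ?_⟩
  · set v := max u ((bb + z) / 2) with hv
    have hvb : bb < v := lt_max_of_lt_right (by linarith)
    have hvz : v < z := max_lt hu (by linarith)
    filter_upwards [hT, eventually_gt_atTop 0,
      High.eventually_le A (show 0 < (v - bb) / 2 by linarith),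
      (High.tendsto_inv A hvb).eventually
        (eventually_gt_nhds (hG ▸ sc_stieltjes_anti A hvb hz hvz))] with N T hN h1 h2
    refine (le_max_left u ((bb + z) / 2)).trans_lt (lt_of_not_ge fun hle => ?_)
    have h := (root_spec hN T hβ le_rfl).2.1
    rcases hle.eq_or_lt with e | e
    · rw [e] at h; exact h2.ne' h
    · have := sc_empG_lt hN (sc_root_lt hN T hβ le_rfl) e
      rw [h] at this
      exact this.not_gt h2
  · filter_upwards [hT, eventually_gt_atTop 0,
      High.eventually_le A (show 0 < (u - bb) / 2 by linarith),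
      (High.tendsto_inv A (hz.trans hu)).eventually
        (eventually_lt_nhds (hG ▸ sc_stieltjes_anti A hz (hz.trans hu) hu))] with N T hN h1 h2
    refine lt_of_not_ge fun hle => ?_
    have h := (root_spec hN T hβ le_rfl).2.1
    rcases hle.eq_or_lt with e | e
    · rw [← e] at h; exact h2.ne h
    · have := sc_empG_lt hN (fun i => show la N i < u by linarith [h1 i]) e
      rw [h] at this
      exact this.not_gt h2

theorem tendsto_phiN (A : Admissible μ a bb la) {z β : ℝ} (hz : bb < z)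
    (hG : stieltjes μ z = β) :
    Tendsto (fun N => phiN (la N) β) atTop (𝓝 (annealed μ bb β)) := by
  have hβ : 0 < β := hG ▸ High.pot_stieltjes_pos A hz
  obtain ⟨M, η, -, -, hT⟩ := tame_eventually A hz
  rw [hG] at hT
  have hr := sc_tendsto_root A hz hG
  have hr0 := hr.sub_const z
  rw [sub_self] at hr0
  have hdiff : Tendsto (fun N => (∑ i, Real.log (root (la N) β - la N i)) / N
      - (∑ i, Real.log (z - la N i)) / N) atTop (𝓝 0) := by
    have hup := hr0.mul (High.tendsto_inv A hz)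
    rw [zero_mul] at hup
    have hlo := hr0.mul_const β
    rw [zero_mul] at hlo
    refine tendsto_of_tendsto_of_tendsto_of_le_of_le' hlo hup ?_ ?_ <;>
      filter_upwards [hT, eventually_gt_atTop 0,
        High.eventually_le A (show 0 < (z - bb) / 2 by linarith)] with N T hN h1
    · have h := sc_log_tangent (sc_root_lt hN T hβ le_rfl)
        (fun i => show la N i < z by linarith [h1 i])
      rw [(root_spec hN T hβ le_rfl).2.1] at h
      linarith
    · exact sc_log_tangent (fun i => show la N i < z by linarith [h1 i])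
        (sc_root_lt hN T hβ le_rfl)
  have hlog := hdiff.add (High.tendsto_log A hz)
  simp only [sub_add_cancel, zero_add] at hlog
  rw [sc_annealed_eq A hz hG]
  simp only [phiN, if_neg (not_le.2 hβ), phi]
  exact ((((hr.const_mul β).sub_const 1).sub_const (Real.log β)).sub hlog).div_const 2

theorem tendsto_KN (A : Admissible μ a bb la) {z β q : ℝ} (hz : bb < z)
    (hG : stieltjes μ z = β) (hq : 0 ≤ q) (hq1 : q < 1) :
    Tendsto (fun N => KN (la N) β q) atTop (𝓝 (entK μ bb z q)) := by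
  subst hG
  have hβ : 0 < stieltjes μ z := High.pot_stieltjes_pos A hz
  obtain ⟨z', hz', hG'⟩ := High.pot_exists_eq A hz (mul_pos hβ (sub_pos.2 hq1))
    (mul_le_of_le_one_right hβ.le (by linarith))
  have hg := ((((sc_tendsto_root A hz rfl).mul_const (stieltjes μ z)).sub_const 1).const_mul
    q).div_const 2
  refine Tendsto.congr (fun N => ?_)
    (((tendsto_phiN A (hz.trans_le hz') hG').sub (tendsto_phiN A hz rfl)).add hg)
  rw [KN, gfun, if_neg (not_le.2 hβ)]
  ring

theorem entK_mono (A : Admissible μ a bb la) {z z' q : ℝ} (hz : bb < z) (hzz : z ≤ z')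
    (hq : 0 ≤ q) (hq1 : q < 1) : entK μ bb z' q ≤ entK μ bb z q := by
  obtain ⟨M, η, -, -, hT⟩ := tame_eventually A hz
  refine le_of_tendsto_of_tendsto (tendsto_KN A (hz.trans_le hzz) rfl hq hq1)
    (tendsto_KN A hz rfl hq hq1) ?_
  filter_upwards [hT, eventually_gt_atTop 0] with N T hN
  have h0 := High.pot_stieltjes_pos A (hz.trans_le hzz)
  have hle := (sc_stieltjes_anti A).antitoneOn hz (hz.trans_le hzz) hzz
  refine monotoneOn_of_hasDerivWithinAt_nonneg (convex_Icc _ _)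
    (f := fun t => KN (la N) t q) (f' := fun t => kq (la N) t q)
    (fun t ht => (hasDerivAt_KN hN T (h0.trans_le ht.1) ht.2 hq hq1.le).continuousAt.continuousWithinAt)
    (fun t ht => ?_) (fun t ht => ?_) (left_mem_Icc.2 hle) (right_mem_Icc.2 hle) hle
  · have ht' := interior_subset ht
    exact (hasDerivAt_KN hN T (h0.trans_le ht'.1) ht'.2 hq hq1.le).hasDerivWithinAt
  · have ht' := interior_subset ht
    exact kq_nonneg hN T (h0.trans_le ht'.1) ht'.2 ⟨hq, hq1.le⟩

end limits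

end

end Vale.Agent.P166.Plant
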