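import Vale.Agent.P166.Plant.Model
import Vale.Agent.P157.Plant.Paths

/-!
The Gaussian side observation: slopes in its strength, and concentration of the overlap on
average over the strength.
-/

open MeasureTheory ProbabilityTheory Filter Topology Set
open Vale.Agent.P157.Plant (Cfg ones sp xr ovl lin absSum ent cubeInfo shv abs_sp sp_sq abs_ovl_le
  abs_lin_le absSum_nonneg measurable_absSum gauss_shift update_map measurable_update
  integral_update integrable_eval_gauss integrable_exp_absSum lin_shv absSum_shv_le abs_ovl_mul_le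
  integral_bridge gauss_exp_lin integrable_exp_lin log_two_add max_zero_le_log fdStat
  integral_absSum_le abs_log_cosh_le' ovl_xr half_pow_mul_card)
open Vale.Agent.P157 (gaussVec gaussVec_rotate)

namespace Vale.Agent.P166.Plant

noncomputable section

variable {N : ℕ} {β : ℝ} {l : Fin N → ℝ}

lemma Fe_eq_planted (β : ℝ) (l : Fin N → ℝ) (r : ℝ) :
    Fe β l r = ∫ d, pwt β l r d (ones N) * Real.log (lik β l r d) ∂nullM N := by
  rw [planted_eq' β l r (gd_log_lik β l r) fun s d => by rw [lik_act]]
  rfl

lemma pair_planted (β : ℝ) (l : Fin N → ℝ) (r : ℝ) (k : ℝ → ℝ) :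
    ∫ d, pwt β l r d (ones N) * av β l r d (fun b' => k (ovl (ones N) b')) ∂nullM N
      = ∫ d, lik β l r d * av β l r d (fun b => av β l r d (fun b' => k (ovl b b'))) ∂nullM N := by
  refine planted_eq β l r (H := fun d b => av β l r d (fun b' => k (ovl b b'))) (fun b => ?_) fun s d b => ?_
  · exact gd_av β l r (fun _ => measurable_const) (B := ∑ b', |k (ovl b b')|)
      fun _ b' => Finset.single_le_sum (f := fun c => |k (ovl b c)|) (fun _ _ => abs_nonneg _) (Finset.mem_univ b')
  · rw [← av_act β l r s d fun b' => k (ovl (xr b s) b')]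
    congr 1
    funext b'
    rw [ovl_xr]

lemma integral_base' (β : ℝ) (l : Fin N → ℝ) :
    ∫ d : Dat N, base β l d.1 (ones N) ∂nullM N = 1 := by
  rw [nullM, integral_fun_fst (fun g => base β l g (ones N)), integral_base]
  simp

lemma measurable_av_const (β : ℝ) (l : Fin N → ℝ) (r : ℝ) (k : Cfg N → ℝ) :
    Measurable fun d : Dat N => av β l r d k :=
  measurable_av β l r (h := fun _ => k) fun _ => measurable_const

lemma gd_av_const (β : ℝ) (l : Fin N → ℝ) (r : ℝ) (k : Cfg N → ℝ) {B : ℝ} (hb : ∀ b, |k b| ≤ B) :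
    Gd fun d : Dat N => av β l r d k :=
  Gd.of_bdd (measurable_av_const β l r k) fun d => abs_av_le β l r d hb

theorem planted_shift (β : ℝ) (l : Fin N → ℝ) {r : ℝ} (hr : 0 ≤ r) {F : Dat N → ℝ} (hF : Gd F) :
    ∫ d, pwt β l r d (ones N) * F d ∂nullM N = ∫ d, base β l d.1 (ones N) * F (sh r d) ∂nullM N := by
  have hi : Integrable (fun d => base β l d.1 (ones N) * F (sh r d)) (nullM N) := by
    refine Gd.integrable ?_
    obtain ⟨hm, K, c, hK, hc, hb⟩ := hF
    refine ⟨((continuous_base β l _).measurable.comp measurable_fst).mul (hm.comp (measurable_sh r)),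
      bdC β l * (K * Real.exp (c * (N * Real.sqrt r))), c, by have := (bdC_pos β l); positivity, hc, fun d => ?_⟩
    rw [abs_mul, abs_of_pos (base_pos β l _ _)]
    have h1 : absSum (shv r d.2) ≤ N * Real.sqrt r + absSum d.2 := by
      refine (Finset.sum_le_sum fun i _ => abs_add_le _ _).trans (le_of_eq ?_)
      simp [Finset.sum_add_distrib, abs_of_nonneg (Real.sqrt_nonneg r), absSum]
    calc base β l d.1 (ones N) * |F (sh r d)|
        ≤ bdC β l * (K * Real.exp (c * (N * Real.sqrt r + absSum d.2))) :=
          mul_le_mul (base_le β l _ _) ((hb _).trans (mul_le_mul_of_nonneg_left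
            (Real.exp_le_exp.2 (mul_le_mul_of_nonneg_left h1 hc)) hK)) (abs_nonneg _) (bdC_pos β l).le
      _ = _ := by rw [mul_add, Real.exp_add]; ring
  have hi' : Integrable (fun d => pwt β l r d (ones N) * F d) (nullM N) := ((gd_pwt β l r _).mul hF).integrable
  unfold nullM at hi hi' ⊢
  rw [integral_prod _ hi', integral_prod _ hi]
  refine integral_congr_ae (ae_of_all _ fun g => ?_)
  simp only [pwt, sh]
  rw [integral_const_mul]
  simp_rw [mul_assoc]
  rw [integral_const_mul]
  congr 1
  have hFm : Measurable fun z => F (g, z) := hF.1.comp (by fun_prop)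
  rw [← integral_map (φ := shv r) (f := fun z => F (g, z)) (measurable_pi_lambda _ fun i => (measurable_pi_apply i).const_add (Real.sqrt r)).aemeasurable hFm.aestronglyMeasurable,
    ← gauss_shift hr, integral_withDensity_eq_integral_toReal_smul (by unfold lin; fun_prop)
      (ae_of_all _ fun _ => ENNReal.ofReal_lt_top)]
  exact integral_congr_ae (ae_of_all _ fun z => by simp [ENNReal.toReal_ofReal (Real.exp_pos _).le])

lemma integral_pwt (β : ℝ) (l : Fin N → ℝ) {r : ℝ} (hr : 0 ≤ r) :
    ∫ d, pwt β l r d (ones N) ∂nullM N = 1 := by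
  have h := planted_shift β l hr (Gd.const (N := N) 1)
  simp only [mul_one] at h
  rw [h, integral_base']

theorem integral_lik (β : ℝ) (l : Fin N → ℝ) {r : ℝ} (hr : 0 ≤ r) :
    ∫ d, lik β l r d ∂nullM N = 1 := by
  have h := planted_eq' β l r (Gd.const (N := N) 1) fun _ _ => rfl
  simp only [mul_one] at h
  rw [← h, integral_pwt β l hr]

lemma Fe_shift (β : ℝ) (l : Fin N → ℝ) {r : ℝ} (hr : 0 ≤ r) :
    Fe β l r = ∫ d, base β l d.1 (ones N) * Real.log (lik β l r (sh r d)) ∂nullM N := by
  rw [Fe_eq_planted β l r, planted_shift β l hr (gd_log_lik β l r)]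

theorem Fe_eq_fe (β : ℝ) (l : Fin N → ℝ) {r : ℝ} (hr : 0 ≤ r) :
    Fe β l r = ∫ d, base β l d.1 (ones N) * fe β l r d ∂nullM N :=
  Fe_shift β l hr

theorem lik_dev_eq (β : ℝ) (l : Fin N → ℝ) {r : ℝ} (hr : 0 ≤ r) :
    ∫ d, lik β l r d * |Real.log (lik β l r d) - Fe β l r| ∂nullM N = dev β l r := by
  have hg : Gd fun d : Dat N => |Real.log (lik β l r d) - Fe β l r| :=
    ((gd_log_lik β l r).sub (Gd.const _)).abs
  rw [← planted_eq' β l r hg fun s d => by rw [lik_act], planted_shift β l hr hg]
  rfl

lemma hasDeriv_av_update (β : ℝ) (l : Fin N → ℝ) (r : ℝ) (g : OMat N) (i : Fin N) (k : Cfg N → ℝ)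
    (ξ : Fin N → ℝ) (t : ℝ) :
    HasDerivAt (fun t => av β l r (g, shv r (Function.update ξ i t)) k)
      (Real.sqrt r * (av β l r (g, shv r (Function.update ξ i t)) (fun b => sp b i * k b)
        - av β l r (g, shv r (Function.update ξ i t)) (fun b => sp b i)
          * av β l r (g, shv r (Function.update ξ i t)) k)) t := by
  have hl : ∀ b, HasDerivAt (fun t => lin (shv r (Function.update ξ i t)) b) (sp b i) t := fun b => by
    have : (fun t => lin (shv r (Function.update ξ i t)) b)
        = fun t => lin (shv r (Function.update ξ i 0)) b + t * sp b i := by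
      funext t
      simp only [lin, shv]
      rw [← Finset.sum_erase_add _ _ (Finset.mem_univ i), ← Finset.sum_erase_add (a := i) _ _ (Finset.mem_univ i)]
      simp only [Function.update_self]
      have : ∀ j ∈ Finset.univ.erase i, (Real.sqrt r + Function.update ξ i t j) * sp b j
          = (Real.sqrt r + Function.update ξ i 0 j) * sp b j := fun j hj => by
        rw [Function.update_of_ne (Finset.ne_of_mem_erase hj), Function.update_of_ne (Finset.ne_of_mem_erase hj)]
      rw [Finset.sum_congr rfl this]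
      ring
    rw [this]
    exact (((hasDerivAt_id' t).mul_const (sp b i)).const_add _).congr_deriv (one_mul _)
  have hw : ∀ b, HasDerivAt (fun t => pwt β l r (g, shv r (Function.update ξ i t)) b)
      (Real.sqrt r * (pwt β l r (g, shv r (Function.update ξ i t)) b * sp b i)) t := fun b => by
    unfold pwt
    have := ((((hl b).const_mul (Real.sqrt r)).sub_const (r * N / 2)).exp).const_mul (base β l g b)
    refine this.congr_deriv ?_
    ring
  have hn := (HasDerivAt.fun_sum (u := (Finset.univ : Finset (Cfg N)))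
    fun b _ => (hw b).mul_const (k b)).const_mul ((2⁻¹ : ℝ) ^ N)
  have hL := (HasDerivAt.fun_sum (u := (Finset.univ : Finset (Cfg N)))
    fun b _ => hw b).const_mul ((2⁻¹ : ℝ) ^ N)
  have hLne : lik β l r (g, shv r (Function.update ξ i t)) ≠ 0 := (lik_pos β l r _).ne'
  refine (hn.fun_div hL hLne).congr_deriv ?_
  simp only [av, lik] at hLne ⊢
  have e1 : ∀ w : Cfg N → ℝ, (∑ x, Real.sqrt r * (w x * sp x i) * k x)
      = Real.sqrt r * ∑ x, w x * (sp x i * k x) := fun w => by
    rw [Finset.mul_sum]; exact Finset.sum_congr rfl fun x _ => by ring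
  rw [e1, ← Finset.mul_sum]
  field_simp

/-- Gaussian integration by parts for a Gibbs average in planted coordinates. -/
lemma ibp_coord (β : ℝ) (l : Fin N → ℝ) {r : ℝ} (hr : 0 ≤ r) (g : OMat N) (i : Fin N) (k : Cfg N → ℝ) :
    ∫ ξ, ξ i * av β l r (g, shv r ξ) k ∂gaussVec (Fin N)
      = Real.sqrt r * ∫ ξ, (av β l r (g, shv r ξ) (fun b => sp b i * k b)
          - av β l r (g, shv r ξ) (fun b => sp b i) * av β l r (g, shv r ξ) k) ∂gaussVec (Fin N) := by
  obtain ⟨B, hB⟩ : ∃ B, ∀ b, |k b| ≤ B :=
    ⟨∑ b, |k b|, fun b => Finset.single_le_sum (f := fun c => |k c|) (fun _ _ => abs_nonneg _) (Finset.mem_univ b)⟩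
  have hB0 : 0 ≤ B := (abs_nonneg _).trans (hB (ones N))
  have hmG : Measurable fun ξ : Fin N → ℝ => av β l r (g, shv r ξ) k :=
    (measurable_av_const β l r _).comp (by unfold shv; fun_prop)
  have hmD : Measurable fun ξ : Fin N → ℝ => av β l r (g, shv r ξ) (fun b => sp b i * k b)
      - av β l r (g, shv r ξ) (fun b => sp b i) * av β l r (g, shv r ξ) k :=
    ((measurable_av_const β l r _).comp (by unfold shv; fun_prop)).sub
      (((measurable_av_const β l r _).comp (by unfold shv; fun_prop)).mul hmG)
  have bD : ∀ ξ : Fin N → ℝ, |av β l r (g, shv r ξ) (fun b => sp b i * k b)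
      - av β l r (g, shv r ξ) (fun b => sp b i) * av β l r (g, shv r ξ) k| ≤ B + 1 * B := fun ξ =>
    (abs_sub _ _).trans (add_le_add (abs_av_le β l r _ fun b => by rw [abs_mul, abs_sp, one_mul]; exact hB b)
      ((abs_mul _ _).trans_le (mul_le_mul (abs_av_le β l r _ fun b => (abs_sp b i).le) (abs_av_le β l r _ hB)
        (abs_nonneg _) zero_le_one)))
  have hder := hasDeriv_av_update β l r g i k
  have key : ∀ ξ : Fin N → ℝ, ∫ t, t * av β l r (g, shv r (Function.update ξ i t)) k ∂gaussianReal 0 1
      = ∫ t, Real.sqrt r * (av β l r (g, shv r (Function.update ξ i t)) (fun b => sp b i * k b)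
          - av β l r (g, shv r (Function.update ξ i t)) (fun b => sp b i)
            * av β l r (g, shv r (Function.update ξ i t)) k) ∂gaussianReal 0 1 := fun ξ =>
    P157.Rsb.stein (hder ξ) (C := B + Real.sqrt r * (B + 1 * B))
      (fun t => (abs_av_le β l r _ hB).trans (le_add_of_nonneg_right (by positivity)))
      fun t => by
        rw [abs_mul, abs_of_nonneg (Real.sqrt_nonneg r)]
        exact (mul_le_mul_of_nonneg_left (bD _) (Real.sqrt_nonneg r)).trans (le_add_of_nonneg_left hB0)
  have iξ : Integrable (fun ξ : Fin N → ℝ => ξ i * av β l r (g, shv r ξ) k) (gaussVec (Fin N)) :=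
    (integrable_eval_gauss i).mul_bdd hmG.aestronglyMeasurable (ae_of_all _ fun ξ => abs_av_le β l r _ hB)
  have iD : Integrable (fun ξ : Fin N → ℝ => av β l r (g, shv r ξ) (fun b => sp b i * k b)
      - av β l r (g, shv r ξ) (fun b => sp b i) * av β l r (g, shv r ξ) k) (gaussVec (Fin N)) :=
    Integrable.of_bound hmD.aestronglyMeasurable (B + 1 * B) (ae_of_all _ bD)
  have e1 := integral_update i iξ
  have e2 := integral_update i iD
  simp only [Function.update_self] at e1
  rw [e1, e2, ← integral_const_mul]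
  exact integral_congr_ae (ae_of_all _ fun ξ => (key ξ).trans (integral_const_mul _ _))

/-- The self-overlap averaged against a function of the first replica. -/
lemma sum_av_sp (r : ℝ) (d : Dat N) (hN : 0 < N) (h : Cfg N → ℝ) :
    ∑ i, av β l r d (fun b => sp b i) * av β l r d (fun b => sp b i * h b)
      = N * av β l r d (fun b => h b * av β l r d (fun b' => ovl b b')) := by
  have hN' : (N : ℝ) ≠ 0 := by exact_mod_cast hN.ne'
  have e : ∀ b, h b * av β l r d (fun b' => ovl b b')
      = ((N : ℝ))⁻¹ * ∑ i, av β l r d (fun b' => sp b' i) * (sp b i * h b) := fun b => by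
    have : (fun b' => ovl b b') = fun b' => ((N : ℝ))⁻¹ * ∑ i, sp b i * sp b' i := by
      funext b'; rw [ovl]; ring
    rw [this, av_mul, av_finsum, Finset.mul_sum, Finset.mul_sum, Finset.mul_sum]
    exact Finset.sum_congr rfl fun i _ => by rw [av_mul]; ring
  simp_rw [e]
  rw [av_mul, av_finsum, ← mul_assoc, mul_inv_cancel₀ hN', one_mul]
  exact Finset.sum_congr rfl fun i _ => by rw [← av_mul]

/-- Integration by parts against the field of the side channel. -/
lemma ibp (β : ℝ) (l : Fin N → ℝ) {r : ℝ} (hr : 0 ≤ r) (hN : 0 < N) (h : Cfg N → ℝ) :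
    ∫ d, base β l d.1 (ones N) * av β l r (sh r d) (fun b => lin d.2 b * h b) ∂nullM N
      = Real.sqrt r * N * (∫ d, pwt β l r d (ones N) * av β l r d h ∂nullM N
          - ∫ d, pwt β l r d (ones N) * av β l r d (fun b => h b * av β l r d (fun b' => ovl b b')) ∂nullM N) := by
  obtain ⟨B, hB⟩ : ∃ B, ∀ b, |h b| ≤ B :=
    ⟨∑ b, |h b|, fun b => Finset.single_le_sum (f := fun c => |h c|) (fun _ _ => abs_nonneg _) (Finset.mem_univ b)⟩
  have hB0 : 0 ≤ B := (abs_nonneg _).trans (hB (ones N))
  have hb2 : ∀ (d : Dat N) (b : Cfg N), |h b * av β l r d (fun b' => ovl b b')| ≤ B * 1 := fun d b => by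
    rw [abs_mul]; exact mul_le_mul (hB b) (abs_av_le β l r _ fun b' => abs_ovl_le b b') (abs_nonneg _) hB0
  have hm2 : ∀ b, Measurable fun d : Dat N => h b * av β l r d (fun b' => ovl b b') := fun b =>
    (measurable_av_const β l r _).const_mul _
  rw [planted_shift β l hr (gd_av_const β l r h hB),
    planted_shift β l hr (gd_av β l r hm2 hb2)]
  have hpm : Measurable fun d : Dat N => base β l d.1 (ones N) :=
    (continuous_base β l _).measurable.comp measurable_fst
  have hpb : ∀ d : Dat N, |base β l d.1 (ones N)| ≤ bdC β l := fun d => by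
    rw [abs_of_pos (base_pos β l _ _)]; exact base_le β l _ _
  have iB : ∀ {F : Dat N → ℝ}, Measurable F → ∀ {K : ℝ}, (∀ d, |F d| ≤ K) →
      Integrable (fun d => base β l d.1 (ones N) * F d) (nullM N) := fun {F} hF K hK =>
    ((Gd.of_bdd hpm hpb).mul (Gd.of_bdd hF hK)).integrable
  have hsh : ∀ {F : Dat N → ℝ}, Measurable F → Measurable fun d => F (sh r d) := fun hF =>
    hF.comp (measurable_sh r)
  rw [← integral_sub (iB (hsh (measurable_av_const β l r _)) fun d => abs_av_le β l r _ hB)
    (iB (hsh (measurable_av β l r hm2)) fun d => abs_av_le β l r _ (hb2 _))]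
  have e : ∀ d : Dat N, base β l d.1 (ones N) * av β l r (sh r d) (fun b => lin d.2 b * h b)
      = ∑ i, base β l d.1 (ones N) * (d.2 i * av β l r (sh r d) (fun b => sp b i * h b)) := fun d => by
    rw [← Finset.mul_sum]
    congr 1
    have : (fun b => lin d.2 b * h b) = fun b => ∑ i, d.2 i * (sp b i * h b) := by
      funext b; rw [lin, Finset.sum_mul]; exact Finset.sum_congr rfl fun i _ => mul_assoc _ _ _
    rw [this, av_finsum]
    exact Finset.sum_congr rfl fun i _ => av_mul _ _ _ _ _ _
  simp_rw [e]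
  have hk : ∀ i b, |sp b i * h b| ≤ B := fun i b => by rw [abs_mul, abs_sp, one_mul]; exact hB b
  have ii : ∀ i, Integrable (fun d : Dat N =>
      base β l d.1 (ones N) * (d.2 i * av β l r (sh r d) (fun b => sp b i * h b))) (nullM N) := fun i => by
    have hz : Gd (fun d : Dat N => d.2 i) := by
      refine ⟨by fun_prop, 1, 1, zero_le_one, zero_le_one, fun d => ?_⟩
      rw [one_mul, one_mul]
      refine le_trans ?_ ((Real.add_one_le_exp _).trans' (le_add_of_nonneg_right zero_le_one))
      exact Finset.single_le_sum (f := fun j => |d.2 j|) (fun _ _ => abs_nonneg _) (Finset.mem_univ i)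
    exact ((Gd.of_bdd hpm hpb).mul (hz.mul
      (Gd.of_bdd (hsh (measurable_av_const β l r _)) fun d => abs_av_le β l r _ (hk i)))).integrable
  have hK : ∀ i (d : Dat N), |av β l r (sh r d) h
      - av β l r (sh r d) (fun b => sp b i) * av β l r (sh r d) (fun b => sp b i * h b)| ≤ B + 1 * B := fun i d => by
    refine (abs_sub _ _).trans (add_le_add (abs_av_le β l r _ hB) ?_)
    rw [abs_mul]
    exact mul_le_mul (abs_av_le β l r _ fun b => (abs_sp b i).le) (abs_av_le β l r _ (hk i)) (abs_nonneg _) zero_le_one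
  have i2 : ∀ i, Integrable (fun d : Dat N => base β l d.1 (ones N) * (av β l r (sh r d) h
      - av β l r (sh r d) (fun b => sp b i) * av β l r (sh r d) (fun b => sp b i * h b))) (nullM N) := fun i =>
    iB ((hsh (measurable_av_const β l r _)).sub
      ((hsh (measurable_av_const β l r _)).mul
        (hsh (measurable_av_const β l r _)))) (hK i)
  rw [integral_finsetSum _ fun i _ => ii i]
  have step : ∀ i, ∫ d, base β l d.1 (ones N) * (d.2 i * av β l r (sh r d) (fun b => sp b i * h b)) ∂nullM N
      = Real.sqrt r * ∫ d, base β l d.1 (ones N) * (av β l r (sh r d) h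
        - av β l r (sh r d) (fun b => sp b i) * av β l r (sh r d) (fun b => sp b i * h b)) ∂nullM N := fun i => by
    rw [← integral_const_mul]
    have hi := ii i
    have hi2 := (i2 i).const_mul (Real.sqrt r)
    simp only [nullM] at hi hi2 ⊢
    rw [integral_prod _ hi, integral_prod _ hi2]
    refine integral_congr_ae (ae_of_all _ fun g => ?_)
    simp only [sh]
    rw [integral_const_mul, integral_const_mul, integral_const_mul, ibp_coord β l hr g i fun b => sp b i * h b]
    simp only [← mul_assoc, sp_sq, one_mul]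
    ring
  simp_rw [step]
  rw [← Finset.mul_sum, ← integral_finsetSum _ fun i _ => i2 i, mul_assoc (Real.sqrt r), ← integral_const_mul (N : ℝ)]
  congr 1
  refine integral_congr_ae (ae_of_all _ fun d => ?_)
  simp only
  rw [← Finset.mul_sum, Finset.sum_sub_distrib, Finset.sum_const, Finset.card_univ, Fintype.card_fin,
    nsmul_eq_mul, sum_av_sp r (sh r d) hN]
  ring

lemma av_act_ovl (r : ℝ) (s : Cfg N) (d : Dat N) :
    av β l r (actD s d) (fun b => av β l r (actD s d) (fun b' => ovl b b'))
      = av β l r d (fun b => av β l r d (fun b' => ovl b b')) := by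
  rw [← av_act β l r s d fun b => av β l r d (fun b' => ovl b b')]
  congr 1
  funext b
  rw [← av_act β l r s d fun b' => ovl (xr b s) b']
  congr 1
  funext b'
  rw [ovl_xr]

lemma planted_qv (β : ℝ) (l : Fin N → ℝ) (r : ℝ) :
    ∫ d, pwt β l r d (ones N) * av β l r d (fun b => ovl (ones N) b) ∂nullM N = qv β l r :=
  pair_planted β l r id

lemma planted_qv' (β : ℝ) (l : Fin N → ℝ) (r : ℝ) :
    ∫ d, pwt β l r d (ones N) * av β l r d (fun b => av β l r d (fun b' => ovl b b')) ∂nullM N = qv β l r :=
  planted_eq' β l r (gd_av β l r (fun b => measurable_av_const β l r _)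
    fun d b => abs_av_le β l r d fun b' => abs_ovl_le b b') fun s d => av_act_ovl r s d

lemma planted_vr (β : ℝ) (l : Fin N → ℝ) (r : ℝ) :
    ∫ d, pwt β l r d (ones N) * av β l r d (fun b => (ovl (ones N) b - qv β l r) ^ 2) ∂nullM N = vr β l r :=
  pair_planted β l r fun x => (x - qv β l r) ^ 2

/-- The statistic whose Gibbs average is the derivative of the free energy. -/
noncomputable def dstat (r : ℝ) (d : Dat N) (b : Cfg N) : ℝ :=
  N * ovl (ones N) b + lin d.2 b / (2 * Real.sqrt r) - N / 2

lemma hasDeriv_log_lik (β : ℝ) (l : Fin N → ℝ) {r : ℝ} (hr : 0 < r) (d : Dat N) :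
    HasDerivAt (fun s => Real.log (lik β l s (sh s d))) (av β l r (sh r d) (dstat r d)) r := by
  have hw : ∀ b, HasDerivAt (fun s => pwt β l s (sh s d) b) (pwt β l r (sh r d) b * dstat r d b) r := fun b => by
    have hs := Real.hasDerivAt_sqrt hr.ne'
    have h1 := (hs.fun_mul ((hs.mul_const (N * ovl (ones N) b)).add_const (lin d.2 b))).fun_sub
      (((hasDerivAt_id' r).mul_const (N : ℝ)).div_const 2)
    have h2 := h1.exp.const_mul (base β l d.1 b)
    simp only [pwt, sh, lin_shv]
    refine h2.congr_deriv ?_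
    simp only [dstat]
    have hq := Real.mul_self_sqrt hr.le
    have hne : Real.sqrt r ≠ 0 := (Real.sqrt_pos.2 hr).ne'
    field_simp
    ring
  have hL := (HasDerivAt.fun_sum (u := (Finset.univ : Finset (Cfg N)))
    fun b _ => hw b).const_mul ((2⁻¹ : ℝ) ^ N)
  exact hL.log (lik_pos β l r (sh r d)).ne'

lemma gd_dstat (β : ℝ) (l : Fin N → ℝ) (r : ℝ) : Gd (fun d : Dat N => av β l r (sh r d) (dstat r d)) := by
  have hm : Measurable fun d : Dat N => av β l r (sh r d) (dstat r d) := by
    unfold av
    refine Measurable.div ((Finset.measurable_sum _ fun b _ => ?_).const_mul _)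
      ((measurable_lik β l r).comp (measurable_sh r))
    exact ((measurable_pwt β l r b).comp (measurable_sh r)).mul (by unfold dstat lin; fun_prop)
  obtain ⟨hsm, K, c, hK, hc, hb⟩ := ((Gd.const (N := N) (2 * N : ℝ)).add
    (Gd.absSum_snd.mul (Gd.const (|1 / (2 * Real.sqrt r)|))))
  refine ⟨hm, K, c, hK, hc, fun d => le_trans ?_ ((le_abs_self _).trans (hb d))⟩
  refine abs_av_le β l r _ fun b => ?_
  have h2 := abs_ovl_mul_le b
  have h3 := mul_le_mul_of_nonneg_right (abs_lin_le d.2 b) (abs_nonneg (1 / (2 * Real.sqrt r)))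
  rw [← abs_mul, mul_one_div] at h3
  have h4 := abs_sub ((N : ℝ) * ovl (ones N) b + lin d.2 b / (2 * Real.sqrt r)) (N / 2)
  have h5 := abs_add_le ((N : ℝ) * ovl (ones N) b) (lin d.2 b / (2 * Real.sqrt r))
  rw [abs_of_nonneg (by positivity : (0 : ℝ) ≤ N / 2)] at h4
  simp only [dstat]
  linarith

lemma hasDeriv_Fe (β : ℝ) (l : Fin N → ℝ) {r : ℝ} (hr : 0 < r) (hN : 0 < N) :
    HasDerivAt (Fe β l) (N * qv β l r / 2) r := by
  set lo := r / 2 with hlo
  have hlo0 : 0 < lo := by positivity
  have hgd : ∀ s, Gd fun d : Dat N => Real.log (lik β l s (sh s d)) := fun s => by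
    obtain ⟨hm, K, c, hK, hc, hb⟩ := gd_log_lik (N := N) β l s
    refine ⟨hm.comp (measurable_sh s), K * Real.exp (c * (N * Real.sqrt s)), c, by positivity, hc, fun d => ?_⟩
    refine (hb _).trans ?_
    rw [mul_assoc, ← Real.exp_add, ← mul_add]
    exact mul_le_mul_of_nonneg_left (Real.exp_le_exp.2 (mul_le_mul_of_nonneg_left (absSum_shv_le _ _) hc)) hK
  have hbound : Gd fun d : Dat N => base β l d.1 (ones N) * (2 * N + absSum d.2 * (1 / (2 * Real.sqrt lo))) :=
    (gd_base β l (ones N)).mul ((Gd.const _).add (Gd.absSum_snd.mul (Gd.const _)))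
  have key := (hasDerivAt_integral_of_dominated_loc_of_deriv_le (μ := nullM N)
    (F := fun s d => base β l d.1 (ones N) * Real.log (lik β l s (sh s d)))
    (F' := fun s d => base β l d.1 (ones N) * av β l s (sh s d) (dstat s d))
    (bound := fun d => base β l d.1 (ones N) * (2 * N + absSum d.2 * (1 / (2 * Real.sqrt lo))))
    (Ioi_mem_nhds (show lo < r by simp only [hlo]; linarith))
    (Eventually.of_forall fun s => ((gd_base β l (ones N)).mul (hgd s)).1.aestronglyMeasurable)
    ((gd_base β l (ones N)).mul (hgd r)).integrable ((gd_base β l (ones N)).mul (gd_dstat β l r)).1.aestronglyMeasurable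
    (ae_of_all _ fun d s hs => ?_) hbound.integrable
    (ae_of_all _ fun d s hs => (hasDeriv_log_lik β l (hlo0.trans hs) d).const_mul _)).2
  swap
  · rw [Real.norm_eq_abs, abs_mul, abs_of_pos (base_pos β l _ _)]
    refine mul_le_mul_of_nonneg_left (abs_av_le β l s _ fun b => ?_) (base_pos β l _ _).le
    have h2 := abs_ovl_mul_le b
    have h3 : |lin d.2 b / (2 * Real.sqrt s)| ≤ absSum d.2 * (1 / (2 * Real.sqrt lo)) := by
      rw [abs_div, abs_of_nonneg (by positivity : (0:ℝ) ≤ 2 * Real.sqrt s), mul_one_div]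
      exact div_le_div₀ (absSum_nonneg _) (abs_lin_le _ _) (by positivity)
        (mul_le_mul_of_nonneg_left (Real.sqrt_le_sqrt (le_of_lt hs)) (by norm_num))
    have h4 := abs_sub ((N : ℝ) * ovl (ones N) b + lin d.2 b / (2 * Real.sqrt s)) (N / 2)
    have h5 := abs_add_le ((N : ℝ) * ovl (ones N) b) (lin d.2 b / (2 * Real.sqrt s))
    rw [abs_of_nonneg (by positivity : (0 : ℝ) ≤ N / 2)] at h4
    simp only [dstat]
    linarith
  have hE : ∀ᶠ s in 𝓝 r, Fe β l s = ∫ d, base β l d.1 (ones N) * Real.log (lik β l s (sh s d)) ∂nullM N :=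
    (eventually_gt_nhds hr).mono fun s hs => Fe_shift β l hs.le
  refine (key.congr_of_eventuallyEq hE).congr_deriv ?_
  have hs0 : Real.sqrt r ≠ 0 := (Real.sqrt_pos.2 hr).ne'
  have e : ∀ d : Dat N, base β l d.1 (ones N) * av β l r (sh r d) (dstat r d)
      = N * (base β l d.1 (ones N) * av β l r (sh r d) (fun b => ovl (ones N) b))
        + 1 / (2 * Real.sqrt r) * (base β l d.1 (ones N) * av β l r (sh r d) (fun b => lin d.2 b * 1))
        - N / 2 * base β l d.1 (ones N) := fun d => by
    have : dstat r d = fun b => (N * ovl (ones N) b + 1 / (2 * Real.sqrt r) * (lin d.2 b * 1)) - N / 2 := by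
      funext b; simp only [dstat]; ring
    rw [this, av_sub, av_add, av_mul, av_mul, av_const β l]
    ring
  simp_rw [e]
  have i1 : Integrable (fun d : Dat N => base β l d.1 (ones N) * av β l r (sh r d) (fun b => ovl (ones N) b)) (nullM N) :=
    ((gd_base β l (ones N)).mul (Gd.of_bdd ((measurable_av_const β l r _).comp (measurable_sh r))
      fun d => abs_av_le β l r _ fun b => abs_ovl_le _ b)).integrable
  have i2 : Integrable (fun d : Dat N => base β l d.1 (ones N) * av β l r (sh r d) (fun b => lin d.2 b * 1)) (nullM N) := by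
    refine ((gd_base β l (ones N)).mul (?_ : Gd _)).integrable
    obtain ⟨hm, K, c, hK, hc, hb⟩ := Gd.absSum_snd (N := N)
    refine ⟨?_, K, c, hK, hc, fun d => (abs_av_le β l r _ fun b => ?_).trans ((le_abs_self _).trans (hb d))⟩
    · unfold av
      refine Measurable.div ((Finset.measurable_sum _ fun b _ => ?_).const_mul _)
        ((measurable_lik β l r).comp (measurable_sh r))
      exact ((measurable_pwt β l r b).comp (measurable_sh r)).mul (by unfold lin; fun_prop)
    · rw [mul_one]; exact abs_lin_le _ _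
  have i12 : Integrable (fun d : Dat N => N * (base β l d.1 (ones N) * av β l r (sh r d) (fun b => ovl (ones N) b))
      + 1 / (2 * Real.sqrt r) * (base β l d.1 (ones N) * av β l r (sh r d) (fun b => lin d.2 b * 1))) (nullM N) :=
    (i1.const_mul (N : ℝ)).add (i2.const_mul (1 / (2 * Real.sqrt r)))
  rw [integral_sub i12 ((gd_base β l (ones N)).integrable.const_mul _),
    integral_add (i1.const_mul _) (i2.const_mul _), integral_const_mul, integral_const_mul, integral_const_mul,
    ibp β l hr.le hN fun _ => 1, ← planted_shift β l hr.le (gd_av_const β l r _ fun b => abs_ovl_le (ones N) b),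
    planted_qv β l]
  simp only [one_mul, planted_qv' β l, av_const β l, mul_one, integral_pwt β l hr.le]
  have h1 : ∫ d : Dat N, base β l d.1 (ones N) ∂nullM N = 1 := by
    rw [nullM, integral_fun_fst (fun g => base β l g (ones N)), integral_base β l _]
    simp
  rw [h1]
  field_simp
  ring

lemma pwt_bridge (g : OMat N) {r r' : ℝ} (hr : 0 ≤ r) (hrr : r ≤ r') (hr' : 0 < r')
    (z : Fin N → ℝ) (b : Cfg N) :
    ∫ η, pwt β l r' (g, fun i => Real.sqrt (r / r') * z i + Real.sqrt (1 - r / r') * η i) b ∂gaussVec (Fin N)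
        = pwt β l r (g, z) b ∧
      Integrable (fun η => pwt β l r' (g, fun i => Real.sqrt (r / r') * z i + Real.sqrt (1 - r / r') * η i) b)
        (gaussVec (Fin N)) := by
  set κ := Real.sqrt r' * Real.sqrt (1 - r / r')
  have hsr : Real.sqrt r' * Real.sqrt (r / r') = Real.sqrt r := by
    rw [← Real.sqrt_mul hr'.le, mul_div_cancel₀ _ hr'.ne']
  have hκ : κ ^ 2 = r' - r := by
    rw [mul_pow, Real.sq_sqrt hr'.le, Real.sq_sqrt (by rw [sub_nonneg, div_le_one hr']; exact hrr), mul_sub,
      mul_one, mul_div_cancel₀ _ hr'.ne']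
  have e : ∀ η : Fin N → ℝ, pwt β l r' (g, fun i => Real.sqrt (r / r') * z i + Real.sqrt (1 - r / r') * η i) b
      = base β l g b * Real.exp (κ * lin η b + (Real.sqrt r * lin z b - r' * N / 2)) := fun η => by
    simp only [pwt]
    congr 2
    have : lin (fun i => Real.sqrt (r / r') * z i + Real.sqrt (1 - r / r') * η i) b
        = Real.sqrt (r / r') * lin z b + Real.sqrt (1 - r / r') * lin η b := by
      simp only [lin, Finset.mul_sum, ← Finset.sum_add_distrib]
      exact Finset.sum_congr rfl fun i _ => by ring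
    rw [this, mul_add, ← mul_assoc, hsr]
    simp only [κ]; ring
  simp_rw [e]
  refine ⟨?_, (integrable_exp_lin κ _ b).const_mul _⟩
  rw [integral_const_mul]
  simp only [Real.exp_add]
  rw [integral_mul_const, gauss_exp_lin, hκ, ← Real.exp_add]
  simp only [pwt]
  congr 2
  ring

lemma qv_eq_coord (β : ℝ) (l : Fin N → ℝ) (hN : 0 < N) (r : ℝ) :
    N * qv β l r = ∑ i, ∫ d, lik β l r d * av β l r d (fun b => sp b i) ^ 2 ∂nullM N := by
  rw [qv, ← integral_const_mul, ← integral_finsetSum]
  · refine integral_congr_ae (ae_of_all _ fun d => ?_)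
    have h := sum_av_sp (β := β) (l := l) r d hN (fun _ => 1)
    simp only [mul_one, one_mul] at h
    simp only
    rw [← Finset.mul_sum]
    simp only [sq, h]
    ring
  · intro i _
    exact ((gd_lik β l r).mul (Gd.of_bdd ((measurable_av_const β l r _).pow_const 2) fun d => by
      rw [abs_pow]; exact pow_le_pow_left₀ (abs_nonneg _) (abs_av_le β l r d fun b => (abs_sp b i).le) 2)).integrable

theorem qv_nonneg (hN : 0 < N) (β : ℝ) (l : Fin N → ℝ) (r : ℝ) : 0 ≤ qv β l r := by
  have h : 0 ≤ (N : ℝ) * qv β l r := by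
    rw [qv_eq_coord β l hN]
    exact Finset.sum_nonneg fun i _ => integral_nonneg fun d => mul_nonneg (lik_pos β l r d).le (sq_nonneg _)
  exact nonneg_of_mul_nonneg_right h (by exact_mod_cast hN)

theorem qv_le_one (hN : 0 < N) (β : ℝ) (l : Fin N → ℝ) {r : ℝ} (hr : 0 ≤ r) : qv β l r ≤ 1 := by
  rw [← planted_qv β l, ← integral_pwt β l hr]
  exact integral_mono ((gd_pwt β l r _).mul (gd_av_const β l r _ fun b => abs_ovl_le (ones N) b)).integrable
    (gd_pwt β l r _).integrable fun d => mul_le_of_le_one_right (pwt_pos β l r d _).le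
      ((le_abs_self _).trans (abs_av_le β l r d fun b => abs_ovl_le (ones N) b))

theorem qv_mono (hN : 0 < N) (β : ℝ) (l : Fin N → ℝ) {r r' : ℝ} (hr : 0 ≤ r) (hrr : r ≤ r') :
    qv β l r ≤ qv β l r' := by
  rcases eq_or_lt_of_le hrr with rfl | hlt
  · exact le_rfl
  have hr' : 0 < r' := hr.trans_lt hlt
  refine le_of_mul_le_mul_left ?_ (show (0 : ℝ) < N by exact_mod_cast hN)
  rw [qv_eq_coord β l hN, qv_eq_coord β l hN]
  refine Finset.sum_le_sum fun i _ => ?_
  have hsq : ∀ s, Gd fun d : Dat N => lik β l s d * av β l s d (fun b => sp b i) ^ 2 := fun s =>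
    (gd_lik β l s).mul (Gd.of_bdd ((measurable_av_const β l s _).pow_const 2) fun d => by
      rw [abs_pow]; exact pow_le_pow_left₀ (abs_nonneg _) (abs_av_le β l s d fun b => (abs_sp b i).le) 2)
  have h1 := (hsq r).integrable
  have h2 := (hsq r').integrable
  simp only [nullM] at h1 h2 ⊢
  rw [integral_prod _ h1, integral_prod _ h2]
  refine integral_mono h1.integral_prod_left h2.integral_prod_left fun g => ?_
  set F : (Fin N → ℝ) → ℝ := fun z => lik β l r' (g, z) * av β l r' (g, z) (fun b => sp b i) ^ 2 with hFdef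
  have hmi : ∀ s, Integrable (fun z : Fin N → ℝ => lik β l s (g, z) * av β l s (g, z) (fun b => sp b i) ^ 2)
      (gaussVec (Fin N)) := fun s => by
    obtain ⟨hm, K, c, hK, hc, hb⟩ := hsq s
    exact ((integrable_exp_absSum c).const_mul K).mono' (hm.comp (by fun_prop)).aestronglyMeasurable
      (ae_of_all _ fun z => by simpa using hb (g, z))
  rw [integral_bridge hr hrr hr' (hmi r')]
  have hT : Integrable (fun z => ∫ η, F (fun j => Real.sqrt (r / r') * z j + Real.sqrt (1 - r / r') * η j)
      ∂gaussVec (Fin N)) (gaussVec (Fin N)) ∧ ∀ᵐ z ∂gaussVec (Fin N), Integrable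
      (fun η => F (fun j => Real.sqrt (r / r') * z j + Real.sqrt (1 - r / r') * η j)) (gaussVec (Fin N)) := by
    have h := gaussVec_rotate (ι := Fin N) (s := r / r') (t := 1 - r / r') (by positivity)
      (by rw [sub_nonneg, div_le_one hr']; exact hrr)
    simp only [add_sub_cancel, Real.sqrt_one, one_mul, Measure.map_id'] at h
    have hF' : Integrable F (gaussVec (Fin N)) := hmi r'
    rw [← h] at hF'
    have hp := (integrable_map_measure hF'.aestronglyMeasurable (Measurable.aemeasurable (by fun_prop))).1 hF'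
    exact ⟨hp.integral_prod_left, hp.prod_right_ae⟩
  refine integral_mono_ae (hmi r) hT.1 (hT.2.mono fun z hz => ?_)
  dsimp only
  set lam := av β l r (g, z) (fun b => sp b i)
  have key := lik_mul_av β l r (g, z) (fun b => sp b i)
  have iw := fun b => (pwt_bridge (β := β) (l := l) g hr hrr hr' z b)
  set mapz := fun η : Fin N → ℝ => ((g, fun j => Real.sqrt (r / r') * z j + Real.sqrt (1 - r / r') * η j) : Dat N)
  have iA : Integrable (fun η => (2⁻¹ : ℝ) ^ N * ∑ b, pwt β l r' (mapz η) b * sp b i) (gaussVec (Fin N)) :=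
    (integrable_finsetSum _ fun b _ => (iw b).2.mul_const _).const_mul _
  have iL : Integrable (fun η => (2⁻¹ : ℝ) ^ N * ∑ b, pwt β l r' (mapz η) b) (gaussVec (Fin N)) :=
    (integrable_finsetSum _ fun b _ => (iw b).2).const_mul _
  have := integral_mono ((iA.const_mul (2 * lam)).sub' (iL.const_mul (lam ^ 2))) hz fun η => by
    simp only [hFdef]
    rw [← lik_mul_av β l r' (mapz η)]
    change 2 * lam * (lik β l r' (mapz η) * av β l r' (mapz η) (fun b => sp b i)) - lam ^ 2 * lik β l r' (mapz η) ≤ _
    have := mul_nonneg (lik_pos β l r' (mapz η)).le (sq_nonneg (av β l r' (mapz η) (fun b => sp b i) - lam))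
    simp only [mapz] at this ⊢
    linarith
  refine le_trans (le_of_eq ?_) this
  rw [integral_sub (iA.const_mul _) (iL.const_mul _), integral_const_mul, integral_const_mul, integral_const_mul,
    integral_const_mul, integral_finsetSum _ fun b _ => (iw b).2.mul_const _,
    integral_finsetSum _ fun b _ => (iw b).2]
  simp only [mapz, integral_mul_const, (iw _).1]
  rw [← key]
  change _ = 2 * lam * (lik β l r (g, z) * lam) - lam ^ 2 * lik β l r (g, z)
  ring

lemma continuousOn_Fe (β : ℝ) (l : Fin N → ℝ) {R : ℝ} : ContinuousOn (Fe β l) (Icc 0 R) := by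
  have h : ContinuousOn (fun s => ∫ d, base β l d.1 (ones N) * Real.log (lik β l s (sh s d)) ∂nullM N) (Icc 0 R) := by
    refine continuousOn_of_dominated (bound := fun d : Dat N => base β l d.1 (ones N) * ((Real.log (bdC β l) + R * N / 2
      + Real.sqrt R * (N * Real.sqrt R)) + Real.sqrt R * absSum d.2))
      (fun s _ => (((continuous_base β l _).measurable.comp measurable_fst).mul
        ((measurable_lik β l s).comp (measurable_sh s)).log).aestronglyMeasurable) (fun s hs => ae_of_all _ fun d => ?_)
      ((gd_base β l (ones N)).mul ((Gd.const _).add ((Gd.const _).mul Gd.absSum_snd))).integrable (ae_of_all _ fun d => ?_)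
    · rw [Real.norm_eq_abs, abs_mul, abs_of_pos (base_pos β l _ _)]
      refine mul_le_mul_of_nonneg_left ((abs_log_lik_le β l s _).trans ?_) (base_pos β l _ _).le
      rw [abs_of_nonneg hs.1]
      have h1 := mul_le_mul (Real.sqrt_le_sqrt hs.2) ((absSum_shv_le s d.2).trans (add_le_add
        (mul_le_mul_of_nonneg_left (Real.sqrt_le_sqrt hs.2) (Nat.cast_nonneg N)) le_rfl))
        (absSum_nonneg _) (Real.sqrt_nonneg _)
      simp only [sh] at h1 ⊢
      have h2 := mul_le_mul_of_nonneg_right hs.2 (Nat.cast_nonneg (α := ℝ) N)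
      linarith [mul_add (Real.sqrt R) ((N : ℝ) * Real.sqrt R) (absSum d.2)]
    · refine continuousOn_const.mul (ContinuousOn.log ?_ fun s _ => (lik_pos β l s _).ne')
      unfold lik pwt lin sh shv
      refine Continuous.continuousOn (continuous_const.mul (continuous_finsetSum _ fun b _ => ?_))
      dsimp only
      exact continuous_const.mul (by fun_prop)
  exact h.congr fun s hs => Fe_shift β l hs.1

/-- The slopes of the entropy lie between the overlaps at the two ends. -/
theorem Fe_slope (hN : 0 < N) (β : ℝ) (l : Fin N → ℝ) {r r' : ℝ} (hr : 0 ≤ r) (hrr : r ≤ r') :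
    N * qv β l r / 2 * (r' - r) ≤ Fe β l r' - Fe β l r ∧
      Fe β l r' - Fe β l r ≤ N * qv β l r' / 2 * (r' - r) := by
  rcases eq_or_lt_of_le hrr with rfl | hlt
  · simp
  obtain ⟨c, hc, he⟩ := exists_hasDerivAt_eq_slope (Fe β l) (fun s => N * qv β l s / 2) hlt
    ((continuousOn_Fe β l (R := r')).mono (Icc_subset_Icc hr le_rfl))
    fun x hx => hasDeriv_Fe β l (hr.trans_lt hx.1) hN
  rw [eq_div_iff (sub_pos.2 hlt).ne'] at he
  have hn : (0 : ℝ) ≤ N := Nat.cast_nonneg N
  rw [← he]
  constructor <;> refine mul_le_mul_of_nonneg_right ?_ (sub_pos.2 hlt).le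
  · have := mul_le_mul_of_nonneg_left (qv_mono hN β l hr hc.1.le) hn; linarith
  · have := mul_le_mul_of_nonneg_left (qv_mono hN β l (hr.trans hc.1.le) hc.2.le) hn; linarith

lemma gd_fe (β : ℝ) (l : Fin N → ℝ) (r : ℝ) : Gd fun d : Dat N => fe β l r d := by
  obtain ⟨hm, K, c, hK, hc, hb⟩ := gd_log_lik (N := N) β l r
  refine ⟨hm.comp (measurable_sh r), K * Real.exp (c * (N * Real.sqrt r)), c, by positivity, hc, fun d => ?_⟩
  refine (hb _).trans ?_
  rw [mul_assoc, ← Real.exp_add, ← mul_add]
  exact mul_le_mul_of_nonneg_left (Real.exp_le_exp.2 (mul_le_mul_of_nonneg_left (absSum_shv_le _ _) hc)) hK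

lemma av_softplus_le (β : ℝ) (l : Fin N → ℝ) (r : ℝ) (d : Dat N) (k : Cfg N → ℝ) :
    av β l r d (fun b => max (k b) 0) ≤ Real.log (1 + av β l r d (fun b => Real.exp (k b))) := by
  set X := 1 + av β l r d (fun b => Real.exp (k b))
  have hX : 0 < X := by
    have := (av_const β l r d 0).symm.trans_le (av_mono β l r d (h := fun _ => 0) (k := fun b => Real.exp (k b))
      fun b => (Real.exp_pos _).le)
    simp only [X]; linarith
  refine (av_mono β l r d (k := fun b => (Real.log X - 1) + X⁻¹ * (1 + Real.exp (k b))) fun b => ?_).trans (le_of_eq ?_)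
  · refine (max_zero_le_log _).trans ?_
    have h := Real.log_le_sub_one_of_pos (div_pos (show 0 < 1 + Real.exp (k b) by positivity) hX)
    rw [Real.log_div (by positivity) hX.ne', div_eq_inv_mul] at h
    linarith
  · rw [av_add, av_const β l, av_mul, av_add, av_const β l]
    rw [show X⁻¹ * (1 + av β l r d fun b => Real.exp (k b)) = X⁻¹ * X from rfl, inv_mul_cancel₀ hX.ne']
    ring

lemma pwt_sh_add (β : ℝ) (l : Fin N → ℝ) {r r' : ℝ} (hr : 0 ≤ r) (hr' : 0 ≤ r') (hpos : 0 < Real.sqrt r' + Real.sqrt r)
    (d : Dat N) :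
    av β l r (sh r d) (fun b => Real.exp ((r' - r) * fdStat (1 / (Real.sqrt r' + Real.sqrt r)) d.2 b))
      = Real.exp (fe β l r' d - fe β l r d) := by
  have e : ∀ b, pwt β l r (sh r d) b * Real.exp ((r' - r) * fdStat (1 / (Real.sqrt r' + Real.sqrt r)) d.2 b)
      = pwt β l r' (sh r' d) b := fun b => by
    simp only [pwt, sh]
    rw [mul_assoc, ← Real.exp_add]
    congr 2
    rw [lin_shv, lin_shv]
    simp only [fdStat]
    have h1 : (r' - r) * (1 / (Real.sqrt r' + Real.sqrt r)) = Real.sqrt r' - Real.sqrt r := by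
      rw [mul_one_div, div_eq_iff hpos.ne']
      nlinarith [Real.mul_self_sqrt hr, Real.mul_self_sqrt hr']
    nlinarith [Real.mul_self_sqrt hr, Real.mul_self_sqrt hr', congrArg (fun x => x * lin d.2 b) h1,
      congrArg (fun x => x * ((N : ℝ) * ovl (ones N) b)) (Real.mul_self_sqrt hr),
      congrArg (fun x => x * ((N : ℝ) * ovl (ones N) b)) (Real.mul_self_sqrt hr')]
  unfold av
  simp_rw [e]
  simp only [fe]
  rw [Real.exp_sub, Real.exp_log (lik_pos β l r' _), Real.exp_log (lik_pos β l r _)]
  rfl

/-- The Gibbs spread of the finite-difference statistic. -/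
lemma spread_le (β : ℝ) (l : Fin N → ℝ) {r δ : ℝ} (hδ : 0 < δ) (hδr : δ < r) (d : Dat N) (Dp Dm : ℝ) :
    δ * av β l r (sh r d) (fun b => |fdStat (1 / (Real.sqrt (r + δ) + Real.sqrt r)) d.2 b - Dp / δ|)
      ≤ 2 * Real.log 2 + |fe β l (r + δ) d - fe β l r d - Dp| + |fe β l (r - δ) d - fe β l r d - Dm| + max (Dp + Dm) 0
        + δ * (|1 / (Real.sqrt (r + δ) + Real.sqrt r) - 1 / (Real.sqrt (r - δ) + Real.sqrt r)| * absSum d.2) := by
  have hr : 0 < r := hδ.trans hδr
  have hs : 0 < Real.sqrt r := Real.sqrt_pos.2 hr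
  set c := 1 / (Real.sqrt (r + δ) + Real.sqrt r)
  set c' := 1 / (Real.sqrt (r - δ) + Real.sqrt r)
  set μ := Dp / δ
  have hp : av β l r (sh r d) (fun b => max (δ * (fdStat c d.2 b - μ)) 0)
      ≤ Real.log 2 + |fe β l (r + δ) d - fe β l r d - Dp| := by
    refine (av_softplus_le β l r _ _).trans ?_
    have e : (fun b => Real.exp (δ * (fdStat c d.2 b - μ)))
        = fun b => Real.exp (-(δ * μ)) * Real.exp ((r + δ - r) * fdStat c d.2 b) := by
      funext b; rw [← Real.exp_add]; congr 1; ring
    rw [e, av_mul, pwt_sh_add β l hr.le (by linarith) (by positivity), ← Real.exp_add]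
    refine log_two_add.trans (add_le_add le_rfl ?_)
    rw [show δ * μ = Dp by simp only [μ]; field_simp]
    refine max_le (le_trans (le_of_eq ?_) (le_abs_self _)) (abs_nonneg _)
    ring
  have hm : av β l r (sh r d) (fun b => max (δ * (μ - fdStat c' d.2 b)) 0)
      ≤ Real.log 2 + (|fe β l (r - δ) d - fe β l r d - Dm| + max (Dp + Dm) 0) := by
    refine (av_softplus_le β l r _ _).trans ?_
    have e : (fun b => Real.exp (δ * (μ - fdStat c' d.2 b)))
        = fun b => Real.exp (δ * μ) * Real.exp ((r - δ - r) * fdStat c' d.2 b) := by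
      funext b; rw [← Real.exp_add]; congr 1; ring
    rw [e, av_mul, pwt_sh_add β l hr.le (by linarith) (by positivity), ← Real.exp_add]
    refine log_two_add.trans (add_le_add le_rfl ?_)
    rw [show δ * μ = Dp by simp only [μ]; field_simp]
    refine max_le ?_ (by positivity)
    have h1 := le_abs_self (fe β l (r - δ) d - fe β l r d - Dm)
    have h2 := le_max_left (Dp + Dm) 0
    linarith
  rw [← av_mul]
  refine (av_mono β l r _ (k := fun b => max (δ * (fdStat c d.2 b - μ)) 0 + max (δ * (μ - fdStat c' d.2 b)) 0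
    + δ * (|c - c'| * absSum d.2)) fun b => ?_).trans ?_
  · have h3 : |fdStat c' d.2 b - fdStat c d.2 b| ≤ |c - c'| * absSum d.2 := by
      simp only [fdStat]
      rw [show (N : ℝ) * ovl (ones N) b + c' * lin d.2 b - N / 2 - (N * ovl (ones N) b + c * lin d.2 b - N / 2)
        = (c' - c) * lin d.2 b by ring, abs_mul, abs_sub_comm]
      exact mul_le_mul_of_nonneg_left (abs_lin_le _ _) (abs_nonneg _)
    have h4 := mul_le_mul_of_nonneg_left h3 hδ.le
    have h5 := mul_nonneg hδ.le (abs_nonneg (fdStat c' d.2 b - fdStat c d.2 b))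
    have h6 := mul_le_mul_of_nonneg_left (le_abs_self (fdStat c' d.2 b - fdStat c d.2 b)) hδ.le
    rcases le_total (fdStat c d.2 b) μ with h | h
    · rw [abs_of_nonpos (sub_nonpos.2 h)]
      have := le_max_left (δ * (μ - fdStat c' d.2 b)) 0
      have := le_max_right (δ * (fdStat c d.2 b - μ)) 0
      linarith
    · rw [abs_of_nonneg (sub_nonneg.2 h)]
      have := le_max_left (δ * (fdStat c d.2 b - μ)) 0
      have := le_max_right (δ * (μ - fdStat c' d.2 b)) 0
      linarith
  · rw [av_add, av_add, av_const β l]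
    linarith

/-- The covariance step. -/
lemma vr_le_spread (β : ℝ) (l : Fin N → ℝ) {r : ℝ} (hr : 0 ≤ r) (hN : 0 < N) {c : ℝ} (hc : 0 ≤ c)
    (hcr : c * Real.sqrt r ≤ 1 / 2) (μ : ℝ) :
    N * vr β l r / 2 ≤ 2 * ∫ d, base β l d.1 (ones N)
      * av β l r (sh r d) (fun b => |fdStat c d.2 b - μ|) ∂nullM N := by
  set q := qv β l r with hqdef
  have hq : q ∈ Icc (0 : ℝ) 1 := ⟨qv_nonneg hN β l r, qv_le_one hN β l hr⟩
  set R : Cfg N → ℝ := fun b => ovl (ones N) b
  have hRb : ∀ b, |R b| ≤ 1 := fun b => abs_ovl_le _ b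
  have hRq : ∀ b, |R b - q| ≤ 2 := fun b => by
    refine (abs_sub _ _).trans ?_; rw [abs_of_nonneg hq.1]; linarith [hRb b, hq.2]
  set A : Dat N → Cfg N → ℝ := fun d b => av β l r d (fun b' => ovl b b')
  have hAm : ∀ b, Measurable fun d => A d b := fun b => measurable_av_const β l r _
  have hAb : ∀ d b, |A d b| ≤ 1 := fun d b => abs_av_le β l r d fun b' => abs_ovl_le b b'
  -- three planted averages
  have ip : ∀ {F : Dat N → ℝ}, Gd F → Integrable (fun d => pwt β l r d (ones N) * F d) (nullM N) :=
    fun hF => ((gd_pwt β l r _).mul hF).integrable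
  set X := ∫ d, pwt β l r d (ones N) * av β l r d (fun b => R b * A d b) ∂nullM N
  set m₂ := ∫ d, pwt β l r d (ones N) * av β l r d (fun b => R b * R b) ∂nullM N
  have gR : Gd fun d : Dat N => av β l r d R := gd_av_const β l r R hRb
  have gR2 : Gd fun d : Dat N => av β l r d (fun b => R b * R b) := gd_av_const β l r _ (B := 1) fun b => by
    rw [abs_mul]; exact mul_le_one₀ (hRb b) (abs_nonneg _) (hRb b)
  have gX : Gd fun d : Dat N => av β l r d (fun b => R b * A d b) :=
    gd_av β l r (fun b => (hAm b).const_mul _) (B := 1) fun d b => by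
      rw [abs_mul]; exact mul_le_one₀ (hRb b) (abs_nonneg _) (hAb d b)
  have gA : Gd fun d : Dat N => av β l r d (A d) := gd_av β l r hAm hAb
  have hR1 : ∫ d, pwt β l r d (ones N) * av β l r d R ∂nullM N = q := planted_qv β l r
  have hA1 : ∫ d, pwt β l r d (ones N) * av β l r d (A d) ∂nullM N = q := planted_qv' β l r
  have h1 : ∫ d, pwt β l r d (ones N) ∂nullM N = 1 := integral_pwt β l hr
  have hvr : vr β l r = m₂ - q ^ 2 := by
    rw [← planted_vr β l]
    have e : ∀ d : Dat N, pwt β l r d (ones N) * av β l r d (fun b => (ovl (ones N) b - qv β l r) ^ 2)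
        = pwt β l r d (ones N) * av β l r d (fun b => R b * R b) - 2 * q * (pwt β l r d (ones N) * av β l r d R)
          + q ^ 2 * pwt β l r d (ones N) := fun d => by
      have : (fun b => (ovl (ones N) b - qv β l r) ^ 2) = fun b => (R b * R b - 2 * q * R b) + q ^ 2 := by
        funext b; simp only [R, ← hqdef]; ring
      rw [this, av_add, av_sub, av_mul, av_const β l]; ring
    simp_rw [e]
    rw [integral_add ?_ ((gd_pwt β l r _).integrable.const_mul _), integral_sub (ip gR2) ((ip gR).const_mul _),
      integral_const_mul, integral_const_mul, hR1, h1]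
    · ring
    · exact (ip gR2).sub ((ip gR).const_mul _)
  -- the cross term
  have hX : X - q ^ 2 ≤ vr β l r := by
    set Q2 : Dat N → ℝ := fun d => av β l r d (fun b => av β l r d (fun b' => (ovl b b' - q) ^ 2))
    have gQ2 : Gd Q2 := gd_av β l r (fun b => measurable_av_const β l r _) (B := 4) fun d b =>
      abs_av_le β l r d fun b' => by
        rw [abs_pow, show (4 : ℝ) = 2 ^ 2 by norm_num]
        refine pow_le_pow_left₀ (abs_nonneg _) ((abs_sub _ _).trans ?_) 2
        rw [abs_of_nonneg hq.1]; linarith [abs_ovl_le b b', hq.2]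
    have hQ2 : ∫ d, pwt β l r d (ones N) * Q2 d ∂nullM N = vr β l r := by
      rw [planted_eq' β l r gQ2 fun s d => ?_]
      · rfl
      simp only [Q2]
      rw [← av_act β l r s d fun b => av β l r d (fun b' => (ovl b b' - q) ^ 2)]
      congr 1
      funext b
      rw [← av_act β l r s d fun b' => (ovl (xr b s) b' - q) ^ 2]
      congr 1
      funext b'
      rw [ovl_xr]
    have gV : Gd fun d : Dat N => av β l r d (fun b => (R b - q) ^ 2) := gd_av_const β l r _ (B := 4) fun b => by
      rw [abs_pow, show (4 : ℝ) = 2 ^ 2 by norm_num]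
      exact pow_le_pow_left₀ (abs_nonneg _) (hRq b) 2
    have hpt : ∀ d : Dat N, av β l r d (fun b => R b * A d b) - q * av β l r d R - q * av β l r d (A d) + q ^ 2
        ≤ (av β l r d (fun b => (R b - q) ^ 2) + Q2 d) / 2 := fun d => by
      have e : av β l r d (fun b => R b * A d b) - q * av β l r d R - q * av β l r d (A d) + q ^ 2
          = av β l r d (fun b => ((R b * A d b - q * R b) - q * A d b) + q ^ 2) := by
        rw [av_add, av_sub, av_sub, av_mul, av_mul, av_const β l]
      rw [e, ← av_add, show ∀ x : ℝ, x / 2 = 1 / 2 * x from fun x => by ring, ← av_mul]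
      refine av_mono β l r d fun b => ?_
      have hj : (A d b - q) ^ 2 ≤ av β l r d (fun b' => (ovl b b' - q) ^ 2) := by
        set t := A d b - q with ht
        have hh : av β l r d (fun b' => (ovl b b' - q) * (2 * t) - t ^ 2) ≤ av β l r d (fun b' => (ovl b b' - q) ^ 2) :=
          av_mono β l r d fun b' => by nlinarith [sq_nonneg (ovl b b' - q - t)]
        rw [av_sub, av_mul_right, av_sub, av_const β l, av_const β l] at hh
        change (A d b - q) * (2 * t) - t ^ 2 ≤ _ at hh
        rw [← ht] at hh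
        linarith
      nlinarith [sq_nonneg ((R b - q) - (A d b - q))]
    have iL : Integrable (fun d => pwt β l r d (ones N) * av β l r d (fun b => R b * A d b)
        - q * (pwt β l r d (ones N) * av β l r d R) - q * (pwt β l r d (ones N) * av β l r d (A d))
        + q ^ 2 * pwt β l r d (ones N)) (nullM N) :=
      (((ip gX).sub ((ip gR).const_mul _)).sub ((ip gA).const_mul _)).add ((gd_pwt β l r _).integrable.const_mul _)
    have := integral_mono iL (((ip gV).add (ip gQ2)).div_const 2) fun d => by
      have := mul_le_mul_of_nonneg_left (hpt d) (pwt_pos β l r d (ones N)).le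
      simp only [Pi.add_apply]
      linarith
    have j1 : Integrable (fun d => pwt β l r d (ones N) * av β l r d (fun b => R b * A d b)
        - q * (pwt β l r d (ones N) * av β l r d R)) (nullM N) := (ip gX).sub ((ip gR).const_mul _)
    have j2 : Integrable (fun d => pwt β l r d (ones N) * av β l r d (fun b => R b * A d b)
        - q * (pwt β l r d (ones N) * av β l r d R) - q * (pwt β l r d (ones N) * av β l r d (A d))) (nullM N) :=
      j1.sub ((ip gA).const_mul _)
    simp only [Pi.add_apply] at this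
    rw [integral_add j2 ((gd_pwt β l r _).integrable.const_mul _), integral_sub j1 ((ip gA).const_mul _),
      integral_sub (ip gX) ((ip gR).const_mul _), integral_const_mul, integral_const_mul, integral_const_mul,
      hR1, hA1, h1, integral_div, integral_add (ip gV) (ip gQ2), hQ2] at this
    have hV : ∫ d, pwt β l r d (ones N) * av β l r d (fun b => (R b - q) ^ 2) ∂nullM N = vr β l r :=
      planted_vr β l r
    rw [hV] at this
    linarith
  -- planted coordinates
  have gsh : ∀ {k : Cfg N → ℝ} {B : ℝ}, (∀ b, |k b| ≤ B) → Gd fun d : Dat N => av β l r (sh r d) k :=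
    fun {k B} hk => Gd.of_bdd ((measurable_av_const β l r k).comp (measurable_sh r)) fun d => abs_av_le β l r _ hk
  have gl : ∀ {k : Cfg N → ℝ} {B : ℝ}, (∀ b, |k b| ≤ B) →
      Gd fun d : Dat N => av β l r (sh r d) (fun b => lin d.2 b * k b) := fun {k B} hk => by
    obtain ⟨_, K, c₀, hK, hc₀, hb⟩ := (Gd.absSum_snd (N := N)).mul (Gd.const |B|)
    refine ⟨?_, K, c₀, hK, hc₀, fun d => (abs_av_le β l r _ fun b => ?_).trans ((le_abs_self _).trans (hb d))⟩
    · unfold av
      refine Measurable.div ((Finset.measurable_sum _ fun b _ => ?_).const_mul _)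
        ((measurable_lik β l r).comp (measurable_sh r))
      exact ((measurable_pwt β l r b).comp (measurable_sh r)).mul (by unfold lin; fun_prop)
    · rw [abs_mul]
      exact mul_le_mul (abs_lin_le _ _) ((hk b).trans (le_abs_self _)) (abs_nonneg _) (absSum_nonneg _)
  have hP1 : ∫ d : Dat N, base β l d.1 (ones N) ∂nullM N = 1 := by
    rw [nullM, integral_fun_fst (fun g => base β l g (ones N)), integral_base β l _]
    simp
  have hsR := planted_shift β l hr gR
  have hsR2 := planted_shift β l hr gR2
  rw [hR1] at hsR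
  have h1b : ∀ _b : Cfg N, |(1 : ℝ)| ≤ 1 := fun _ => (abs_one).le
  have hR2b : ∀ b, |R b * R b| ≤ 1 := fun b => by
    rw [abs_mul]; exact mul_le_one₀ (hRb b) (abs_nonneg _) (hRb b)
  have iR := ((gd_base β l (ones N)).mul (gsh hRb)).integrable
  have iR2 := ((gd_base β l (ones N)).mul (gsh hR2b)).integrable
  have il1 := ((gd_base β l (ones N)).mul (gl h1b)).integrable
  have ilR := ((gd_base β l (ones N)).mul (gl hRb)).integrable
  have iP := (gd_base β l (ones N)).integrable
  have hcov : ∫ d, base β l d.1 (ones N) * av β l r (sh r d) (fun b => (fdStat c d.2 b - μ) * (R b - q)) ∂nullM N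
      = N * vr β l r - c * Real.sqrt r * N * (X - q ^ 2) := by
    have e : ∀ d : Dat N, base β l d.1 (ones N) * av β l r (sh r d) (fun b => (fdStat c d.2 b - μ) * (R b - q))
        = N * (base β l d.1 (ones N) * av β l r (sh r d) (fun b => R b * R b))
          + (-(N * q) - (N / 2 + μ)) * (base β l d.1 (ones N) * av β l r (sh r d) R)
          + c * (base β l d.1 (ones N) * av β l r (sh r d) (fun b => lin d.2 b * R b))
          + -(c * q) * (base β l d.1 (ones N) * av β l r (sh r d) (fun b => lin d.2 b * 1))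
          + (N / 2 + μ) * q * base β l d.1 (ones N) := fun d => by
      have : (fun b => (fdStat c d.2 b - μ) * (R b - q)) = fun b => ((((N : ℝ) * (R b * R b)
          + (-(N * q) - (N / 2 + μ)) * R b) + c * (lin d.2 b * R b)) + -(c * q) * (lin d.2 b * 1))
          + (N / 2 + μ) * q := by
        funext b; simp only [fdStat, R]; ring
      rw [this, av_add, av_add, av_add, av_add, av_mul, av_mul, av_mul, av_mul, av_const β l]
      ring
    simp_rw [e]
    rw [integral_add, integral_add, integral_add, integral_add (iR2.const_mul _) (iR.const_mul _),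
      integral_const_mul, integral_const_mul, integral_const_mul, integral_const_mul, integral_const_mul,
      ibp β l hr hN R, ibp β l hr hN (fun _ => 1), ← hsR2, ← hsR, hR1, hP1, hvr]
    · simp only [one_mul, av_const β l, mul_one, h1]
      rw [show (∫ d, pwt β l r d (ones N) * av β l r d (fun b => av β l r d fun b' => ovl b b') ∂nullM N) = q from hA1]
      ring
    · exact (iR2.const_mul _).add (iR.const_mul _)
    · exact ilR.const_mul _
    · exact ((iR2.const_mul _).add (iR.const_mul _)).add (ilR.const_mul _)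
    · exact il1.const_mul _
    · exact (((iR2.const_mul _).add (iR.const_mul _)).add (ilR.const_mul _)).add (il1.const_mul _)
    · exact iP.const_mul _
  have hvr0 : 0 ≤ vr β l r := integral_nonneg fun d => mul_nonneg (lik_pos β l r d).le
    ((av_const β l r d 0).symm.trans_le (av_mono β l r d fun b => (av_const β l r d 0).symm.trans_le
      (av_mono β l r d fun b' => sq_nonneg _)))
  have hlow : (N : ℝ) * vr β l r / 2 ≤
      ∫ d, base β l d.1 (ones N) * av β l r (sh r d) (fun b => (fdStat c d.2 b - μ) * (R b - q)) ∂nullM N := by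
    rw [hcov]
    have h4 := mul_le_mul_of_nonneg_left hX (show 0 ≤ c * Real.sqrt r * N by positivity)
    have h5 := mul_le_mul_of_nonneg_right (mul_le_mul_of_nonneg_right hcr (Nat.cast_nonneg (α := ℝ) N)) hvr0
    linarith
  refine hlow.trans ?_
  have gabs : Gd fun d : Dat N => av β l r (sh r d) (fun b => |fdStat c d.2 b - μ|) := by
    obtain ⟨_, K, c₀, hK, hc₀, hb⟩ := (Gd.const (N := N) (2 * N + |μ|)).add
      ((Gd.const c).mul Gd.absSum_snd)
    refine ⟨?_, K, c₀, hK, hc₀, fun d => (abs_av_le β l r _ fun b => ?_).trans ((le_abs_self _).trans (hb d))⟩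
    · unfold av
      refine Measurable.div ((Finset.measurable_sum _ fun b _ => ?_).const_mul _)
        ((measurable_lik β l r).comp (measurable_sh r))
      exact ((measurable_pwt β l r b).comp (measurable_sh r)).mul (by unfold fdStat lin; fun_prop)
    · rw [abs_abs]
      have h2 := abs_ovl_mul_le b
      have h3 := mul_le_mul_of_nonneg_left (abs_lin_le d.2 b) hc
      rw [← abs_of_nonneg hc, ← abs_mul, abs_of_nonneg hc] at h3
      have h4 := abs_sub ((N : ℝ) * ovl (ones N) b + c * lin d.2 b - N / 2) μ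
      have h5 := abs_sub ((N : ℝ) * ovl (ones N) b + c * lin d.2 b) (N / 2)
      have h6 := abs_add_le ((N : ℝ) * ovl (ones N) b) (c * lin d.2 b)
      rw [abs_of_nonneg (by positivity : (0 : ℝ) ≤ N / 2)] at h5
      simp only [fdStat]
      linarith
  rw [← integral_const_mul]
  refine integral_mono ?_ (((gd_base β l (ones N)).mul gabs).integrable.const_mul _) fun d => ?_
  · obtain ⟨hm', K, c₀, hK, hc₀, hb⟩ := gabs.mul (Gd.const 2)
    refine ((gd_base β l (ones N)).mul ⟨?_, K, c₀, hK, hc₀, fun d => le_trans ?_ (hb d)⟩).integrable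
    · unfold av
      refine Measurable.div ((Finset.measurable_sum _ fun b _ => ?_).const_mul _)
        ((measurable_lik β l r).comp (measurable_sh r))
      exact ((measurable_pwt β l r b).comp (measurable_sh r)).mul (by unfold fdStat lin; fun_prop)
    · refine le_trans ?_ (le_abs_self _)
      simp only
      rw [← av_mul_right, abs_le]
      constructor
      · rw [neg_le, show -(av β l r (sh r d) fun b => (fdStat c d.2 b - μ) * (R b - q))
          = av β l r (sh r d) (fun b => -1 * ((fdStat c d.2 b - μ) * (R b - q))) by rw [av_mul]; ring]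
        refine av_mono β l r _ fun b => (le_abs_self _).trans ?_
        rw [abs_mul, abs_mul, abs_neg, abs_one, one_mul]
        exact mul_le_mul_of_nonneg_left (hRq b) (abs_nonneg _)
      · refine av_mono β l r _ fun b => (le_abs_self _).trans ?_
        rw [abs_mul]
        exact mul_le_mul_of_nonneg_left (hRq b) (abs_nonneg _)
  · rw [mul_left_comm (2 : ℝ), ← av_mul β l r (sh r d) (2 : ℝ)]
    refine mul_le_mul_of_nonneg_left (av_mono β l r _ fun b => (le_abs_self _).trans ?_) (base_pos β l _ _).le
    rw [abs_mul, mul_comm (2 : ℝ)]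
    exact mul_le_mul_of_nonneg_left (hRq b) (abs_nonneg _)

/-- The overlap concentrates where the slope has no jump. -/
theorem vr_bound (hN : 0 < N) {r δ D : ℝ} (hδ : 0 < δ) (hδr : δ < r)
    (hD : ∀ s ∈ Icc (r - δ) (r + δ), dev β l s ≤ D) :
    N * δ * vr β l r ≤ 8 * Real.log 2 + 16 * D
      + 2 * N * δ * (qv β l (r + δ) - qv β l (r - δ))
      + 4 * δ * N * |1 / (Real.sqrt (r + δ) + Real.sqrt r) - 1 / (Real.sqrt (r - δ) + Real.sqrt r)| := by
  have hr : 0 < r := hδ.trans hδr
  set c := 1 / (Real.sqrt (r + δ) + Real.sqrt r)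
  set Dp := Fe β l (r + δ) - Fe β l r
  set Dm := Fe β l (r - δ) - Fe β l r
  set κ := |c - 1 / (Real.sqrt (r - δ) + Real.sqrt r)|
  have hc : 0 ≤ c := by positivity
  have hcr : c * Real.sqrt r ≤ 1 / 2 := by
    have h1 : Real.sqrt r ≤ Real.sqrt (r + δ) := Real.sqrt_le_sqrt (by linarith)
    have h2 : 0 < Real.sqrt r := Real.sqrt_pos.2 hr
    simp only [c]
    rw [div_mul_eq_mul_div, one_mul, div_le_iff₀ (by positivity)]
    linarith
  have h := mul_le_mul_of_nonneg_left (vr_le_spread β l hr.le hN hc hcr (Dp / δ)) hδ.le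
  have hJ : max (Dp + Dm) 0 ≤ N * δ / 2 * (qv β l (r + δ) - qv β l (r - δ)) := by
    have h1 := (Fe_slope hN β l hr.le (show r ≤ r + δ by linarith)).2
    have h2 := (Fe_slope hN β l (show 0 ≤ r - δ by linarith) (show r - δ ≤ r by linarith)).1
    have h3 := qv_mono hN β l (show 0 ≤ r - δ by linarith) (show r - δ ≤ r + δ by linarith)
    refine max_le ?_ (mul_nonneg (by positivity) (sub_nonneg.2 h3))
    simp only [Dp, Dm]
    linarith
  have gdev : ∀ s, Gd fun d : Dat N => |fe β l s d - Fe β l s| := fun s => by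
    obtain ⟨hm, K, c₀, hK, hc₀, hb⟩ := (gd_fe (N := N) β l s).sub (Gd.const (Fe β l s))
    exact ⟨hm.abs, K, c₀, hK, hc₀, fun d => by rw [abs_abs]; exact hb d⟩
  set B0 := 2 * Real.log 2 + max (Dp + Dm) 0
  have hkey : δ * ∫ d, base β l d.1 (ones N) * av β l r (sh r d) (fun b => |fdStat c d.2 b - Dp / δ|) ∂nullM N
      ≤ ∫ d, (B0 * base β l d.1 (ones N) + base β l d.1 (ones N) * |fe β l (r + δ) d - Fe β l (r + δ)|
          + base β l d.1 (ones N) * |fe β l (r - δ) d - Fe β l (r - δ)|
          + 2 * (base β l d.1 (ones N) * |fe β l r d - Fe β l r|)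
          + δ * κ * (base β l d.1 (ones N) * absSum d.2)) ∂nullM N := by
    rw [← integral_const_mul]
    refine integral_mono_of_nonneg (ae_of_all _ fun d => ?_) ?_ (ae_of_all _ fun d => ?_)
    · exact mul_nonneg hδ.le (mul_nonneg (base_pos β l _ _).le
        ((av_const β l r _ 0).symm.trans_le (av_mono β l r _ fun b => abs_nonneg _)))
    · exact (((((gd_base β l (ones N)).integrable.const_mul _).fun_add ((gd_base β l (ones N)).mul (gdev _)).integrable).fun_add
        ((gd_base β l (ones N)).mul (gdev _)).integrable).fun_add (((gd_base β l (ones N)).mul (gdev _)).integrable.const_mul _)).fun_add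
        (((gd_base β l (ones N)).mul Gd.absSum_snd).integrable.const_mul _)
    · dsimp only
      have hs := spread_le β l hδ hδr d Dp Dm
      have t1 : |fe β l (r + δ) d - fe β l r d - Dp| ≤ |fe β l (r + δ) d - Fe β l (r + δ)| + |fe β l r d - Fe β l r| := by
        rw [show fe β l (r + δ) d - fe β l r d - Dp = (fe β l (r + δ) d - Fe β l (r + δ)) - (fe β l r d - Fe β l r) by
          simp only [Dp]; ring]
        exact abs_sub _ _
      have t2 : |fe β l (r - δ) d - fe β l r d - Dm| ≤ |fe β l (r - δ) d - Fe β l (r - δ)| + |fe β l r d - Fe β l r| := by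
        rw [show fe β l (r - δ) d - fe β l r d - Dm = (fe β l (r - δ) d - Fe β l (r - δ)) - (fe β l r d - Fe β l r) by
          simp only [Dm]; ring]
        exact abs_sub _ _
      rw [mul_left_comm]
      have t3 := hs.trans (show _ ≤ B0 + |fe β l (r + δ) d - Fe β l (r + δ)| + |fe β l (r - δ) d - Fe β l (r - δ)|
            + 2 * |fe β l r d - Fe β l r| + δ * (κ * absSum d.2) by simp only [B0, κ, c]; linarith)
      refine (mul_le_mul_of_nonneg_left t3 (base_pos β l d.1 (ones N)).le).trans (le_of_eq ?_)
      ring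
  have i0 := (gd_base β l (ones N)).integrable.const_mul B0
  have i1 := ((gd_base β l (ones N)).mul (gdev (r + δ))).integrable
  have i2 := ((gd_base β l (ones N)).mul (gdev (r - δ))).integrable
  have i3 := (((gd_base β l (ones N)).mul (gdev r)).integrable).const_mul 2
  have i4 := (((gd_base β l (ones N)).mul Gd.absSum_snd).integrable).const_mul (δ * κ)
  rw [integral_add (((i0.fun_add i1).fun_add i2).fun_add i3) i4, integral_add ((i0.fun_add i1).fun_add i2) i3,
    integral_add (i0.fun_add i1) i2, integral_add i0 i1, integral_const_mul, integral_const_mul, integral_const_mul]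
    at hkey
  have hP1 : ∫ d : Dat N, base β l d.1 (ones N) ∂nullM N = 1 := by
    rw [nullM, integral_fun_fst (fun g => base β l g (ones N)), integral_base β l _]
    simp
  have hS : ∫ d : Dat N, base β l d.1 (ones N) * absSum d.2 ∂nullM N ≤ N := by
    rw [nullM, integral_prod_mul (fun g => base β l g (ones N)) absSum, integral_base β l _, one_mul]
    exact integral_absSum_le
  have f1 := hD (r + δ) ⟨by linarith, le_rfl⟩
  have f2 := hD (r - δ) ⟨le_rfl, by linarith⟩
  have f3 := hD r ⟨by linarith, by linarith⟩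
  simp only [dev] at f1 f2 f3
  rw [hP1, mul_one] at hkey
  have h6 := mul_le_mul_of_nonneg_left hS (show 0 ≤ δ * κ from mul_nonneg hδ.le (abs_nonneg _))
  simp only [B0] at hkey
  linarith

theorem qv_lt_one (hN : 0 < N) (β : ℝ) (l : Fin N → ℝ) {r : ℝ} (hr : 0 ≤ r) : qv β l r < 1 := by
  rw [← planted_qv β l, ← integral_pwt β l hr]
  have i1 := (gd_pwt β l r (ones N)).integrable
  have i2 := ((gd_pwt β l r (ones N)).mul (gd_av_const β l r _ fun b => abs_ovl_le (ones N) b)).integrable
  have hpos : ∀ d : Dat N, 0 < pwt β l r d (ones N)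
      - pwt β l r d (ones N) * av β l r d (fun b => ovl (ones N) b) := fun d => by
    have : av β l r d (fun b => ovl (ones N) b) < 1 := by
      conv_rhs => rw [← av_const β l r d 1]
      unfold av
      refine div_lt_div_of_pos_right (mul_lt_mul_of_pos_left ?_ (by positivity)) (lik_pos β l r d)
      refine Finset.sum_lt_sum (fun b _ => mul_le_mul_of_nonneg_left
        ((le_abs_self _).trans (abs_ovl_le _ b)) (pwt_pos β l r d b).le) ⟨fun _ => false, Finset.mem_univ _, ?_⟩
      refine mul_lt_mul_of_pos_left ?_ (pwt_pos β l r d _)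
      unfold ovl
      rw [div_lt_iff₀ (by exact_mod_cast hN)]
      simp [sp, ones]
      exact hN
    nlinarith [pwt_pos β l r d (ones N)]
  rw [← sub_pos, ← integral_sub i1 i2,
    integral_pos_iff_support_of_nonneg (fun d => (hpos d).le) (i1.sub i2)]
  rw [Set.eq_univ_of_forall fun d => Function.mem_support.2 (hpos d).ne']
  simp

theorem vr_nonneg (β : ℝ) (l : Fin N → ℝ) (r : ℝ) : 0 ≤ vr β l r :=
  integral_nonneg fun d => mul_nonneg (lik_pos β l r d).le
    ((av_const β l r d 0).symm.trans_le (av_mono β l r d fun b => (av_const β l r d 0).symm.trans_le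
      (av_mono β l r d fun b' => sq_nonneg _)))

theorem Fe_zero (l : Fin N → ℝ) {r : ℝ} (hr : 0 ≤ r) : Fe 0 l r = N * cubeInfo r := by
  have hb : ∀ (U : OMat N) (b : Cfg N), base 0 l U b = 1 := fun U b => by
    simp [base, zbar, P166.wt]
  have hfac : ∀ d : Dat N, lik 0 l r d = Real.exp (-(r * N / 2)) * ∏ i, Real.cosh (Real.sqrt r * d.2 i) := fun d => by
    unfold lik pwt
    simp only [hb, one_mul, sub_eq_add_neg, Real.exp_add]
    rw [← Finset.sum_mul, ← mul_assoc, mul_comm]
    congr 1
    have e : ∀ b : Cfg N, Real.exp (Real.sqrt r * lin d.2 b)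
        = ∏ i, Real.exp (Real.sqrt r * (d.2 i * if b i then 1 else -1)) := fun b => by
      rw [← Real.exp_sum, lin, Finset.mul_sum]; rfl
    simp_rw [e]
    rw [← Fintype.prod_sum (fun i (s : Bool) => Real.exp (Real.sqrt r * (d.2 i * if s then 1 else -1))),
      show (2⁻¹ : ℝ) ^ N = ∏ _i : Fin N, (2⁻¹ : ℝ) by simp, ← Finset.prod_mul_distrib]
    refine Finset.prod_congr rfl fun i _ => ?_
    rw [Fintype.sum_bool, Real.cosh_eq]
    simp only [if_true, Bool.false_eq_true, if_false, mul_one, mul_neg]
    ring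
  have habs : Integrable (fun z : ℝ => |z|) (gaussianReal 0 1) := by simpa using P157.integrable_abs_pow_gauss 1
  have h1 : Integrable (fun z => Real.log (Real.cosh (r + Real.sqrt r * z))) (gaussianReal 0 1) := by
    refine Integrable.mono' ((integrable_const r).add (habs.const_mul (Real.sqrt r)))
      ((Real.continuous_cosh.log fun x => (Real.cosh_pos x).ne').comp (by fun_prop)).aestronglyMeasurable
      (ae_of_all _ fun z => ?_)
    refine (abs_log_cosh_le' _).trans ((abs_add_le _ _).trans (le_of_eq ?_))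
    simp [abs_of_nonneg hr, abs_of_nonneg (Real.sqrt_nonneg r)]
  rw [Fe_shift 0 l hr]
  have e : ∀ d : Dat N, base 0 l d.1 (ones N) * Real.log (lik 0 l r (sh r d))
      = -(r * N / 2) + ∑ i, Real.log (Real.cosh (r + Real.sqrt r * d.2 i)) := fun d => by
    rw [hfac, Real.log_mul (Real.exp_ne_zero _) (Finset.prod_ne_zero_iff.2 fun i _ => (Real.cosh_pos _).ne'),
      Real.log_exp, Real.log_prod fun i _ => (Real.cosh_pos _).ne']
    simp [hb, sh, shv, mul_add, Real.mul_self_sqrt hr]
  simp_rw [e]
  have hi : ∀ i, Integrable (fun d : Dat N => Real.log (Real.cosh (r + Real.sqrt r * d.2 i))) (nullM N) := fun i =>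
    Integrable.comp_snd ((measurePreserving_eval (fun _ : Fin N => gaussianReal 0 1) i).integrable_comp_of_integrable h1) _
  rw [integral_add (integrable_const _) (integrable_finsetSum _ fun i _ => hi i), integral_finsetSum _ fun i _ => hi i]
  have hv : ∀ i, ∫ d : Dat N, Real.log (Real.cosh (r + Real.sqrt r * d.2 i)) ∂nullM N
      = cubeInfo r + r / 2 := fun i => by
    rw [nullM, integral_fun_snd (fun z : Fin N → ℝ => Real.log (Real.cosh (r + Real.sqrt r * z i))), gaussVec,
      integral_comp_eval (μ := fun _ : Fin N => gaussianReal 0 1) (i := i)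
        (f := fun z : ℝ => Real.log (Real.cosh (r + Real.sqrt r * z))) h1.aestronglyMeasurable]
    simp [cubeInfo]
  simp_rw [hv]
  simp
  ring

lemma ent_tangent {x y : ℝ} (hx : 0 < x) (hy : 0 < y) :
    ent y + (Real.log y + 1) * (x - y) ≤ ent x := by
  have h := Real.log_le_sub_one_of_pos (div_pos hy hx)
  rw [Real.log_div hy.ne' hx.ne'] at h
  have h' := mul_le_mul_of_nonneg_left h hx.le
  rw [mul_sub x (y / x), mul_div_cancel₀ _ hx.ne', mul_one] at h'
  simp only [ent]
  linarith

/-- Convexity of `x log x` in the couplings. -/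
theorem Fe_beta_bounds {M : ℝ} (hl : ∀ i, |l i| ≤ M) (hβ : 0 ≤ β) {r : ℝ} (hr : 0 ≤ r) :
    Fe 0 l r ≤ Fe β l r ∧ Fe β l r ≤ Fe 0 l r + N * M * β := by
  have h0 : ∀ (d : Dat N) (b : Cfg N), pwt β l r d b = base β l d.1 b * pwt 0 l r d b := fun d b => by
    simp [pwt, base, zbar, P166.wt]
  have hz : ∀ d : Dat N, ∀ U : OMat N, lik 0 l r (U, d.2) = lik 0 l r d := fun d U => by
    simp [lik, pwt, base, zbar, P166.wt]
  have hgz : ∀ F : Dat N → ℝ, (∀ (d : Dat N) (U : OMat N), F (U, d.2) = F d) → Gd F →
      ∫ d, lik β l r d * F d ∂nullM N = ∫ d, lik 0 l r d * F d ∂nullM N := by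
    intro F hF hg
    have i1 := ((gd_lik β l r).mul hg).integrable
    have i2 := ((gd_lik 0 l r).mul hg).integrable
    simp only [nullM] at i1 i2 ⊢
    rw [integral_prod_symm _ i1, integral_prod_symm _ i2]
    refine integral_congr_ae (ae_of_all _ fun z => ?_)
    have ef : ∀ U : OMat N, F (U, z) = F (1, z) := fun U => hF (1, z) U
    have e1 : ∀ U : OMat N, lik 0 l r (U, z) = lik 0 l r (1, z) := fun U => hz (1, z) U
    have el : ∀ U : OMat N, lik β l r (U, z) = (2⁻¹ : ℝ) ^ N * ∑ b, base β l U b * pwt 0 l r (1, z) b := fun U => by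
      simp [lik, pwt, base, zbar, P166.wt]
    simp only [ef, e1, integral_mul_const, integral_const, probReal_univ, one_smul]
    congr 1
    simp only [el]
    rw [integral_const_mul, integral_finsetSum _ fun b _ =>
      (P166.integrable_of_continuous (continuous_base β l b)).mul_const _]
    simp [lik, integral_mul_const, integral_base]
  have g0 := gd_log_lik 0 l r
  have glog := hgz (fun d => Real.log (lik 0 l r d)) (fun d U => by rw [hz]) g0
  have hmass := (integral_lik β l hr).trans (integral_lik 0 l hr).symm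
  constructor
  · have hle : ∀ d : Dat N, ent (lik 0 l r d) + ((lik β l r d * Real.log (lik 0 l r d) - lik 0 l r d * Real.log (lik 0 l r d)) + (lik β l r d - lik 0 l r d)) ≤ ent (lik β l r d) :=
      fun d => le_trans (le_of_eq (by ring)) (ent_tangent (lik_pos β l r d) (lik_pos 0 l r d))
    have a1 := (gd_ent_lik 0 l r).integrable
    have a2 := ((gd_lik β l r).mul g0).integrable
    have a3 := ((gd_lik 0 l r).mul g0).integrable
    have a4 := (gd_lik β l r).integrable
    have a5 := (gd_lik 0 l r).integrable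
    have a23 : Integrable (fun d => lik β l r d * Real.log (lik 0 l r d) - lik 0 l r d * Real.log (lik 0 l r d)) (nullM N) := a2.sub a3
    have a45 : Integrable (fun d => lik β l r d - lik 0 l r d) (nullM N) := a4.sub a5
    have h := integral_mono (a1.fun_add (a23.fun_add a45)) (gd_ent_lik β l r).integrable hle
    rw [integral_add a1 (a23.fun_add a45), integral_add a23 a45, integral_sub a2 a3, integral_sub a4 a5,
      glog, hmass] at h
    simpa [Fe] using h
  · set B := (N : ℝ) * M * β with hB
    have hc : ∀ (U : OMat N) (b : Cfg N), |β / 2 * ∑ i, l i * coord U b i| ≤ B / 2 := fun U b => by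
      rw [abs_mul, abs_of_nonneg (div_nonneg hβ two_pos.le)]
      have h1 : |∑ i, l i * coord U b i| ≤ M * N := by
        rw [← sum_coord U b, Finset.mul_sum]
        refine (Finset.abs_sum_le_sum_abs _ _).trans (Finset.sum_le_sum fun i _ => ?_)
        rw [abs_mul, abs_of_nonneg (coord_nonneg U b i)]
        exact mul_le_mul_of_nonneg_right (hl i) (coord_nonneg U b i)
      calc β / 2 * |∑ i, l i * coord U b i| ≤ β / 2 * (M * N) :=
            mul_le_mul_of_nonneg_left h1 (div_nonneg hβ two_pos.le)
        _ = B / 2 := by rw [hB]; ring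
    have hwl : ∀ (U : OMat N) (b : Cfg N),
        Real.exp (-(B / 2)) ≤ P166.wt β l U b ∧ P166.wt β l U b ≤ Real.exp (B / 2) := fun U b =>
      ⟨Real.exp_le_exp.2 (abs_le.1 (hc U b)).1, Real.exp_le_exp.2 (abs_le.1 (hc U b)).2⟩
    have hzb : Real.exp (-(B / 2)) ≤ zbar β l ∧ zbar β l ≤ Real.exp (B / 2) := by
      have hi := P166.integrable_of_continuous (P166.continuous_wt β l (ones N))
      constructor
      · simpa [zbar] using integral_mono (integrable_const _) hi fun U => (hwl U (ones N)).1
      · simpa [zbar] using integral_mono hi (integrable_const _) fun U => (hwl U (ones N)).2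
    have hbb : ∀ (U : OMat N) (b : Cfg N), base β l U b ≤ Real.exp B := fun U b => by
      rw [base, div_le_iff₀ (zbar_pos β l)]
      refine ((hwl U b).2).trans ((le_of_eq ?_).trans (mul_le_mul_of_nonneg_left hzb.1 (Real.exp_pos _).le))
      rw [← Real.exp_add]; congr 1; ring
    have hle : ∀ d : Dat N, ent (lik β l r d) ≤ lik β l r d * Real.log (lik 0 l r d) + lik β l r d * B := fun d => by
      have hL : lik β l r d ≤ Real.exp B * lik 0 l r d := by
        simp only [lik]
        rw [mul_left_comm, Finset.mul_sum Finset.univ _ (Real.exp B)]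
        exact mul_le_mul_of_nonneg_left (Finset.sum_le_sum fun b _ => by
          rw [h0]; exact mul_le_mul_of_nonneg_right (hbb _ b) (pwt_pos 0 l r d b).le) (by positivity)
      have h2 := Real.log_le_log (lik_pos β l r d) hL
      rw [Real.log_mul (Real.exp_ne_zero _) (lik_pos 0 l r d).ne', Real.log_exp] at h2
      simp only [ent]
      rw [← mul_add]
      exact mul_le_mul_of_nonneg_left (h2.trans (le_of_eq (add_comm _ _))) (lik_pos β l r d).le
    have a2 := ((gd_lik β l r).mul g0).integrable
    have a4 := ((gd_lik β l r).integrable).mul_const B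
    have h := integral_mono (gd_ent_lik β l r).integrable (a2.fun_add a4) hle
    rw [integral_add a2 a4, glog, integral_mul_const, integral_lik β l hr, one_mul] at h
    simpa [Fe, ent] using h

end

end Vale.Agent.P166.Plant
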