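import Vale.Agent.P166.Plant.Model
import Vale.Agent.P166.Plant.Scalar
import Vale.Agent.P166.Plant.Side
import Vale.Agent.P166.Plant.ConcCore

/-!
Concentration of the log-likelihood under planting.
-/

open MeasureTheory ProbabilityTheory Filter Topology Set Matrix
open Vale.Agent.P157.Plant (Cfg ones sp xr ovl lin absSum)
open Vale.Agent.P157 (gaussVec)
open Vale.Agent.P166.High (act gauss)
open Vale.Agent.P166.High.Planted (len cv matK)

namespace Vale.Agent.P166.Plant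

noncomputable section

variable {N : ℕ}

private lemma tilt_params {M η b₀ β : ℝ} (hb₀ : 0 < b₀) (hN : 0 < N) {l : Fin N → ℝ}
    (T : Tame M η β l) {b : ℝ} (hb : b ∈ Icc b₀ β) :
    (∀ i, |b * l i| ≤ β * |M| + 1 + 1 / (b₀ * η)) ∧
      |b * root l b| ≤ β * |M| + 1 + 1 / (b₀ * η) ∧
      (∀ i, b₀ * η ≤ b * root l b - b * l i) ∧
      ∑ i, (b * root l b - b * l i)⁻¹ = N ∧
      ((b * root l b - 1) * N - ∑ i, Real.log (b * root l b - b * l i)) / 2 = N * phiN l b := by
  have hb0 : 0 < b := hb₀.trans_le hb.1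
  obtain ⟨h1, h2, h3⟩ := root_spec hN T hb0 hb.2
  have hN' : (N : ℝ) ≠ 0 := Nat.cast_ne_zero.2 hN.ne'
  have hη := T.pos
  have hgap : ∀ i, b₀ * η ≤ b * root l b - b * l i := fun i => by
    calc b₀ * η ≤ b * η := mul_le_mul_of_nonneg_right hb.1 hη.le
      _ ≤ b * (root l b - l i) := mul_le_mul_of_nonneg_left (by linarith [h1 i]) hb0.le
      _ = _ := by ring
  have hbM : b * |M| ≤ β * |M| := mul_le_mul_of_nonneg_right hb.2 (abs_nonneg M)
  have hinv : 0 ≤ 1 / (b₀ * η) := by positivity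
  refine ⟨fun i => ?_, ?_, hgap, ?_, ?_⟩
  · rw [abs_mul, abs_of_pos hb0]
    linarith [mul_le_mul_of_nonneg_left ((T.bdd i).trans (le_abs_self M)) hb0.le]
  · have i : Fin N := ⟨0, hN⟩
    have hlo : -|M| ≤ root l b := by
      linarith [h1 i, (abs_le.1 ((T.bdd i).trans (le_abs_self M))).1]
    have hhi : b * root l b ≤ b * |M| + 1 := by
      refine (mul_le_mul_of_nonneg_left h3 hb0.le).trans ?_
      rw [mul_add, mul_one_div_cancel hb0.ne']
      linarith [mul_le_mul_of_nonneg_left (le_abs_self M) hb0.le]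
    refine abs_le.2 ⟨?_, by linarith⟩
    linarith [mul_le_mul_of_nonneg_left hlo hb0.le]
  · simp only [← mul_sub, mul_inv]
    rw [← Finset.mul_sum]
    have : ∑ i, (root l b - l i)⁻¹ = b * N := by
      rw [empG, div_eq_iff hN'] at h2
      exact h2
    rw [this]
    field_simp
  · have e : ∀ i, Real.log (b * root l b - b * l i) = Real.log b + Real.log (root l b - l i) := by
      intro i
      rw [← mul_sub, Real.log_mul hb0.ne' (by linarith [h1 i] : (0 : ℝ) < root l b - l i).ne']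
    simp only [e, Finset.sum_add_distrib, Finset.sum_const, Finset.card_univ, Fintype.card_fin,
      nsmul_eq_mul, phiN, if_neg (not_le.2 hb0)]
    field_simp
    ring

private lemma zbar_eq (b : ℝ) (l : Fin N → ℝ) :
    zbar b l = ∫ U, Real.exp ((∑ i, b * l i * act U (fun _ => (1 : ℝ)) i ^ 2) / 2) ∂haarO N := by
  refine integral_congr_ae (ae_of_all _ fun U => ?_)
  have e : spin (ones N) = fun _ => (1 : ℝ) := by funext i; simp [spin, ones]
  simp only [P166.wt, coord, e, Finset.mul_sum, Finset.sum_div]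
  congr 1
  exact Finset.sum_congr rfl fun i _ => by simp only [act]; ring

theorem log_zbar_near (M η b₀ β ε : ℝ) (hb₀ : 0 < b₀) (hε : 0 < ε) :
    ∃ N0 : ℕ, ∀ N ≥ N0, ∀ l : Fin N → ℝ, Tame M η β l → ∀ b ∈ Icc b₀ β,
      |Real.log (zbar b l) / N - phiN l b| ≤ ε := by
  by_cases hd : b₀ ≤ β ∧ 0 < η
  swap
  · exact ⟨0, fun N _ l T b hb => absurd ⟨hb.1.trans hb.2, T.pos⟩ hd⟩
  obtain ⟨hββ, hη⟩ := hd
  obtain ⟨M1, hM1⟩ : ∃ M1, M1 = β * |M| + 1 + 1 / (b₀ * η) := ⟨_, rfl⟩
  have hβ : 0 ≤ β := hb₀.le.trans hββ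
  have hM10 : 0 < M1 := hM1 ▸ by positivity
  obtain ⟨ε₁, hε₁, Nu, hu⟩ := High.sph_upper M1 ε hε
  obtain ⟨η', hη', Nl, hl⟩ := High.sph_lower M1 ε hM10 hε
  refine ⟨max Nu Nl + 1, fun N hN l T b hb => ?_⟩
  have hNp : 0 < N := by omega
  have hN' : (0 : ℝ) < N := Nat.cast_pos.2 hNp
  obtain ⟨hc, hθ, hgap, hsum, hphi⟩ := tilt_params hb₀ hNp T hb
  rw [← hM1] at hc hθ
  have hg : 0 < b₀ * η := mul_pos hb₀ hη
  have hv : High.sq (fun _ : Fin N => (1 : ℝ)) = N := by simp [High.sq]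
  have hM1g : 1 / M1 ≤ b₀ * η := by
    rw [div_le_iff₀ hM10, hM1]
    have : b₀ * η * (1 / (b₀ * η)) = 1 := by field_simp
    nlinarith [mul_nonneg hg.le (show (0 : ℝ) ≤ β * |M| + 1 by positivity)]
  have h1 := hu N (by omega) (haarO N) ∅ High.sub_haar (by simp; positivity) (fun _ => 1) (by simp)
    hv (fun i => b * l i) (b * root l b) hc hθ (fun i _ => by linarith [hgap i])
  have h2 := hl N (by omega) (fun _ => 1) hv (fun i => b * l i) (b * root l b) hc hθ
    (fun i => hM1g.trans (hgap i)) (by rw [hsum, div_self hN'.ne', sub_self, abs_zero]; exact hη'.le)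
  rw [Finset.compl_empty, hphi, ← zbar_eq] at h1
  rw [hphi, ← zbar_eq] at h2
  have h1' := (Real.log_le_iff_le_exp (zbar_pos b l)).2 h1
  have h2' := (Real.le_log_iff_exp_le (zbar_pos b l)).2 h2
  rw [show Real.log (zbar b l) / N - phiN l b = (Real.log (zbar b l) - N * phiN l b) / N by
    field_simp, abs_div, Nat.abs_cast, div_le_iff₀ hN', abs_le]
  constructor <;> linarith

private lemma len_orth (U : OMat N) (v : Fin N → ℝ) :
    len ((U : Matrix (Fin N) (Fin N) ℝ) *ᵥ v) = len v := congrArg Real.sqrt (High.sq_act U v)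

private lemma core (M η b₀ β R δ : ℝ) (hb₀ : 0 < b₀) (hδ : 0 < δ) :
    ∃ C c : ℝ, 0 ≤ C ∧ 0 < c ∧ ∃ N0 : ℕ, ∀ N ≥ N0, ∀ l : Fin N → ℝ, Tame M η β l →
      ∀ b ∈ Icc b₀ β, ∀ r ∈ Icc (0 : ℝ) R, ∃ m : ℝ, |m| ≤ C * N ∧
        ∫ d, base b l d.1 (ones N) * {d : Dat N | δ * N ≤ |fe b l r d - m|}.indicator 1 d ∂nullM N
          ≤ Real.exp (-(c * N)) := by
  classical
  by_cases hd : b₀ ≤ β ∧ 0 < η
  swap
  · exact ⟨0, 1, le_rfl, one_pos, 0, fun N _ l T b hb => absurd ⟨hb.1.trans hb.2, T.pos⟩ hd⟩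
  obtain ⟨hββ, hη⟩ := hd
  have hβ : 0 ≤ β := hb₀.le.trans hββ
  obtain ⟨M1, hM1⟩ : ∃ M1, M1 = β * |M| + 1 + 1 / (b₀ * η) := ⟨_, rfl⟩
  have hM10 : 0 < M1 := hM1 ▸ by positivity
  obtain ⟨K, hK⟩ : ∃ K, K = 2 * |M1| + 1 := ⟨_, rfl⟩
  have hK0 : 0 < K := hK ▸ by positivity
  obtain ⟨A', hA'⟩ : ∃ A', A' = β * |M| + 1 := ⟨_, rfl⟩
  have hA0 : 0 < A' := hA' ▸ by positivity
  obtain ⟨κ, hκdef⟩ : ∃ κ, κ = min (1 / 4) (δ ^ 2 / (24 * A' ^ 2)) := ⟨_, rfl⟩
  have hκ : 0 < κ := hκdef ▸ lt_min (by norm_num) (by positivity)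
  have hκ4 : κ ≤ 1 / 4 := hκdef ▸ min_le_left _ _
  have hκδ : A' * Real.sqrt (6 * κ) ≤ δ / 2 := by
    have h : κ ≤ δ ^ 2 / (24 * A' ^ 2) := hκdef ▸ min_le_right _ _
    rw [le_div_iff₀ (by positivity)] at h
    refine le_of_pow_le_pow_left₀ two_ne_zero (by positivity) ?_
    rw [mul_pow, Real.sq_sqrt (by positivity)]
    linarith
  obtain ⟨ε, hεdef⟩ : ∃ ε, ε = κ * Real.exp (-(5 / κ)) := ⟨_, rfl⟩
  have hε : 0 < ε := hεdef ▸ by positivity
  obtain ⟨g0, hg0⟩ : ∃ g0, g0 = b₀ * η := ⟨_, rfl⟩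
  have hg : 0 < g0 := hg0 ▸ mul_pos hb₀ hη
  obtain ⟨L, hL⟩ : ∃ L, L = β * |M| * (64 * (Real.sqrt g0)⁻¹ + (Real.sqrt ε)⁻¹)
      + Real.sqrt |R| + 1 := ⟨_, rfl⟩
  have hL0 : 0 < L := hL ▸ by positivity
  obtain ⟨c1, hc1⟩ : ∃ c1, c1 = min (min (2 * (δ / 2) ^ 2 / (Real.pi ^ 2 * L ^ 2)) (g0 / 64)) 1 :=
    ⟨_, rfl⟩
  have hc10 : 0 < c1 := hc1 ▸ lt_min (lt_min (by positivity) (by positivity)) one_pos
  have hc1a : c1 ≤ 2 * (δ / 2) ^ 2 / (Real.pi ^ 2 * L ^ 2) :=
    hc1 ▸ (min_le_left _ _).trans (min_le_left _ _)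
  have hc1b : c1 ≤ g0 / 64 := hc1 ▸ (min_le_left _ _).trans (min_le_right _ _)
  have hc1c : c1 ≤ 1 := hc1 ▸ min_le_right _ _
  obtain ⟨δw, hδw⟩ : ∃ δw, δw = min (1 / 2) (c1 / (4 * K)) := ⟨_, rfl⟩
  have hδw0 : 0 < δw := hδw ▸ lt_min (by norm_num) (by positivity)
  have hδwh : δw ≤ 1 / 2 := hδw ▸ min_le_left _ _
  have hδwK : δw * K ≤ c1 / 4 := by
    have : δw ≤ c1 / (4 * K) := hδw ▸ min_le_right _ _
    rw [le_div_iff₀ (by positivity)] at this
    linarith
  obtain ⟨Nz, hz⟩ := log_zbar_near M η b₀ β (c1 / 4) hb₀ (by positivity)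
  obtain ⟨N1, hN1⟩ := exists_nat_gt (256 / δw ^ 2 + 1 / κ + 32 / c1 + 2)
  refine ⟨β * |M| + 2 * |R| + 1, c1 / 4, by positivity, by positivity, max Nz N1,
    fun N hN l T b hb r hr => ?_⟩
  have hN1' : (N1 : ℝ) ≤ N := Nat.cast_le.2 ((le_max_right _ _).trans hN)
  have p1 : 0 ≤ 256 / δw ^ 2 := by positivity
  have p2 : 0 ≤ 1 / κ := by positivity
  have p3 : 0 ≤ 32 / c1 := by positivity
  have q1 : 256 ≤ δw ^ 2 * N := by
    rw [← div_le_iff₀' (by positivity)]; linarith
  have q2 : 1 ≤ κ * N := by rw [← div_le_iff₀' hκ]; linarith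
  have q3 : 32 ≤ c1 * N := by rw [← div_le_iff₀' hc10]; linarith
  have q4 : (2 : ℝ) ≤ N := by linarith
  have hN' : (0 : ℝ) < N := by linarith
  have hNp : 0 < N := Nat.cast_pos.1 hN'
  obtain ⟨hc, hθ, hgap, hsum, hphi⟩ := tilt_params hb₀ hNp T hb
  rw [← hM1] at hc hθ
  rw [← hg0] at hgap
  have hb0 : 0 ≤ b := hb₀.le.trans hb.1
  -- the frame
  have hk2 : (⌈κ * (N : ℝ)⌉₊ : ℝ) < κ * N + 1 := Nat.ceil_lt_add_one (by positivity)
  have hkN : ⌈κ * (N : ℝ)⌉₊ ≤ (Finset.univ : Finset (Fin N)).card := by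
    rw [Finset.card_univ, Fintype.card_fin]
    refine Nat.ceil_le.2 ?_
    linarith [mul_le_mul_of_nonneg_right hκ4 hN'.le]
  obtain ⟨A, -, hAc⟩ := Finset.exists_subset_card_eq hkN
  have hA1 : κ * N ≤ A.card := hAc ▸ Nat.le_ceil _
  have hA2 : (A.card : ℝ) ≤ 2 * κ * N := by rw [hAc]; linarith
  obtain ⟨i0, hi0⟩ := Finset.card_pos.1 (Nat.cast_pos.1 (lt_of_lt_of_le (by linarith) hA1))
  obtain ⟨O, hO1, hO2⟩ := High.Planted.exists_frame hi0
  have hkeep : i0 ∉ Aᶜ := fun h => Finset.mem_compl.1 h hi0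
  obtain ⟨q, hqd⟩ : ∃ q : Fin N → ℝ, q = fun i => b * root l b - b * l i - 1 := ⟨_, rfl⟩
  have hq : ∀ i, g0 ≤ 1 + q i := fun i => by rw [hqd]; linarith [hgap i]
  have hqs : ∑ i, (1 + q i)⁻¹ = N := by
    rw [← hsum]
    exact Finset.sum_congr rfl fun i _ => by rw [hqd]; ring_nf
  obtain ⟨m, hm, hconc⟩ := High.Planted.tfun_conc (R := |R|) (δ := δ / 2) hb0 hb.2 hr.1
    (hr.2.trans (le_abs_self R)) (by positivity) T.bdd O hε hg hkeep hq
  rw [← hL] at hconc
  refine ⟨m, hm, ?_⟩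
  -- the defect
  have ha : 0 < ε * (N : ℝ) := mul_pos hε hN'
  have hdef : ∀ U : OMat N, ∃ D : Set (Fin N × Fin N → ℝ),
      (gauss (Fin N × Fin N)).real D ≤ Real.exp (-(N : ℝ)) ∧
      ∀ g, g ∉ D → ∀ ξ, |High.Planted.phi b l r O (U : Matrix (Fin N) (Fin N) ℝ) ξ
        - High.Planted.phi b l r O ((U : Matrix (Fin N) (Fin N) ℝ) * matK (ε * N) i0 Aᶜ g) ξ|
          ≤ δ * N - δ / 2 * N := by
    intro U
    refine ⟨_, hεdef ▸ High.Planted.defect_union hκ A hi0 hA1 hA2 O hO2, fun g hg ξ => ?_⟩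
    have hK1 : ∀ v, len (matK (ε * N) i0 Aᶜ g *ᵥ v) ≤ len v := fun v => by
      obtain ⟨O', -, hOB⟩ := High.Planted.exists_polar (ε * N) i0 Aᶜ g ha hkeep
      rw [← len_orth O', mulVec_mulVec, hOB]
      exact Real.sqrt_le_sqrt (High.Planted.sq_matB_le _ i0 Aᶜ g ha hkeep v)
    refine (High.Planted.phi_lip hb0 T.bdd r O (fun v => (len_orth U v).le)
      (fun v => by rw [← mulVec_mulVec, len_orth]; exact hK1 v) ξ ξ
      (E := Real.sqrt (6 * κ) * Real.sqrt N) fun s => ?_).trans ?_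
    · rw [← mulVec_mulVec, ← mulVec_sub, len_orth, ← Real.sqrt_mul (by positivity)]
      refine Real.sqrt_le_sqrt ?_
      have h := not_exists.1 hg s
      rw [not_lt] at h
      refine le_trans (le_of_eq ?_) h
      simp only [High.sq, Pi.sub_apply]
      exact Finset.sum_congr rfl fun i _ => by ring
    · rw [sub_self, show len (0 : Fin N → ℝ) = 0 by simp [len, High.sq], mul_zero, add_zero,
        show b * |M| * Real.sqrt N * (Real.sqrt (6 * κ) * Real.sqrt N)
          = b * |M| * Real.sqrt (6 * κ) * (Real.sqrt N * Real.sqrt N) by ring,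
        Real.mul_self_sqrt hN'.le]
      have h1 : b * |M| ≤ A' := by
        rw [hA']; linarith [mul_le_mul_of_nonneg_right hb.2 (abs_nonneg M)]
      have h2 := mul_le_mul_of_nonneg_right ((mul_le_mul_of_nonneg_right h1
        (Real.sqrt_nonneg (6 * κ))).trans hκδ) hN'.le
      linarith
  obtain ⟨p, hpm, hp0, hp1, hpb, hmain⟩ :=
    High.Planted.planted_le O ha hkeep hO1 m (δ * N) (δ / 2 * N) hdef
  refine hmain.trans ?_
  have hsph := High.Planted.sphere_le i0 hδw0 hδwh q1 (fun i => b * l i) (b * root l b) hc hθ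
    (fun i => by linarith [hgap i]) hpm hp0 hp1
  rw [hphi, ← hK, ← hqd] at hsph
  have havg := High.Planted.dir_avg_le hg i0 hq hqs O ha Aᶜ m (δ / 2 * N) hp0 hp1 hpb
  -- exponents
  obtain ⟨J, hJ⟩ : ∃ J, J = ∫ g, p (High.Planted.dir (High.Planted.scl q g)) ∂gauss (Fin N) :=
    ⟨_, rfl⟩
  rw [← hJ] at hsph havg
  have hJ0 : 0 ≤ J := hJ ▸ integral_nonneg fun g => hp0 _
  have hJ4 : J ≤ 4 * Real.exp (-(c1 * N)) := by
    have e1 : Real.exp (-(g0 * N / 32)) ≤ Real.exp (-(c1 * N)) := Real.exp_le_exp.2 (by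
      linarith [mul_le_mul_of_nonneg_right hc1b hN'.le, mul_pos hg hN'])
    have e2 : Real.exp (-(g0 * N / 64)) ≤ Real.exp (-(c1 * N)) := Real.exp_le_exp.2 (by
      linarith [mul_le_mul_of_nonneg_right hc1b hN'.le])
    have e3 : Real.exp (-(2 * (δ / 2) ^ 2 / (Real.pi ^ 2 * L ^ 2) * N))
        ≤ Real.exp (-(c1 * N)) :=
      Real.exp_le_exp.2 (by linarith [mul_le_mul_of_nonneg_right hc1a hN'.le])
    linarith
  have hzb : Real.exp (N * phiN l b - c1 / 4 * N) ≤ zbar b l := by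
    rw [← Real.le_log_iff_exp_le (zbar_pos b l)]
    have h := (abs_le.1 (hz N ((le_max_left _ _).trans hN) l T b hb)).1
    rw [le_sub_iff_add_le, le_div_iff₀ hN'] at h
    linarith
  have hrat : (∫ U, Real.exp ((∑ i, b * l i * act U (Real.sqrt N • cv i0) i ^ 2) / 2)
      * p (act U (cv i0)) ∂haarO N) / zbar b l ≤ 8 * Real.exp (-(c1 * N / 2)) := by
    rw [div_le_iff₀ (zbar_pos b l)]
    refine hsph.trans ((mul_le_mul_of_nonneg_left hJ4 (by positivity)).trans ?_)
    refine le_trans (le_of_eq ?_) ((mul_le_mul_of_nonneg_left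
      (Real.exp_le_exp.2 (show δw * K * N / 2 + N * phiN l b + -(c1 * N)
        ≤ -(c1 * N / 2) + (N * phiN l b - c1 / 4 * N) by
          linarith [mul_le_mul_of_nonneg_right hδwK hN'.le, mul_pos hc10 hN']))
      (by norm_num : (0 : ℝ) ≤ 8)).trans ?_)
    · rw [Real.exp_add (δw * K * N / 2 + _)]; ring
    · rw [Real.exp_add, ← mul_assoc]
      exact mul_le_mul_of_nonneg_left hzb (by positivity)
  have hEN : Real.exp (-(N : ℝ)) ≤ Real.exp (-(c1 * N / 2)) := Real.exp_le_exp.2 (by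
    linarith [mul_le_mul_of_nonneg_right hc1c hN'.le])
  have h9 : 9 * Real.exp (-(c1 * N / 2)) ≤ Real.exp (-(c1 / 4 * N)) := by
    rw [show -(c1 / 4 * (N : ℝ)) = c1 * N / 4 + -(c1 * N / 2) by ring, Real.exp_add]
    refine mul_le_mul_of_nonneg_right ?_ (Real.exp_pos _).le
    linarith [Real.add_one_le_exp (c1 * N / 4)]
  linarith

/-- A mean value near which the log-likelihood stays under planting. -/
private lemma mean_near (M η b₀ β R δ : ℝ) (hb₀ : 0 < b₀) (hδ : 0 < δ) :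
    ∃ c : ℝ, 0 < c ∧ ∃ N0 : ℕ, ∀ N ≥ N0, 0 < N ∧ ∀ l : Fin N → ℝ, Tame M η β l →
      ∀ b ∈ Icc b₀ β, ∀ r ∈ Icc (0 : ℝ) R, ∃ m : ℝ,
        Integrable (fun d => base b l d.1 (ones N) * |fe b l r d - m|) (nullM N) ∧
        ∫ d, base b l d.1 (ones N) * |fe b l r d - m| ∂nullM N ≤ 2 * δ * N ∧
        ∫ d, base b l d.1 (ones N) * {d : Dat N | δ * N ≤ |fe b l r d - m|}.indicator 1 d ∂nullM N
          ≤ Real.exp (-(c * N)) := by
  obtain ⟨C, c, hC, hc, N0, hcore⟩ := core M η b₀ β R δ hb₀ hδ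
  obtain ⟨C1, hC1⟩ : ∃ C1, C1 = |β| * |M| + 2 * |R| + C + 2 := ⟨_, rfl⟩
  have hC10 : 0 ≤ C1 := hC1 ▸ by positivity
  obtain ⟨N1, hN1⟩ := exists_nat_gt (16 / δ + 2 * C1 / (δ * c))
  refine ⟨c, hc, max N0 N1 + 1, fun N hN => ⟨by omega, fun l T b hb r hr => ?_⟩⟩
  obtain ⟨m, hm, hbad⟩ := hcore N (by omega) l T b hb r hr
  have hN' : (0 : ℝ) < N := Nat.cast_pos.2 (by omega)
  have hN1' : (N1 : ℝ) ≤ N := Nat.cast_le.2 (by omega)
  have hb0 : 0 ≤ b := hb₀.le.trans hb.1
  obtain ⟨w, hw⟩ : ∃ w : Dat N → ℝ, w = fun d => base b l d.1 (ones N) := ⟨_, rfl⟩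
  have hw0 : ∀ d, 0 ≤ w d := fun d => hw ▸ (base_pos b l _ _).le
  have hwm : Measurable w := hw ▸ (continuous_base b l _).measurable.comp measurable_fst
  have hwb : ∀ d, ‖w d‖ ≤ bdC b l := fun d => by
    rw [Real.norm_eq_abs, abs_of_nonneg (hw0 d), hw]; exact base_le _ _ _ _
  have hfm : Measurable fun d : Dat N => |fe b l r d - m| :=
    (((measurable_lik b l r).comp (measurable_sh r)).log.sub measurable_const).abs
  obtain ⟨tail, htail⟩ : ∃ tail : (Fin N → ℝ) → ℝ,
      tail = {g : Fin N → ℝ | 3 * (N : ℝ) ≤ High.sq g}.indicator High.sq := ⟨_, rfl⟩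
  have hti : Integrable tail (gauss (Fin N)) := by
    rw [htail]
    refine Integrable.indicator ?_ (measurableSet_le measurable_const
      High.continuous_sq.measurable)
    exact integrable_finsetSum _ fun i _ => (High.Planted.gauss_coord_sq i).1
  have hti' : Integrable (fun d : Dat N => tail d.2) (nullM N) := hti.comp_snd (haarO N)
  have hind : MeasurableSet {d : Dat N | δ * N ≤ |fe b l r d - m|} :=
    measurableSet_le measurable_const hfm
  have hi1 : Integrable (fun d => w d * {d : Dat N | δ * N ≤ |fe b l r d - m|}.indicator 1 d)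
      (nullM N) :=
    (((integrable_const (1 : ℝ)).indicator hind).bdd_mul hwm.aestronglyMeasurable
      (ae_of_all _ hwb))
  have hi2 : Integrable (fun d => w d * tail d.2) (nullM N) :=
    hti'.bdd_mul hwm.aestronglyMeasurable (ae_of_all _ hwb)
  have hi0 : Integrable w (nullM N) :=
    (integrable_const (bdC b l)).mono' hwm.aestronglyMeasurable (ae_of_all _ hwb)
  have hint : Integrable (fun d => δ * N * w d
      + C1 * N * (w d * {d : Dat N | δ * N ≤ |fe b l r d - m|}.indicator 1 d)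
      + w d * tail d.2) (nullM N) := ((hi0.const_mul _).add (hi1.const_mul _)).add hi2
  have hpt : ∀ d, w d * |fe b l r d - m| ≤ δ * N * w d
      + C1 * N * (w d * {d : Dat N | δ * N ≤ |fe b l r d - m|}.indicator 1 d)
      + w d * tail d.2 := by
    rintro ⟨U, ξ⟩
    have hkey : |fe b l r (U, ξ) - m| ≤ δ * N
        + C1 * N * {d : Dat N | δ * N ≤ |fe b l r d - m|}.indicator 1 (U, ξ) + tail ξ := by
      have ht0 : 0 ≤ tail ξ := htail ▸ Set.indicator_nonneg (fun y _ => High.sq_nonneg' y) ξ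
      by_cases hd : δ * N ≤ |fe b l r (U, ξ) - m|
      · rw [Set.indicator_of_mem (show (U, ξ) ∈ {d : Dat N | δ * N ≤ |fe b l r d - m|} from hd),
          Pi.one_apply, mul_one]
        have h1 : |fe b l r (U, ξ)| ≤ b * |M| * N + 2 * r * N + High.sq ξ / 2 := by
          rw [High.Planted.fe_eq b l r 1]
          exact High.Planted.abs_phi_le hb0 T.bdd hr.1 1 (fun v => (len_orth _ v).le) ξ
        have h2 := abs_sub (fe b l r (U, ξ)) m
        have h3 := mul_le_mul_of_nonneg_right (mul_le_mul_of_nonneg_right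
          (hb.2.trans (le_abs_self β)) (abs_nonneg M)) hN'.le
        have h4 := mul_le_mul_of_nonneg_right (hr.2.trans (le_abs_self R)) hN'.le
        have h6 := mul_pos hδ hN'
        rw [hC1]
        by_cases h5 : 3 * (N : ℝ) ≤ High.sq ξ
        · rw [htail, Set.indicator_of_mem
            (show ξ ∈ {g : Fin N → ℝ | 3 * (N : ℝ) ≤ High.sq g} from h5)]
          linarith [High.sq_nonneg' ξ]
        · linarith [not_le.1 h5]
      · rw [Set.indicator_of_notMem (show (U, ξ) ∉ {d : Dat N | δ * N ≤ |fe b l r d - m|} from hd),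
          mul_zero]
        linarith [not_le.1 hd]
    have := mul_le_mul_of_nonneg_left hkey (hw0 (U, ξ))
    linarith
  have hI : Integrable (fun d => w d * |fe b l r d - m|) (nullM N) :=
    hint.mono' (hwm.mul hfm).aestronglyMeasurable (ae_of_all _ fun d => by
      rw [Real.norm_eq_abs, abs_of_nonneg (mul_nonneg (hw0 d) (abs_nonneg _))]
      exact hpt d)
  subst hw
  refine ⟨m, hI, ?_, hbad⟩
  refine (integral_mono hI hint hpt).trans ?_
  rw [integral_add ((hi0.const_mul _).fun_add (hi1.const_mul _)) hi2,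
    integral_add (hi0.const_mul _) (hi1.const_mul _), integral_const_mul, integral_const_mul]
  have e0 : ∫ d, base b l d.1 (ones N) ∂nullM N = 1 := by
    show ∫ d, base b l d.1 (ones N) ∂(haarO N).prod (gauss (Fin N)) = 1
    rw [integral_fun_fst (fun U => base b l U (ones N)), integral_base, probReal_univ, one_smul]
  have e2 : ∫ d, base b l d.1 (ones N) * tail d.2 ∂nullM N ≤ 8 := by
    show ∫ d, base b l d.1 (ones N) * tail d.2 ∂(haarO N).prod (gauss (Fin N)) ≤ 8
    rw [integral_prod_mul (fun U => base b l U (ones N)) tail, integral_base, one_mul, htail]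
    exact High.Planted.sq_tail_mean
  rw [e0]
  have e3 := mul_le_mul_of_nonneg_left hbad (show 0 ≤ C1 * (N : ℝ) by positivity)
  have e4 : C1 * N * Real.exp (-(c * N)) ≤ δ / 2 * N := by
    have h1 : Real.exp (-(c * N)) * (c * N) ≤ 1 := by
      rw [Real.exp_neg, inv_mul_le_iff₀ (Real.exp_pos _), mul_one]
      linarith [Real.add_one_le_exp (c * (N : ℝ))]
    have h2 : 2 * C1 ≤ δ * c * N := by
      rw [← div_le_iff₀' (by positivity)]
      linarith [show 0 ≤ 16 / δ by positivity]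
    have h4 : C1 * Real.exp (-(c * N)) ≤ δ / 2 := by
      refine le_of_mul_le_mul_right ?_ (mul_pos hc hN')
      calc C1 * Real.exp (-(c * N)) * (c * N) = C1 * (Real.exp (-(c * N)) * (c * N)) := by ring
        _ ≤ C1 * 1 := mul_le_mul_of_nonneg_left h1 hC10
        _ ≤ δ / 2 * (c * N) := by linarith
    linarith [mul_le_mul_of_nonneg_right h4 hN'.le]
  have e5 : 16 ≤ δ * N := by
    rw [← div_le_iff₀' hδ]
    linarith [show 0 ≤ 2 * C1 / (δ * c) by positivity]
  linarith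

private lemma abs_Fe_sub_le {b : ℝ} {l : Fin N → ℝ} {r m : ℝ} (hr : 0 ≤ r)
    (hI : Integrable (fun d => base b l d.1 (ones N) * |fe b l r d - m|) (nullM N)) :
    |Fe b l r - m| ≤ ∫ d, base b l d.1 (ones N) * |fe b l r d - m| ∂nullM N := by
  have hw : Integrable (fun d : Dat N => base b l d.1 (ones N)) (nullM N) :=
    (gd_base b l (ones N)).integrable
  have hf : Integrable (fun d => base b l d.1 (ones N) * (fe b l r d - m)) (nullM N) := by
    refine hI.mono' ?_ (ae_of_all _ fun d => ?_)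
    · exact (((continuous_base b l _).measurable.comp measurable_fst).mul
        (((measurable_lik b l r).comp (measurable_sh r)).log.sub measurable_const)).aestronglyMeasurable
    · rw [Real.norm_eq_abs, abs_mul, abs_of_pos (base_pos _ _ _ _)]
  have e0 : ∫ d, base b l d.1 (ones N) ∂nullM N = 1 := by
    show ∫ d, base b l d.1 (ones N) ∂(haarO N).prod (gauss (Fin N)) = 1
    rw [integral_fun_fst (fun U => base b l U (ones N)), integral_base, probReal_univ, one_smul]
  have e : Fe b l r - m = ∫ d, base b l d.1 (ones N) * (fe b l r d - m) ∂nullM N := by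
    have h : ∫ d, base b l d.1 (ones N) * fe b l r d ∂nullM N
        = ∫ d, base b l d.1 (ones N) * (fe b l r d - m) + m * base b l d.1 (ones N) ∂nullM N :=
      integral_congr_ae (ae_of_all _ fun d => by ring)
    rw [Fe_eq_fe b l hr, h, integral_add hf (hw.const_mul m), integral_const_mul, e0]
    ring
  rw [e]
  refine abs_integral_le_integral_abs.trans (le_of_eq (integral_congr_ae (ae_of_all _ fun d => ?_)))
  simp only [abs_mul, abs_of_pos (base_pos _ _ _ _)]

theorem dev_small (M η b₀ β R ε : ℝ) (hb₀ : 0 < b₀) (hε : 0 < ε) :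
    ∃ N0 : ℕ, ∀ N ≥ N0, ∀ l : Fin N → ℝ, Tame M η β l → ∀ b ∈ Icc b₀ β, ∀ r ∈ Icc (0 : ℝ) R,
      dev b l r ≤ ε * N := by
  obtain ⟨c, -, N0, h⟩ := mean_near M η b₀ β R (ε / 4) hb₀ (by positivity)
  refine ⟨N0, fun N hN l T b hb r hr => ?_⟩
  obtain ⟨m, hI, hle, -⟩ := (h N hN).2 l T b hb r hr
  have hF := abs_Fe_sub_le hr.1 hI
  have hw : Integrable (fun d : Dat N => base b l d.1 (ones N)) (nullM N) :=
    (gd_base b l (ones N)).integrable
  have e0 : ∫ d, base b l d.1 (ones N) ∂nullM N = 1 := by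
    show ∫ d, base b l d.1 (ones N) ∂(haarO N).prod (gauss (Fin N)) = 1
    rw [integral_fun_fst (fun U => base b l U (ones N)), integral_base, probReal_univ, one_smul]
  refine (integral_mono_of_nonneg (ae_of_all _ fun d => mul_nonneg (base_pos _ _ _ _).le
    (abs_nonneg _)) (hI.add (hw.const_mul |Fe b l r - m|)) (ae_of_all _ fun d => ?_)).trans ?_
  · have h1 := mul_le_mul_of_nonneg_left (abs_sub_le (fe b l r d) m (Fe b l r))
      (base_pos b l d.1 (ones N)).le
    rw [abs_sub_comm m] at h1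
    simp only [Pi.add_apply]
    linarith
  · simp only [Pi.add_apply]
    rw [integral_add hI (hw.const_mul _), integral_const_mul, e0]
    linarith

/-- Values far below the entropy are exponentially unlikely under planting. -/
theorem planted_tail (M η b₀ β ε : ℝ) (hb₀ : 0 < b₀) (hε : 0 < ε) :
    ∃ c > 0, ∃ N0 : ℕ, ∀ N ≥ N0, ∀ l : Fin N → ℝ, Tame M η β l → ∀ b ∈ Icc b₀ β,
      ∫ U in {U : OMat N | N * pressure b l U - Real.log (zbar b l) ≤ Fe b l 0 - ε * N},
        base b l U (ones N) ∂haarO N ≤ Real.exp (-(c * N)) := by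
  obtain ⟨c, hc, N0, h⟩ := mean_near M η b₀ β 0 (ε / 4) hb₀ (by positivity)
  refine ⟨c, hc, N0, fun N hN l T b hb => ?_⟩
  obtain ⟨hNp, h'⟩ := h N hN
  obtain ⟨m, hI, hle, hbad⟩ := h' l T b hb 0 ⟨le_rfl, le_rfl⟩
  have hF := abs_Fe_sub_le le_rfl hI
  have hN' : (0 : ℝ) < N := Nat.cast_pos.2 hNp
  have hfe : ∀ d : Dat N, fe b l 0 d = N * pressure b l d.1 - Real.log (zbar b l) := by
    intro d
    have hS := sum_wt_pos b l d.1
    simp only [fe, lik, pwt, base, sh, Real.sqrt_zero, zero_mul, zero_div, sub_zero, Real.exp_zero,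
      mul_one]
    rw [← Finset.sum_div, inv_pow, inv_mul_eq_div, div_div, mul_comm (zbar b l), ← div_div,
      Real.log_div (div_pos hS (by positivity)).ne' (zbar_pos b l).ne', pressure_eq,
      mul_div_cancel₀ _ hN'.ne']
  obtain ⟨E, hE⟩ : ∃ E : Set (OMat N),
      E = {U : OMat N | N * pressure b l U - Real.log (zbar b l) ≤ Fe b l 0 - ε * N} := ⟨_, rfl⟩
  have hEm : MeasurableSet E := hE ▸ measurableSet_le
    ((continuous_const.mul (continuous_pressure b l)).sub continuous_const).measurable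
    measurable_const
  rw [← hE]
  refine le_trans ?_ hbad
  rw [← integral_indicator hEm]
  have hi : Integrable (fun U => E.indicator (fun U => base b l U (ones N)) U) (haarO N) :=
    (P166.integrable_of_continuous (continuous_base b l (ones N))).indicator hEm
  have e : ∫ U, E.indicator (fun U => base b l U (ones N)) U ∂haarO N
      = ∫ d, E.indicator (fun U => base b l U (ones N)) d.1 ∂nullM N := by
    show _ = ∫ d, E.indicator (fun U => base b l U (ones N)) d.1 ∂(haarO N).prod (gauss (Fin N))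
    rw [integral_fun_fst (fun U => E.indicator (fun U => base b l U (ones N)) U), probReal_univ,
      one_smul]
  rw [e]
  have hfm : Measurable fun d : Dat N => |fe b l 0 d - m| :=
    (((measurable_lik b l 0).comp (measurable_sh 0)).log.sub measurable_const).abs
  have hset : MeasurableSet {d : Dat N | ε / 4 * N ≤ |fe b l 0 d - m|} :=
    measurableSet_le measurable_const hfm
  refine integral_mono_of_nonneg (ae_of_all _ fun d => Set.indicator_nonneg
    (fun U _ => (base_pos b l U _).le) _) ?_ (ae_of_all _ fun d => ?_)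
  · exact ((integrable_const (1 : ℝ)).indicator hset).bdd_mul
      ((continuous_base b l _).measurable.comp measurable_fst).aestronglyMeasurable
      (c := bdC b l) (ae_of_all _ fun d => by
        rw [Real.norm_eq_abs, abs_of_pos (base_pos _ _ _ _)]; exact base_le _ _ _ _)
  · refine High.ind_le (fun hd => ?_) (mul_nonneg (base_pos _ _ _ _).le
      (Set.indicator_nonneg (fun _ _ => zero_le_one) _))
    have hd' : N * pressure b l d.1 - Real.log (zbar b l) ≤ Fe b l 0 - ε * N := by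
      rw [hE] at hd; exact hd
    rw [← hfe] at hd'
    have hmem : d ∈ {d : Dat N | ε / 4 * N ≤ |fe b l 0 d - m|} := by
      show ε / 4 * N ≤ |fe b l 0 d - m|
      linarith [neg_le_abs (fe b l 0 d - m), le_abs_self (Fe b l 0 - m), mul_pos hε hN']
    dsimp only
    rw [Set.indicator_of_mem hmem, Pi.one_apply, mul_one]

end

end Vale.Agent.P166.Plant
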