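import Vale.Agent.P166.Plant.Transfer

/-!
A positive planted entropy gives a gap, the gap propagates up to the edge value, and the
criterion decides the phase.
-/

open MeasureTheory ProbabilityTheory Filter Topology Set
open Vale.Agent.P157.Plant (Cfg ones ent cubeInfo)

namespace Vale.Agent.P166.Plant

noncomputable section

variable {N : ℕ}

/-- A large entropy keeps the log-likelihood away from zero. -/
lemma away_from_zero (hN : 0 < N) {b δ ε c : ℝ} {l : Fin N → ℝ} (hεδ : ε < δ / 2)
    (hF : δ * N ≤ Fe b l 0)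
    (htail : ∫ U in {U : OMat N | N * pressure b l U - Real.log (zbar b l) ≤ Fe b l 0 - δ / 2 * N},
        base b l U (ones N) ∂haarO N ≤ Real.exp (-(c * N))) :
    (haarO N).real {U | -(ε * N) ≤ logL b l U}
      ≤ Real.exp (-(ε * N)) + Real.exp (ε * N) * Real.exp (-(c * N)) := by
  have hn : (0 : ℝ) < N := Nat.cast_pos.2 hN
  set g := fun U : OMat N => logL b l U
  have hg : Continuous g := continuous_logL b l
  have hi := P166.integrable_of_continuous hg.rexp
  have h1 : ε * N < δ / 2 * N := mul_lt_mul_of_pos_right hεδ hn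
  set D := {U : OMat N | g U ∈ Icc (-(ε * N)) (ε * N)}
  have hD : MeasurableSet D := hg.measurable measurableSet_Icc
  have hsub : {U : OMat N | -(ε * N) ≤ logL b l U} ⊆ {U | ε * N ≤ logL b l U} ∪ D := fun U hU => by
    rcases le_total (ε * N) (logL b l U) with h | h
    · exact Or.inl h
    · exact Or.inr ⟨hU, h⟩
  have hQ : Real.exp (-(ε * N)) * (haarO N).real D ≤ Real.exp (-(c * N)) := by
    set T := {U : OMat N | g U ∈ Iic (Fe b l 0 - δ / 2 * N)}
    have hDT : D ⊆ T := fun U hU => by
      simp only [T, Set.mem_ofPred_eq, Set.mem_Iic]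
      linarith [hU.2]
    calc Real.exp (-(ε * N)) * (haarO N).real D = ∫ _U in D, Real.exp (-(ε * N)) ∂haarO N := by
          rw [setIntegral_const, smul_eq_mul, mul_comm]
      _ ≤ ∫ U in D, Real.exp (g U) ∂haarO N :=
          setIntegral_mono_on (integrable_const _).integrableOn hi.integrableOn hD
            fun U hU => Real.exp_le_exp.2 hU.1
      _ ≤ ∫ U in T, Real.exp (g U) ∂haarO N :=
          setIntegral_mono_set hi.integrableOn (ae_of_all _ fun U => (Real.exp_pos _).le) hDT.eventuallyLE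
      _ = ∫ U in T, base b l U (ones N) ∂haarO N := (planted_logL hN b l measurableSet_Iic).symm
      _ ≤ _ := htail
  refine (measureReal_mono hsub).trans ((measureReal_union_le _ _).trans
    (add_le_add (logL_markov hN b l (ε * N)) ?_))
  have h2 := mul_le_mul_of_nonneg_left hQ (Real.exp_pos (ε * N)).le
  rwa [← mul_assoc, ← Real.exp_add, add_neg_cancel, Real.exp_zero, one_mul] at h2

lemma pressure_temp (hN : 0 < N) {M : ℝ} {l : Fin N → ℝ} (hl : ∀ i, |l i| ≤ M) (β β' : ℝ)
    (U : OMat N) : |pressure β l U - pressure β' l U| ≤ |β - β'| * M / 2 := by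
  have hn : (0 : ℝ) < N := Nat.cast_pos.2 hN
  have key : ∀ x y : ℝ, pressure y l U ≤ pressure x l U + |y - x| * M / 2 := fun x y => by
    rw [pressure_eq, pressure_eq, div_le_iff₀ hn, add_mul, div_mul_cancel₀ _ hn.ne']
    have h : (∑ s, P166.wt y l U s) / 2 ^ N
        ≤ Real.exp (|y - x| * M / 2 * N) * ((∑ s, P166.wt x l U s) / 2 ^ N) := by
      rw [mul_div_assoc', Finset.mul_sum]
      refine div_le_div_of_nonneg_right (Finset.sum_le_sum fun s _ => ?_) (by positivity)
      refine (wt_ratio hl x y U s).trans (le_of_eq ?_)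
      ring_nf
    have h2 := Real.log_le_log (div_pos (sum_wt_pos y l U) (by positivity)) h
    rw [Real.log_mul (Real.exp_ne_zero _) (div_pos (sum_wt_pos x l U) (by positivity)).ne',
      Real.log_exp] at h2
    linarith
  have h1 := key β' β
  have h2 := key β β'
  rw [abs_sub_comm β' β] at h2
  rw [abs_le]
  constructor <;> linarith

lemma mean_pressure_temp (hN : 0 < N) {M : ℝ} {l : Fin N → ℝ} (hl : ∀ i, |l i| ≤ M) (β β' : ℝ) :
    |(∫ U, pressure β l U ∂haarO N) - ∫ U, pressure β' l U ∂haarO N| ≤ |β - β'| * M / 2 := by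
  have hi := fun x => P166.integrable_of_continuous (P166.continuous_pressure (N := N) x l)
  rw [← integral_sub (hi β) (hi β')]
  refine (abs_integral_le_integral_abs).trans ((integral_mono ((hi β).sub (hi β')).abs
    (integrable_const _) fun U => pressure_temp hN hl β β' U).trans (le_of_eq ?_))
  simp

lemma cubeInfo_bounds {r : ℝ} (hr : 0 ≤ r) : r / 2 - Real.log 2 ≤ cubeInfo r := by
  have habs : Integrable (fun z : ℝ => z) (gaussianReal 0 1) :=
    (memLp_id_gaussianReal' 1 ENNReal.one_ne_top).integrable le_rfl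
  have hlc : ∀ x, x - Real.log 2 ≤ Real.log (Real.cosh x) := fun x => by
    have h : Real.exp x ≤ 2 * Real.cosh x := by
      rw [Real.cosh_eq]; linarith [Real.exp_pos (-x)]
    have h2 := Real.log_le_log (Real.exp_pos x) h
    rw [Real.log_exp, Real.log_mul two_ne_zero (Real.cosh_pos x).ne'] at h2
    linarith
  have hi : Integrable (fun z => Real.log (Real.cosh (r + Real.sqrt r * z))) (gaussianReal 0 1) := by
    refine ((integrable_const r).add (habs.abs.const_mul (Real.sqrt r))).mono'
      ((Real.continuous_cosh.log fun x => (Real.cosh_pos x).ne').comp (by fun_prop)).aestronglyMeasurable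
      (ae_of_all _ fun z => ?_)
    refine (Vale.Agent.P157.Plant.abs_log_cosh_le' _).trans ((abs_add_le _ _).trans (le_of_eq ?_))
    simp [abs_of_nonneg hr, abs_mul, abs_of_nonneg (Real.sqrt_nonneg r)]
  have h : ∫ z, (r + Real.sqrt r * z - Real.log 2) ∂gaussianReal 0 1
      ≤ ∫ z, Real.log (Real.cosh (r + Real.sqrt r * z)) ∂gaussianReal 0 1 :=
    integral_mono (((integrable_const r).add (habs.const_mul _)).sub (integrable_const _)) hi fun z => hlc _
  have e : ∫ z, (r + Real.sqrt r * z - Real.log 2) ∂gaussianReal 0 1 = r - Real.log 2 := by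
    have i1 : Integrable (fun z => r + Real.sqrt r * z) (gaussianReal 0 1) :=
      (integrable_const r).add (habs.const_mul _)
    rw [integral_sub i1 (integrable_const _),
      integral_add (integrable_const r) (habs.const_mul _), integral_const_mul, integral_id_gaussianReal]
    simp
  rw [e] at h
  unfold cubeInfo
  linarith

/-- A failure of the criterion at one overlap has a positive margin. -/
lemma exists_margin {q K : ℝ} (hq : q < 1) (h : ∀ r, 0 ≤ r → r * q / 2 - cubeInfo r < K) :
    ∃ δ > 0, ∀ r, 0 ≤ r → r * q / 2 - cubeInfo r + δ ≤ K := by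
  set f := fun r : ℝ => r * q / 2 - cubeInfo r
  obtain ⟨Rm, hRm, hR0⟩ : ∃ Rm, 2 * (Real.log 2 - K + 1) / (1 - q) ≤ Rm ∧ (0 : ℝ) ≤ Rm :=
    ⟨max (2 * (Real.log 2 - K + 1) / (1 - q)) 0, le_max_left _ _, le_max_right _ _⟩
  have hlip : ∀ x y, 0 ≤ x → x ≤ y → |cubeInfo y - cubeInfo x| ≤ y - x := fun x y hx hxy => by
    have hs := Fe_slope one_pos 0 (0 : Fin 1 → ℝ) hx hxy
    rw [Fe_zero _ hx, Fe_zero _ (hx.trans hxy)] at hs
    have h0 := qv_nonneg one_pos 0 (0 : Fin 1 → ℝ) x
    have h1 := qv_le_one one_pos 0 (0 : Fin 1 → ℝ) (hx.trans hxy)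
    simp only [Nat.cast_one, one_mul] at hs
    rw [abs_le]; constructor <;> nlinarith
  have hcont : ContinuousOn f (Icc 0 Rm) := by
    refine ContinuousOn.sub (by fun_prop) (LipschitzOnWith.continuousOn (K := 1) ?_)
    refine LipschitzOnWith.of_dist_le_mul fun x hx y hy => ?_
    rw [Real.dist_eq, Real.dist_eq, NNReal.coe_one, one_mul]
    rcases le_total x y with hxy | hxy
    · rw [abs_sub_comm (cubeInfo x), abs_sub_comm x, abs_of_nonneg (sub_nonneg.2 hxy)]
      exact hlip x y hx.1 hxy
    · rw [abs_of_nonneg (sub_nonneg.2 hxy)]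
      exact hlip y x hy.1 hxy
  obtain ⟨x, hx, hmax⟩ := isCompact_Icc.exists_isMaxOn (nonempty_Icc.2 hR0) hcont
  refine ⟨min (K - f x) 1, lt_min (sub_pos.2 (h x hx.1)) one_pos, fun r hr => ?_⟩
  rcases le_total r Rm with hrR | hrR
  · have h0 : f r ≤ f x := hmax ⟨hr, hrR⟩
    have h1 := min_le_left (K - f x) 1
    show f r + min (K - f x) 1 ≤ K
    linarith
  · have h1 := cubeInfo_bounds hr
    rw [div_le_iff₀ (by linarith)] at hRm
    have h2 := mul_le_mul_of_nonneg_right hrR (show 0 ≤ 1 - q by linarith)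
    linarith [min_le_right (K - f x) 1]

section limit

variable {μ : Measure ℝ} {a b : ℝ} {l : (N : ℕ) → Fin N → ℝ}

/-- A failure of the criterion gives a gap of the mean at that temperature. -/
theorem gap_at (A : Admissible μ a b l) {z β q : ℝ} (hz : b < z) (hG : stieltjes μ z = β)
    (hq0 : 0 ≤ q) (hq1 : q < 1) (hfail : ∀ r, 0 ≤ r → r * q / 2 - cubeInfo r < entK μ b z q) :
    ∃ δ > 0, ∀ᶠ N in atTop, ∫ U, pressure β (l N) U ∂haarO N ≤ annealed μ b β - δ := by
  obtain ⟨M, η, hM, hη, hT⟩ := tame_eventually A hz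
  have hβ : 0 < β := hG ▸ High.pot_stieltjes_pos A hz
  rw [hG] at hT
  obtain ⟨d0, hd0, hd⟩ := exists_margin hq1 hfail
  set δ := d0 / 4
  have hδ : 0 < δ := by positivity
  obtain ⟨N0, hN0⟩ := entropy_lower M η β q (d0 / 2) δ hβ hq0 hq1 hδ
  obtain ⟨c, hc, N1, hN1⟩ := planted_tail M η β β (δ / 2) hβ (by positivity)
  set ε := min (δ / 4) (c / 2) with hεdef
  have hε : 0 < ε := lt_min (by positivity) (by positivity)
  have hεN : Tendsto (fun N : ℕ => ε * N) atTop atTop :=
    tendsto_natCast_atTop_atTop.const_mul_atTop hε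
  have hK := (tendsto_KN A hz hG hq0 hq1).eventually_const_le
    (show entK μ b z q - d0 / 2 < entK μ b z q by linarith)
  have hs := (zbar_limit A hz hG).eventually_le_const
    (show annealed μ b β < annealed μ b β + ε / 4 by linarith)
  have hsa := (High.self_averaging_limit A hβ.le).eventually_le_const (show (0 : ℝ) < ε / 8 by positivity)
  refine ⟨ε / 4, by positivity, ?_⟩
  filter_upwards [hT, hK, hs, hsa, hεN.eventually_ge_atTop 7, eventually_ge_atTop (max N0 (N1 + 1))]
    with N T hKN hsN hsaN h8 hN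
  have hN' : 0 < N := by omega
  have hn : (0 : ℝ) < N := Nat.cast_pos.2 hN'
  have hF : δ * N ≤ Fe β (l N) 0 := by
    have h := hN0 N (by omega) (l N) T fun r hr => by linarith [hd r hr]
    have e : (d0 / 2 - δ) = δ := by simp only [δ]; ring
    rwa [e] at h
  have htail := hN1 N (by omega) (l N) T β ⟨le_rfl, le_rfl⟩
  have haway := away_from_zero hN' (lt_of_le_of_lt (min_le_left _ _) (by linarith) : ε < δ / 2) hF htail
  set s := Real.log (zbar β (l N)) / N with hs'
  set E := ∫ U, pressure β (l N) U ∂haarO N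
  by_contra hcon
  rw [not_le] at hcon
  -- then the log-likelihood is above `-εN` with probability at least one half
  have hi := P166.integrable_of_continuous (P166.continuous_pressure β (l N))
  have hm := mul_meas_ge_le_integral_of_nonneg (ae_of_all _ fun U => abs_nonneg (pressure β (l N) U - E))
    ((hi.sub (integrable_const E)).abs) (ε / 2)
  have hsub : {U : OMat N | -(ε * N) ≤ logL β (l N) U}ᶜ ⊆ {U | ε / 2 ≤ |pressure β (l N) U - E|} := fun U hU => by
    simp only [Set.mem_compl_iff, Set.mem_ofPred_eq, not_le, logL] at hU ⊢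
    refine le_trans ?_ (neg_le_abs _)
    have h1 : pressure β (l N) U < s - ε := by
      rw [hs', lt_sub_iff_add_lt, lt_div_iff₀ hn]
      linarith
    linarith
  have hC : MeasurableSet {U : OMat N | -(ε * N) ≤ logL β (l N) U} :=
    measurableSet_le measurable_const (continuous_logL β (l N)).measurable
  have h1 := measureReal_mono (μ := haarO N) hsub
  rw [measureReal_compl hC, probReal_univ] at h1
  have h2 : (haarO N).real {U | ε / 2 ≤ |pressure β (l N) U - E|} ≤ 1 / 4 := by nlinarith
  have h3 : ∀ x : ℝ, ε * N ≤ x → Real.exp (-x) ≤ 1 / 8 := fun x hx => by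
    rw [Real.exp_neg, one_div]
    exact inv_anti₀ (by norm_num) (by linarith [Real.add_one_le_exp x])
  have h4 : Real.exp (ε * N) * Real.exp (-(c * N)) ≤ 1 / 8 := by
    rw [← Real.exp_add, show ε * N + -(c * N) = -((c - ε) * N) by ring]
    refine h3 _ (mul_le_mul_of_nonneg_right ?_ hn.le)
    linarith [min_le_right (δ / 4) (c / 2)]
  have h5 := h3 _ le_rfl
  linarith

/-- A gap propagates upwards, as long as the edge value of `G` is not passed. -/
theorem gap_up (A : Admissible μ a b l) {β0 β δ : ℝ} (hβ0 : 0 < β0) (hle : β0 ≤ β) (hδ : 0 < δ)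
    (hedge : ∀ γ < β, ∃ z, b < z ∧ γ < stieltjes μ z)
    (hgap : ∀ᶠ N in atTop, ∫ U, pressure β0 (l N) U ∂haarO N ≤ annealed μ b β0 - δ) :
    ∀ᶠ N in atTop, ∫ U, pressure β (l N) U ∂haarO N ≤ annealed μ b β - δ / 4 := by
  have hβ : 0 < β := hβ0.trans_le hle
  rcases eq_or_lt_of_le hle with rfl | hlt
  · filter_upwards [hgap] with N hN; linarith
  obtain ⟨M, hM0, hM⟩ := High.exists_bound A
  obtain ⟨r0, hr0, hcont⟩ := High.annealed_cont A hβ (show 0 < δ / 8 by positivity)
  set γ := max β0 (β - min (r0 / 2) (δ / (8 * M + 8))) with hγ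
  have hγlt : γ < β := max_lt hlt (sub_lt_self β (lt_min (by positivity) (by positivity)))
  obtain ⟨zγ, hzγ, hzγ'⟩ := hedge γ hγlt
  obtain ⟨z, hz', hGz⟩ : ∃ z, zγ ≤ z ∧ stieltjes μ z = γ :=
    High.pot_exists_eq A hzγ (hβ0.trans_le (le_max_left _ _)) hzγ'.le
  have hz : b < z := lt_of_lt_of_le hzγ hz'
  obtain ⟨z0, hz0', hGz0⟩ : ∃ z0, z ≤ z0 ∧ stieltjes μ z0 = β0 :=
    High.pot_exists_eq A hz hβ0 (hGz ▸ le_max_left _ _)
  obtain ⟨M', η, -, -, hT⟩ := tame_eventually A hz
  rw [hGz] at hT
  obtain ⟨N0, hN0⟩ := gap_mono M' η γ β0 (δ / 8) hβ0 (by positivity)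
  have l1 := (tendsto_phiN A hz hGz).eventually_le_const
    (show annealed μ b γ < annealed μ b γ + δ / 16 by linarith)
  have l2 := (tendsto_phiN A (hz.trans_le hz0') hGz0).eventually_const_le
    (show annealed μ b β0 - δ / 16 < annealed μ b β0 by linarith)
  filter_upwards [hT, l1, l2, hgap, hM, eventually_ge_atTop (max N0 1)] with N T h1 h2 hg hMN hN
  have hN' : 0 < N := by omega
  have hm := hN0 N (by omega) (l N) T β0 γ le_rfl (le_max_left _ _) le_rfl
  have hd : |β - γ| ≤ min (r0 / 2) (δ / (8 * M + 8)) := by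
    rw [abs_of_nonneg (by linarith)]
    linarith [le_max_right β0 (β - min (r0 / 2) (δ / (8 * M + 8)))]
  have h3 := (abs_le.1 (mean_pressure_temp hN' hMN β γ)).2
  have h4 : |β - γ| * M / 2 ≤ δ / 8 := by
    have h5 := mul_le_mul_of_nonneg_right (hd.trans (min_le_right _ _)) hM0.le
    have h6 : δ / (8 * M + 8) * M ≤ δ / 8 := by
      rw [div_mul_eq_mul_div, div_le_iff₀ (by positivity)]
      nlinarith
    nlinarith [abs_nonneg (β - γ)]
  have h5 := (abs_le.1 (hcont γ (by
    rw [abs_sub_comm]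
    exact lt_of_le_of_lt (hd.trans (min_le_left _ _)) (by linarith)))).2
  linarith

/-- The exact annealed phase. -/
theorem transition (A : Admissible μ a b l) {β : ℝ} (hβ : 0 < β) :
    (AnnealedCond μ b β → ConvergesTo β l (annealed μ b β)) ∧
      (¬ AnnealedCond μ b β → ∃ δ > 0, Tendsto
        (fun N : ℕ => (haarO N).real {U | annealed μ b β - δ ≤ pressure β (l N) U}) atTop (𝓝 0)) := by
  constructor
  · rintro ⟨hedge, hcrit⟩
    refine converges_of_mean A hβ.le ?_
    obtain ⟨M, hM0, hM⟩ := High.exists_bound A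
    rw [Metric.tendsto_atTop]
    intro e he
    obtain ⟨r0, hr0, hcont⟩ := High.annealed_cont A hβ (show 0 < e / 4 by positivity)
    set γ := max (β / 2) (β - min (r0 / 2) (e / (4 * M + 4)))
    have hγlt : γ < β := max_lt (by linarith) (sub_lt_self β (lt_min (by positivity) (by positivity)))
    obtain ⟨zγ, hzγ, hzγ'⟩ := hedge γ hγlt
    obtain ⟨z, hz', hGz⟩ := High.pot_exists_eq A hzγ
      (lt_of_lt_of_le (by linarith) (le_max_left (β / 2) _) : 0 < γ) hzγ'.le
    have hz : b < z := lt_of_lt_of_le hzγ hz'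
    have hlim := converges_at A hz hGz (hcrit z hz (hGz.trans_le hγlt.le))
    obtain ⟨N0, hN0⟩ := Metric.tendsto_atTop.1 hlim (e / 4) (by positivity)
    obtain ⟨N1, hN1⟩ := eventually_atTop.1 hM
    refine ⟨max (max N0 N1) 1, fun N hN => ?_⟩
    have h0 := hN0 N (by omega)
    have hd : |β - γ| ≤ min (r0 / 2) (e / (4 * M + 4)) := by
      rw [abs_of_nonneg (by linarith)]
      linarith [le_max_right (β / 2) (β - min (r0 / 2) (e / (4 * M + 4)))]
    have h1 := abs_le.1 (mean_pressure_temp (N := N) (by omega) (hN1 N (by omega)) β γ)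
    have h4 : |β - γ| * M / 2 ≤ e / 4 := by
      have h5 := mul_le_mul_of_nonneg_right (hd.trans (min_le_right _ _)) hM0.le
      have h6 : e / (4 * M + 4) * M ≤ e / 4 := by
        rw [div_mul_eq_mul_div, div_le_iff₀ (by positivity)]
        nlinarith
      nlinarith [abs_nonneg (β - γ)]
    have h5 := abs_le.1 (hcont γ (by
      rw [abs_sub_comm]
      exact lt_of_le_of_lt (hd.trans (min_le_left _ _)) (by linarith)))
    rw [Real.dist_eq, abs_lt] at h0 ⊢
    constructor <;> linarith [h1.1, h1.2, h5.1, h5.2, h0.1, h0.2]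
  · intro hnot
    by_cases hedge : ∀ γ < β, ∃ z, b < z ∧ γ < stieltjes μ z
    · have hfail : ∃ z, b < z ∧ stieltjes μ z ≤ β ∧ ∃ q, 0 ≤ q ∧ q < 1 ∧
          ∀ r, 0 ≤ r → r * q / 2 - cubeInfo r < entK μ b z q := by
        by_contra hno
        simp only [not_exists, not_and, not_forall, not_lt] at hno
        refine hnot ⟨hedge, fun z hz hGz q hq hq1 => ?_⟩
        obtain ⟨r, hr, h⟩ := hno z hz hGz q hq hq1
        exact ⟨r, hr, h⟩
      obtain ⟨z, hz, hGz, q, hq, hq1, hf⟩ := hfail
      obtain ⟨δ, hδ, hgap⟩ := gap_at A hz rfl hq hq1 hf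
      have h := gap_up A (High.pot_stieltjes_pos A hz) hGz hδ hedge hgap
      exact ⟨δ / 8, by positivity, gap_of_mean A hβ.le (by positivity) (by
        filter_upwards [h] with N hN; linarith)⟩
    · simp only [not_forall, not_exists, not_and, not_lt] at hedge
      obtain ⟨γ, hγ, hG⟩ := hedge
      exact High.strict_gap A hγ hG

end limit

end

end Vale.Agent.P166.Plant
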