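import Vale.Agent.P166.Plant.IncrMain

/-!
The covariance of energy and log-likelihood, for overlap near one and away from one.
-/

open MeasureTheory ProbabilityTheory Filter Topology Set
open Vale.Agent.P157.Plant (Cfg ones sp xr ovl lin absSum ent abs_ovl_le)

namespace Vale.Agent.P166.Plant

noncomputable section

variable {N : ℕ} {b K r z zb : ℝ} {l : Fin N → ℝ}

/-- The covariance of the energy and the log-likelihood. -/
def cov (b : ℝ) (l : Fin N → ℝ) (r : ℝ) : ℝ :=
  EL b l r (fun d => psi b l r d * av b l r d (X1 l d.1))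

/-- The deviation of the resolvent statistic. -/
def devX (b : ℝ) (l : Fin N → ℝ) (r zb : ℝ) : ℝ :=
  EL b l r (fun d => av b l r d fun s => |X1 (rc l zb) d.1 s - empG2 l zb / b|)

lemma inv_astar (hN : 0 < N) (P : Pt K b l zb) (hm : empG l zb = b) :
    0 < empG2 l zb / b ∧ b / empG2 l zb ≤ K := by
  have hb := P.bpos
  have hK : 0 < K := zero_lt_one.trans_le P.one
  have h := empG2_ge hN P hm
  have h0 : 0 < empG2 l zb := (div_pos hb hK).trans_le h
  refine ⟨div_pos h0 hb, ?_⟩
  rw [div_le_iff₀ hK] at h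
  rw [div_le_iff₀ h0]
  linarith

lemma ovl_comm (s s' : Cfg N) : ovl s s' = ovl s' s := by
  simp only [← X2_one (1 : OMat N), X2, mul_comm (xc (1 : OMat N) s _)]

/-- Overlap near one. -/
theorem case_one (hN : 0 < N) (hr : 0 ≤ r) (P : Pt K b l zb) (hm : empG l zb = b) {t : ℝ} (ht : 0 < t) :
    |cov b l r + (b / empG2 l zb - b⁻¹)|
      ≤ 4 * K ^ 5 * dev b l r / N + 8 * K ^ 4 * (EL b l r (fun d => Bv b l r (zb - b⁻¹) d) + t
          + (1 - qv b l r) / t) + K ^ 2 * devX b l r zb := by
  have h1 := P.one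
  have hK : 0 ≤ K := zero_le_one.trans h1
  have hb := P.bpos
  set R := zb - b⁻¹
  have hR : zb = R + b⁻¹ := by simp only [R, sub_add_cancel]
  obtain ⟨ha, ha'⟩ := inv_astar hN P hm
  set as := empG2 l zb / b
  have hias : b / empG2 l zb = as⁻¹ := by simp only [as, inv_div]
  have hX : ∀ U s, 0 < X1 (rc l zb) U s := fun U s =>
    (inv_pos.2 (zero_lt_one.trans_le h1)).trans_le (P.X1_ge hN U s)
  have hXi : ∀ U s, (X1 (rc l zb) U s)⁻¹ ≤ K := fun U s =>
    (inv_anti₀ (inv_pos.2 (zero_lt_one.trans_le h1)) (P.X1_ge hN U s)).trans_eq (inv_inv K)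
  have gO : Gd fun d : Dat N => av b l r d fun s => av b l r d fun s' => ovl s' s :=
    gd_av b l r (fun s => measurable_av b l r fun s' => measurable_const) (B := 1) fun d s =>
      abs_av_le b l r d fun s' => abs_ovl_le s' s
  have gdX := gd_cont (b := b) (l := l) (r := r) (f := fun U s => |X1 (rc l zb) U s - as|)
    fun s => (show Continuous fun U : OMat N => |X1 (rc l zb) U s - as| by unfold X1; fun_prop)
  have gn := gd_num2X (r := r) hN P
  have gB := gd_Bv (b := b) (l := l) (r := r) R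
  have key : |EL b l r (fun d => (av b l r d fun s => (X1 (rc l zb) d.1 s)⁻¹ * num2 b l r (rc l zb) d s)
      - (as⁻¹ - b⁻¹))| ≤ 8 * K ^ 4 * (EL b l r (fun d => Bv b l r R d) + t + (1 - qv b l r) / t)
        + K ^ 2 * devX b l r zb := by
    refine (abs_EL_le (gn.sub (Gd.const _)) (((Gd.const _).mul ((gB.add (Gd.const t)).add
      ((Gd.const t⁻¹).mul ((Gd.const 1).sub gO)))).add ((Gd.const _).mul gdX))
      (g := fun d => 8 * K ^ 4 * (Bv b l r R d + t + t⁻¹ * (1 - av b l r d fun s => av b l r d fun s' => ovl s' s))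
        + K ^ 2 * av b l r d fun s => |X1 (rc l zb) d.1 s - as|) fun d => ?_).trans (le_of_eq ?_)
    · have e : 8 * K ^ 4 * (Bv b l r R d + t + t⁻¹ * (1 - av b l r d fun s => av b l r d fun s' => ovl s' s))
            + K ^ 2 * (av b l r d fun s => |X1 (rc l zb) d.1 s - as|)
          = av b l r d fun s => 8 * K ^ 4 * (|X1 l d.1 s - R| + t + t⁻¹ * (1 - av b l r d fun s' => ovl s' s))
            + K ^ 2 * |X1 (rc l zb) d.1 s - as| := by
        simp only [Bv, av_add, av_mul, av_sub, av_const]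
      rw [e, ← av_const b l r d (as⁻¹ - b⁻¹), ← av_sub]
      refine abs_av_sub_le d _ _ fun s => ?_
      have hn := num2_near_one (r := r) hN P d s hR ht
      set X := X1 (rc l zb) d.1 s with hXdef
      have hXp : 0 < X := hX d.1 s
      have e2 : X⁻¹ * num2 b l r (rc l zb) d s - (as⁻¹ - b⁻¹)
          = X⁻¹ * (num2 b l r (rc l zb) d s - (1 - X / b)) + (as - X) * (X⁻¹ * as⁻¹) := by
        field_simp
        ring
      rw [e2]
      refine (abs_add_le _ _).trans (add_le_add ?_ ?_) <;> rw [abs_mul]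
      · rw [abs_of_pos (inv_pos.2 hXp)]
        refine (mul_le_mul (hXi d.1 s) hn (abs_nonneg _) hK).trans (le_of_eq ?_)
        ring
      · rw [abs_sub_comm, abs_of_pos (mul_pos (inv_pos.2 hXp) (inv_pos.2 ha)), mul_comm (K ^ 2), sq]
        exact mul_le_mul_of_nonneg_left (mul_le_mul (hXi d.1 s) (hias ▸ ha') (inv_pos.2 ha).le hK) (abs_nonneg _)
    · have hq : EL b l r (fun d => av b l r d fun s => av b l r d fun s' => ovl s' s) = qv b l r := by
        simp only [ovl_comm]
        rfl
      rw [EL_add ((Gd.const _).mul ((gB.add (Gd.const t)).add ((Gd.const t⁻¹).mul ((Gd.const 1).sub gO))))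
          ((Gd.const _).mul gdX),
        EL_mul, EL_mul, EL_add (gB.add (Gd.const t)) ((Gd.const t⁻¹).mul ((Gd.const 1).sub gO)),
        EL_add gB (Gd.const t), EL_mul, EL_sub (Gd.const 1) gO, EL_const hr, EL_const hr, hq,
        div_eq_inv_mul]
      rfl
  rw [EL_sub gn (Gd.const _), EL_const hr] at key
  have he : |cov b l r + _| ≤ _ := est_ent hN hr P hm
  rw [hias]
  rw [abs_le] at key he ⊢
  constructor <;> linarith [key.1, key.2, he.1, he.2]

lemma gd_avY {c : Fin N → ℝ} (hN : 0 < N) (hc : ∀ i, |c i| ≤ K) :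
    Gd fun d => av b l r d fun s => |Y1 b l r c d s - Z1 b l r c d| :=
  gd_av b l r (fun s => ((measurable_Y1 c s).sub (gd_Z1 c).1).abs) (B := 2 * K) fun d s => by
    rw [abs_abs]
    exact (abs_sub _ _).trans (by linarith [abs_Y1_le hN hc b l r d s, abs_Z1_le hN hc b l r d])

lemma gd_br2 (hN : 0 < N) (c : Fin N → ℝ) : Gd fun d : Dat N => br2 b l r c d := by
  have hn : ((N : ℝ) * N) ≠ 0 := by positivity
  have e : (fun d : Dat N => br2 b l r c d)
      = fun d => ((N : ℝ) * N)⁻¹ * ∑ i, ∑ j, c j * pairT b l r d i j := funext fun d => by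
    rw [pairT_sum hN, inv_mul_cancel_left₀ hn]
  rw [e]
  refine (Gd.const _).mul (Gd.sum _ fun i _ => Gd.sum _ fun j _ => (Gd.const _).mul ?_)
  simp only [pairT]
  refine (gd_cont (f := fun U s => xc U s j ^ 2 - xc U s i ^ 2
    + b * rotW l U s i j * (xc U s i * xc U s j)) fun s => by unfold rotW; fun_prop).sub ?_
  have w1 := gd_cont (b := b) (l := l) (r := r) (f := fun U s => rotW l U s i j * xc U s i)
    fun s => by unfold rotW; fun_prop
  have w2 := gd_cont (b := b) (l := l) (r := r) (f := fun U s => rotW l U s i j * xc U s j)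
    fun s => by unfold rotW; fun_prop
  have w3 := gd_cont (b := b) (l := l) (r := r) (f := fun U s => rotW l U s i j)
    fun s => by unfold rotW; fun_prop
  simp only [sq]
  exact (((((gd_mu1 j).mul (gd_mu1 j)).sub ((gd_mu1 i).mul (gd_mu1 i))).add
    (((Gd.const _).mul w1).mul (gd_mu1 j))).add (((Gd.const _).mul (gd_mu1 i)).mul w2)).sub
    (((Gd.const _).mul w3).mul ((gd_mu1 i).mul (gd_mu1 j)))

/-- The rate of change of a weighted square of the mean. -/
def dZ1 (b : ℝ) (l : Fin N → ℝ) (r : ℝ) (d : Dat N) (i j : Fin N) : ℝ :=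
  2 * ((l i - l j) * (mu1 b l r d i * mu1 b l r d j)) / N
    + 2 * b * av b l r d (fun s => rotW l d.1 s i j * (Y1 b l r l d s - Z1 b l r l d))

lemma rot_Z1 {i j : Fin N} (h : i ≠ j) (d : Dat N) (t : ℝ) :
    HasDerivAt (fun t => Z1 b l r l (rotd h t d)) (dZ1 b l r (rotd h t d) i j) t := by
  refine ((HasDerivAt.fun_sum fun k _ => ((rot_mu1 (b := b) (l := l) (r := r) h d k t).fun_pow 2).const_mul
    (l k)).div_const (N : ℝ)).congr_deriv ?_
  set D := rotd h t d
  have hs : ∑ k, l k * mu1 b l r D k * av b l r D (fun s => if k = i then xc D.1 s j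
        else if k = j then -xc D.1 s i else 0)
      = (l i - l j) * (mu1 b l r D i * mu1 b l r D j) := by
    rw [← Finset.sum_subset (Finset.subset_univ {i, j}) fun a _ ha => by
      simp only [Finset.mem_insert, Finset.mem_singleton, not_or] at ha
      simp [if_neg ha.1, if_neg ha.2, av_const]]
    rw [Finset.sum_pair h]
    simp only [if_true, if_neg h.symm, av_neg, mu1]
    ring
  have hw : ∀ k, av b l r D (fun s => b * rotW l D.1 s i j * xc D.1 s k)
      = b * av b l r D (fun s => rotW l D.1 s i j * xc D.1 s k) := fun k => by simp only [mul_assoc, av_mul]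
  have hy : av b l r D (fun s => rotW l D.1 s i j * (Y1 b l r l D s - Z1 b l r l D))
      = (∑ k, l k * mu1 b l r D k * av b l r D (fun s => rotW l D.1 s i j * xc D.1 s k)) / N
        - av b l r D (fun s => rotW l D.1 s i j) * Z1 b l r l D := by
    have e : (fun s => rotW l D.1 s i j * (Y1 b l r l D s - Z1 b l r l D)) = fun s =>
        (N : ℝ)⁻¹ * ∑ k, l k * mu1 b l r D k * (rotW l D.1 s i j * xc D.1 s k)
          - rotW l D.1 s i j * Z1 b l r l D := funext fun s => by
      rw [mul_sub, Y1, div_eq_inv_mul, ← mul_assoc, mul_comm (rotW l D.1 s i j) _, mul_assoc, Finset.mul_sum]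
      exact congrArg₂ _ (congrArg _ (Finset.sum_congr rfl fun k _ => by ring)) rfl
    rw [e]
    simp only [av_sub, av_mul, av_mul_right, av_finsum, div_eq_inv_mul]
  rw [dZ1, hy, ← hs]
  simp only [dmu, av_add, hw, Nat.cast_ofNat, pow_one, Nat.add_one_sub_one]
  rw [Z1, Finset.sum_div, Finset.sum_div, Finset.sum_div, Finset.mul_sum, Finset.sum_div, Finset.mul_sum,
    ← Finset.sum_sub_distrib, Finset.mul_sum, ← Finset.sum_add_distrib]
  exact Finset.sum_congr rfl fun k _ => by ring

lemma measurable_rotW (i j : Fin N) (s : Cfg N) : Measurable fun d : Dat N => rotW l d.1 s i j :=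
  (show Continuous fun U : OMat N => rotW l U s i j by unfold rotW; fun_prop).measurable.comp measurable_fst

/-- The mean square deviation of the energy overlap from its predicted value. -/
theorem est_phi (hN : 0 < N) (hr : 0 ≤ r) (Pb : Pt K b l zb) (P : Pt K b l z)
    (hz : empG l z = b * (1 - qv b l r)) (hlam : 0 < 1 - qv b l r) :
    EL b l r (fun d => (Z1 b l r l d - (zb - (1 - qv b l r) * z)) ^ 2)
      ≤ 200 * K ^ 7 / (1 - qv b l r)
        * (EL b l r (fun d => Bv b l r (zb - b⁻¹) d) + EL b l r (fun d => Wv b l r d) + 1 / N) := by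
  have h1 := P.one
  have hK : 0 < K := zero_lt_one.trans_le h1
  have hb := P.bpos
  have hn : (0 : ℝ) < N := Nat.cast_pos.2 hN
  set lam := 1 - qv b l r
  have hl1 : lam ≤ 1 := by simp only [lam]; linarith [qv_nonneg hN b l r]
  set R := zb - b⁻¹
  set bbar := zb - lam * z
  have hbbar : |bbar| ≤ 2 * K := by
    refine (abs_sub _ _).trans ?_
    rw [abs_mul, abs_of_pos hlam]
    have := mul_le_mul hl1 P.zb (abs_nonneg _) zero_le_one
    linarith [Pb.zb]
  have hR : |R| ≤ 2 * K := by
    refine (abs_sub _ _).trans ?_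
    rw [abs_of_pos (inv_pos.2 hb)]
    linarith [Pb.zb, Pb.binv]
  set Φ := fun d : Dat N => Z1 b l r l d - bbar
  have hΦ : ∀ d, |Φ d| ≤ 3 * K := fun d =>
    (abs_sub _ _).trans (by linarith [abs_Z1_le hN P.lK b l r d])
  have gΦ : Gd Φ := (gd_Z1 l).sub (Gd.const _)
  have gY := gd_avY (b := b) (l := l) (r := r) hN P.lK
  have hW : ∀ d, av b l r d (fun s => 4 * K ^ 2 * |Y1 b l r l d s - Z1 b l r l d|)
      = 4 * K ^ 2 * av b l r d fun s => |Y1 b l r l d s - Z1 b l r l d| := fun d => by rw [av_mul]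
  have hpair := pair_id (b := b) (l := l) (r := r) hN hr P.cK (G := 4 * K) (by positivity) (Φ := Φ)
    (Φ' := dZ1 b l r) (W := fun d s => 4 * K ^ 2 * |Y1 b l r l d s - Z1 b l r l d|)
    (fun w => (cont_Z1 l w).sub continuous_const)
    (fun i j w => by
      unfold dZ1
      refine ((continuous_const.mul (continuous_const.mul ((cont_mu1 w i).mul (cont_mu1 w j)))).div_const _).add
        (continuous_const.mul ?_)
      unfold av
      refine Continuous.div (continuous_const.mul (continuous_finsetSum _ fun s _ => (cont_pwt w s).mul ?_))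
        (cont_lik w) fun U => (lik_pos b l r _).ne'
      refine (show Continuous fun U : OMat N => rotW l U s i j by unfold rotW; fun_prop).mul (Continuous.sub ?_ (cont_Z1 l w))
      unfold Y1
      exact (continuous_finsetSum _ fun k _ => continuous_const.mul
        ((continuous_xc s k).mul (cont_mu1 w k))).div_const _)
    gΦ
    (fun i j => by
      unfold dZ1
      simp only [div_eq_inv_mul]
      refine ((Gd.const _).mul ((Gd.const _).mul ((Gd.const _).mul ((gd_mu1 i).mul (gd_mu1 j))))).add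
        ((Gd.const _).mul ?_)
      refine gd_av b l r (fun s => (measurable_rotW i j s).mul ((measurable_Y1 l s).sub (gd_Z1 l).1))
        (B := 2 * K * ((N : ℝ) * 1) * (2 * K)) fun d s => ?_
      rw [abs_mul]
      refine mul_le_mul ?_ ((abs_sub _ _).trans (by
        linarith [abs_Y1_le hN P.lK b l r d s, abs_Z1_le hN P.lK b l r d])) (abs_nonneg _) (by positivity)
      rw [rotW, abs_mul, mul_one]
      refine mul_le_mul ((abs_sub _ _).trans (by linarith [P.lK i, P.lK j])) ?_ (abs_nonneg _) (by positivity)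
      have hi := Finset.single_le_sum (fun a _ => sq_nonneg (xc d.1 s a)) (Finset.mem_univ i)
      have hj := Finset.single_le_sum (fun a _ => sq_nonneg (xc d.1 s a)) (Finset.mem_univ j)
      rw [sum_xc_sq] at hi hj
      rw [abs_mul]
      nlinarith [sq_nonneg (|xc d.1 s i| - |xc d.1 s j|), sq_abs (xc d.1 s i), sq_abs (xc d.1 s j)])
    (by simp only [hW]; exact (Gd.const _).mul gY)
    (fun d s => by positivity)
    (fun i j h d t => (rot_Z1 h d t).sub_const bbar)
    (fun d i j => by
      unfold dZ1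
      refine (abs_add_le _ _).trans (add_le_add ?_ ?_)
      · rw [abs_div, Nat.abs_cast, abs_mul, abs_mul (l i - l j), abs_two]
        refine div_le_div_of_nonneg_right ?_ hn.le
        rw [← mul_assoc]
        refine mul_le_mul_of_nonneg_right ?_ (abs_nonneg _)
        linarith [abs_sub (l i) (l j), P.lK i, P.lK j]
      · rw [abs_mul, abs_mul, abs_two, abs_of_pos hb, ← abs_of_pos (show 0 < 2 * b by positivity), ← abs_mul,
          ← av_mul]
        refine abs_av_sub_le d _ _ fun s => ?_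
        rw [abs_mul, abs_of_pos (show 0 < 2 * b by positivity), abs_mul, rotW, abs_mul]
        have hA : 2 * b * |l i - l j| ≤ 4 * K ^ 2 := by
          have := (abs_sub (l i) (l j)).trans (add_le_add (P.lK i) (P.lK j))
          calc 2 * b * |l i - l j| ≤ 2 * K * (K + K) := mul_le_mul
                (mul_le_mul_of_nonneg_left P.bK two_pos.le) this (abs_nonneg _) (by positivity)
            _ = _ := by ring
        calc 2 * b * (|l i - l j| * |xc d.1 s i * xc d.1 s j| * |Y1 b l r l d s - Z1 b l r l d|)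
            = 2 * b * |l i - l j| * (|Y1 b l r l d s - Z1 b l r l d| * |xc d.1 s i * xc d.1 s j|) := by ring
          _ ≤ 4 * K ^ 2 * (|Y1 b l r l d s - Z1 b l r l d| * |xc d.1 s i * xc d.1 s j|) :=
              mul_le_mul_of_nonneg_right hA (by positivity)
          _ = _ := by ring)
  simp only [hW] at hpair
  set EB := EL b l r (fun d => Bv b l r R d) with hEB
  set EW := EL b l r (fun d => Wv b l r d) with hEW
  have gB := gd_Bv (b := b) (l := l) (r := r) R
  have gW := gd_Wv (b := b) (l := l) hN hr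
  have hEWy : EL b l r (fun d => 4 * K ^ 2 * av b l r d fun s => |Y1 b l r l d s - Z1 b l r l d|)
      ≤ 8 * K ^ 3 * EW := by
    rw [hEW, ← EL_mul]
    exact EL_mono ((Gd.const _).mul gY) ((Gd.const _).mul gW) fun d =>
      (mul_le_mul_of_nonneg_left (Y_dev hN P.lK d) (by positivity)).trans_eq (by ring)
  have hp1 : |EL b l r (fun d => Φ d * br2 b l r (rc l z) d)| ≤ 8 * K ^ 2 / N + 16 * K ^ 4 * EW := by
    refine hpair.trans ?_
    refine (add_le_add (le_of_eq (show 2 * K * (4 * K) / (N : ℝ) = 8 * K ^ 2 / N by ring))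
      (mul_le_mul_of_nonneg_left hEWy (by positivity))).trans (le_of_eq (by ring))
  set g := fun d => (av b l r d (X1 (rc l z) d.1) - Z1 b l r (rc l z) d) * Φ d ^ 2
  have gg : Gd g := by
    simp only [g, sq]
    exact ((gd_avX1 _).sub (gd_Z1 _)).mul (gΦ.mul gΦ)
  have hp2 : b * EL b l r g ≤ 8 * K ^ 2 / N + 16 * K ^ 4 * EW + 90 * K ^ 5 * (EB + EW) := by
    have h := abs_EL_le (b := b) (l := l) (r := r) (f := fun d => Φ d * br2 b l r (rc l z) d + b * g d)
      (g := fun d => 90 * K ^ 5 * (Bv b l r R d + Wv b l r d))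
      ((gΦ.mul (gd_br2 hN _)).add ((Gd.const _).mul gg)) ((Gd.const _).mul (gB.add gW)) fun d => by
        have h2 := br2_approx hN hr P R hR d
        rw [hz, show 1 + b * (R - Z1 b l r l d) - b * z * (1 - qv b l r) = b * (-Φ d) by
          simp only [R, Φ, bbar, lam]; field_simp; ring, sub_self, mul_zero, sub_zero] at h2
        rw [show Φ d * br2 b l r (rc l z) d + b * g d = Φ d * (br2 b l r (rc l z) d
            - (av b l r d (X1 (rc l z) d.1) - Z1 b l r (rc l z) d) * (b * -Φ d)) by simp only [g]; ring,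
          abs_mul]
        refine (mul_le_mul (hΦ d) h2 (abs_nonneg _) (by positivity)).trans (le_of_eq ?_)
        ring
    rw [EL_add (gΦ.mul (gd_br2 hN _)) ((Gd.const _).mul gg), EL_mul, EL_mul, EL_add gB gW] at h
    linarith [(abs_le.1 h).2, (abs_le.1 hp1).1]
  have gP2 : Gd fun d => Φ d ^ 2 := by simp only [sq]; exact gΦ.mul gΦ
  have hp3 : lam / K * EL b l r (fun d => Φ d ^ 2) ≤ EL b l r g + 18 * K * EW := by
    rw [← EL_mul, hEW, ← EL_mul, ← EL_add gg ((Gd.const _).mul gW)]
    refine EL_mono ((Gd.const _).mul gP2) (gg.add ((Gd.const _).mul gW)) fun d => ?_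
    have hx := P.x_sub_a (r := r) hN d
    have hQ := (abs_le.1 (Q_near (b := b) (l := l) hN hr d)).2
    have hW0 := Wv_nonneg (b := b) (l := l) (r := r) d
    have h2 := mul_le_mul_of_nonneg_right
      (((div_le_div_iff_of_pos_right hK).2 (show lam - 2 * Wv b l r d ≤ 1 - Z1 b l r (fun _ => 1) d by
        simp only [lam]; linarith)).trans hx) (sq_nonneg (Φ d))
    have h3 : Φ d ^ 2 * (2 * Wv b l r d / K) ≤ 18 * K * Wv b l r d := by
      have : Φ d ^ 2 ≤ 9 * K ^ 2 := by
        rw [← sq_abs, show 9 * K ^ 2 = (3 * K) ^ 2 by ring]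
        exact pow_le_pow_left₀ (abs_nonneg _) (hΦ d) 2
      refine (mul_le_mul_of_nonneg_right this (by positivity)).trans_eq ?_
      field_simp
      ring
    rw [sub_div, sub_mul] at h2
    simp only [g]
    linarith
  have hW0 : 0 ≤ EW := by
    rw [hEW, ← EL_const (b := b) (l := l) hr 0]
    exact EL_mono (Gd.const 0) gW fun d => Wv_nonneg d
  have hB0 : 0 ≤ EB := by
    rw [hEB, ← EL_const (b := b) (l := l) hr 0]
    exact EL_mono (Gd.const 0) gB fun d => av_nonneg b l r d fun s => abs_nonneg _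
  have hg : EL b l r g ≤ K * (8 * K ^ 2 / N + 16 * K ^ 4 * EW + 90 * K ^ 5 * (EB + EW)) := by
    rw [← le_div_iff₀' hb, div_eq_inv_mul] at hp2
    exact hp2.trans (mul_le_mul_of_nonneg_right Pb.binv (by positivity))
  set T := EB + EW + 1 / (N : ℝ)
  have hT : 0 ≤ T := by positivity
  have h4 : lam / K * EL b l r (fun d => Φ d ^ 2) ≤ 200 * K ^ 6 * T := by
    have q1 : K ^ 3 ≤ K ^ 6 := pow_le_pow_right₀ h1 (by norm_num)
    have q2 : K ^ 5 ≤ K ^ 6 := pow_le_pow_right₀ h1 (by norm_num)
    have q3 : K ≤ K ^ 6 := le_self_pow₀ h1 (by norm_num)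
    have hN0 : 0 ≤ 1 / (N : ℝ) := by positivity
    have a1 := mul_le_mul_of_nonneg_right q1 hN0
    have a2 := mul_le_mul_of_nonneg_right q2 hW0
    have a3 := mul_le_mul_of_nonneg_right q3 hW0
    have := mul_nonneg (pow_nonneg hK.le 6) hB0
    have := mul_nonneg (pow_nonneg hK.le 6) hW0
    have := mul_nonneg (pow_nonneg hK.le 6) hN0
    have e : K * (8 * K ^ 2 / N + 16 * K ^ 4 * EW + 90 * K ^ 5 * (EB + EW))
        = 8 * (K ^ 3 * (1 / N)) + 16 * (K ^ 5 * EW) + 90 * (K ^ 6 * EB) + 90 * (K ^ 6 * EW) := by ring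
    rw [e] at hg
    simp only [T]
    linarith
  rw [div_mul_eq_mul_div, le_div_iff₀ hlam]
  rw [div_mul_eq_mul_div, div_le_iff₀ hK] at h4
  show EL b l r (fun d => Φ d ^ 2) * lam ≤ _
  linarith

/-- Overlap away from one. -/
theorem case_mid (hN : 0 < N) (hr : 0 ≤ r) (Pb : Pt K b l zb) (hm : empG l zb = b) (P : Pt K b l z)
    (hz : empG l z = b * (1 - qv b l r)) (hlam : 0 < 1 - qv b l r) {u : ℝ} (hu : 0 < u) :
    |cov b l r + ((1 - qv b l r) * (zb - z) + qv b l r * (b / empG2 l zb))|
      ≤ 100 * K ^ 6 * (EL b l r (fun d => Bv b l r (zb - b⁻¹) d) + EL b l r (fun d => Wv b l r d)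
          + dev b l r / N + devX b l r zb + u
          + 200 * K ^ 7 / (1 - qv b l r) * (EL b l r (fun d => Bv b l r (zb - b⁻¹) d)
              + EL b l r (fun d => Wv b l r d) + 1 / N) / u) := by
  have h1 := P.one
  have hK : 0 < K := zero_lt_one.trans_le h1
  have hb := P.bpos
  set q := qv b l r
  have hq0 : 0 ≤ q := qv_nonneg hN b l r
  have hq1 : q ≤ 1 := qv_le_one hN b l hr
  set lam := 1 - q
  set R := zb - b⁻¹
  have hR : |R| ≤ 2 * K := by
    refine (abs_sub _ _).trans ?_
    rw [abs_of_pos (inv_pos.2 hb)]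
    linarith [Pb.zb, Pb.binv]
  set bbar := zb - lam * z
  have hzb : |zb * q| ≤ K := by
    rw [abs_mul, abs_of_nonneg hq0]; exact (mul_le_of_le_one_right (abs_nonneg _) hq1).trans Pb.zb
  have hbz : |bbar - q * zb| ≤ 2 * K := by
    rw [show bbar - q * zb = lam * (zb - z) by simp only [bbar, lam]; ring, abs_mul, abs_of_pos hlam]
    refine (mul_le_of_le_one_left (abs_nonneg _) (by simp only [lam]; linarith)).trans ?_
    exact (abs_sub _ _).trans (by linarith [Pb.zb, P.zb])
  set Φ := fun d : Dat N => Z1 b l r l d - bbar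
  have gΦ : Gd Φ := (gd_Z1 l).sub (Gd.const _)
  have gΦa : Gd fun d => |Φ d| := gΦ.abs
  set c := rc l zb
  set x := fun d : Dat N => av b l r d (X1 c d.1)
  set a := fun d : Dat N => Z1 b l r c d
  have gx : Gd x := gd_avX1 c
  have ga : Gd a := gd_Z1 c
  set as := empG2 l zb / b
  obtain ⟨has, has'⟩ := inv_astar hN Pb hm
  have hias : b / empG2 l zb = as⁻¹ := by simp only [as, inv_div]
  rw [hias] at has' ⊢
  set EB := EL b l r (fun d => Bv b l r R d) with hEB
  set EW := EL b l r (fun d => Wv b l r d) with hEW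
  set DX := devX b l r zb with hDX
  set F := EL b l r (fun d => |Φ d|) with hF
  have gB := gd_Bv (b := b) (l := l) (r := r) R
  have gW := gd_Wv (b := b) (l := l) hN hr
  have gX : Gd fun d => av b l r d fun s => |X1 c d.1 s - as| :=
    gd_cont (f := fun U s => |X1 c U s - as|) fun s =>
      (show Continuous fun U : OMat N => |X1 c U s - as| by unfold X1; fun_prop)
  -- the pair identity with constant test
  have hp0 := pair_id (b := b) (l := l) (r := r) hN hr Pb.cK (G := 0) le_rfl (Φ := fun _ => (1 : ℝ))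
    (Φ' := fun _ _ _ => (0 : ℝ)) (W := fun _ _ => (0 : ℝ)) (fun _ => continuous_const)
    (fun _ _ _ => continuous_const) (Gd.const 1) (fun _ _ => Gd.const 0)
    (by simp only [av_const]; exact Gd.const 0) (fun _ _ => le_rfl) (fun i j h d t => hasDerivAt_const t _)
    fun d i j => by simp [av_const]
  simp only [one_mul, mul_zero, zero_div, av_const, integral_zero, add_zero, abs_nonpos_iff] at hp0
  replace hp0 : EL b l r (fun d => br2 b l r c d) = 0 := hp0
  set A := EL b l r (fun d => (x d - a d) * (q * zb - Z1 b l r l d)) with hA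
  have gA : Gd fun d => (x d - a d) * (q * zb - Z1 b l r l d) := (gx.sub ga).mul ((Gd.const _).sub (gd_Z1 l))
  have hA1 : |A - lam * q| ≤ 30 * K ^ 5 * (EB + EW) := by
    have h := abs_EL_le (b := b) (l := l) (r := r)
      (f := fun d => b * ((x d - a d) * (q * zb - Z1 b l r l d)) - b * (lam * q) - br2 b l r c d)
      (g := fun d => 30 * K ^ 4 * (Bv b l r R d + Wv b l r d))
      ((((Gd.const _).mul gA).sub (Gd.const _)).sub (gd_br2 hN c)) ((Gd.const _).mul (gB.add gW)) fun d => by
        rw [abs_sub_comm]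
        refine le_trans (le_of_eq ?_) (br2_approx hN hr Pb R hR d)
        rw [hm, show 1 + b * (R - Z1 b l r l d) - b * zb * (1 - q) = b * (q * zb - Z1 b l r l d) by
          simp only [R]; field_simp; ring]
        simp only [x, a, c, lam, q]
        ring_nf
    rw [EL_sub (((Gd.const _).mul gA).sub (Gd.const _)) (gd_br2 hN c), hp0, sub_zero,
      EL_sub ((Gd.const _).mul gA) (Gd.const _), EL_mul, EL_const hr, EL_mul, EL_add gB gW, ← hA, ← mul_sub,
      abs_mul, abs_of_pos hb, ← le_div_iff₀' hb, div_eq_inv_mul _ b] at h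
    refine h.trans ((mul_le_mul_of_nonneg_right Pb.binv ?_).trans_eq (by ring))
    rw [← EL_add gB gW, ← EL_mul, ← EL_const (b := b) (l := l) hr 0]
    exact EL_mono (Gd.const 0) ((Gd.const _).mul (gB.add gW)) fun d =>
      mul_nonneg (by positivity) (add_nonneg (av_nonneg b l r d fun s => abs_nonneg _) (Wv_nonneg d))
  set n0 := fun d : Dat N => Z1 b l r l d * a d - q * (zb * a d - q)
  have gn0 : Gd n0 := ((gd_Z1 l).mul ga).sub ((Gd.const q).mul (((Gd.const zb).mul ga).sub (Gd.const q)))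
  have hn0 : ∀ d, |n0 d| ≤ 4 * K ^ 2 := fun d => by
    have ha : |a d| ≤ K := abs_Z1_le hN Pb.cK b l r d
    have e : n0 d = (Z1 b l r l d - zb * q) * a d + q * q := by simp only [n0]; ring
    rw [e]
    refine (abs_add_le _ _).trans ?_
    rw [abs_mul, abs_of_nonneg (mul_nonneg hq0 hq0)]
    have := mul_le_mul ((abs_sub _ _).trans (add_le_add (abs_Z1_le hN P.lK b l r d) hzb)) ha (abs_nonneg _)
      (by positivity)
    nlinarith
  have hE2 : |EL b l r (fun d => av b l r d fun s => (X1 c d.1 s)⁻¹ * num2 b l r c d s)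
      - as⁻¹ * EL b l r n0| ≤ 50 * K ^ 3 * EW + 4 * K ^ 4 * DX := by
    rw [← EL_mul, ← EL_sub (gd_num2X hN Pb) ((Gd.const _).mul gn0), hEW, hDX, devX, ← EL_mul, ← EL_mul,
      ← EL_add ((Gd.const _).mul gW) ((Gd.const _).mul gX)]
    refine abs_EL_le ((gd_num2X hN Pb).sub ((Gd.const _).mul gn0))
      (((Gd.const _).mul gW).add ((Gd.const _).mul gX)) fun d => ?_
    have hn := num2_approx (r := r) hN hr Pb d
    rw [← av_const b l r d (as⁻¹ * n0 d), ← av_sub]
    refine (abs_av_sub_le d _ (fun s => K * |num2 b l r c d s - n0 d| + 4 * K ^ 4 * |X1 c d.1 s - as|)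
      fun s => ?_).trans ?_
    · have hXp : 0 < X1 c d.1 s := (inv_pos.2 hK).trans_le (Pb.X1_ge hN d.1 s)
      have hXi : (X1 c d.1 s)⁻¹ ≤ K :=
        (inv_anti₀ (inv_pos.2 hK) (Pb.X1_ge hN d.1 s)).trans_eq (inv_inv K)
      have e : (X1 c d.1 s)⁻¹ * num2 b l r c d s - as⁻¹ * n0 d
          = (X1 c d.1 s)⁻¹ * (num2 b l r c d s - n0 d)
            + n0 d * ((as - X1 c d.1 s) * ((X1 c d.1 s)⁻¹ * as⁻¹)) := by
        have h1 := inv_mul_cancel₀ hXp.ne'
        have h2 := inv_mul_cancel₀ has.ne'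
        linear_combination (n0 d * as⁻¹) * h1 - (n0 d * (X1 c d.1 s)⁻¹) * h2
      rw [e]
      refine (abs_add_le _ _).trans (add_le_add ?_ ?_) <;> rw [abs_mul]
      · rw [abs_of_pos (inv_pos.2 hXp)]; exact mul_le_mul_of_nonneg_right hXi (abs_nonneg _)
      · rw [abs_mul, abs_of_pos (mul_pos (inv_pos.2 hXp) (inv_pos.2 has)), abs_sub_comm as]
        refine (mul_le_mul (hn0 d) (mul_le_mul_of_nonneg_left (mul_le_mul hXi has' (inv_pos.2 has).le hK.le)
          (abs_nonneg _)) (by positivity) (by positivity)).trans (le_of_eq ?_)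
        ring
    · simp only [av_add, av_mul]
      refine add_le_add ((mul_le_mul_of_nonneg_left hn hK.le).trans (le_of_eq ?_)) le_rfl
      ring
  have hn1 : |EL b l r n0 - (as * (bbar - q * zb) + q)| ≤ 2 * K * DX + K * F + 30 * K ^ 5 * (EB + EW) := by
    have h := abs_EL_le (b := b) (l := l) (r := r)
      (f := fun d => n0 d - (x d - a d) * (q * zb - Z1 b l r l d) - (as * (bbar - q * zb) + q * q))
      (g := fun d => 2 * K * (av b l r d fun s => |X1 c d.1 s - as|) + K * |Φ d|)
      ((gn0.sub gA).sub (Gd.const _)) (((Gd.const _).mul gX).add ((Gd.const _).mul gΦa)) fun d => by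
        have e : n0 d - (x d - a d) * (q * zb - Z1 b l r l d) - (as * (bbar - q * zb) + q * q)
            = (x d - as) * (bbar - q * zb) + x d * Φ d := by simp only [n0, Φ]; ring
        rw [e]
        refine (abs_add_le _ _).trans (add_le_add ?_ ?_) <;> rw [abs_mul]
        · rw [mul_comm (2 * K)]
          refine mul_le_mul ?_ hbz (abs_nonneg _) (av_nonneg b l r d fun s => abs_nonneg _)
          have ex : x d - as = av b l r d (fun s => X1 c d.1 s - as) := by
            rw [av_sub, av_const]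
          rw [ex]
          exact abs_av_le_av d _
        · exact mul_le_mul_of_nonneg_right (abs_av_le b l r d (abs_X1_le hN Pb.cK d.1)) (abs_nonneg _)
    rw [EL_sub (gn0.sub gA) (Gd.const _), EL_sub gn0 gA, EL_const hr, EL_add ((Gd.const _).mul gX)
      ((Gd.const _).mul gΦa), EL_mul, EL_mul, ← hA] at h
    have e : lam * q + q * q = q := by simp only [lam]; ring
    replace h : |EL b l r n0 - A - (as * (bbar - q * zb) + q * q)| ≤ 2 * K * DX + K * F := h
    rw [abs_le] at h hA1 ⊢
    constructor <;> linarith [h.1, h.2, hA1.1, hA1.2]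
  have hF2 : F ≤ u + 200 * K ^ 7 / lam * (EB + EW + 1 / N) / u := by
    refine (EL_mono (g := fun d => u + u⁻¹ * Φ d ^ 2) gΦa ((Gd.const u).add ((Gd.const _).mul
      (by simp only [sq]; exact gΦ.mul gΦ))) fun d => (abs_le_add_sq hu).trans_eq (by ring)).trans ?_
    rw [EL_add (Gd.const u) ((Gd.const _).mul (by simp only [sq]; exact gΦ.mul gΦ)), EL_const hr, EL_mul,
      div_eq_inv_mul _ u]
    exact add_le_add le_rfl (mul_le_mul_of_nonneg_left (est_phi hN hr Pb P hz hlam) (inv_nonneg.2 hu.le))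
  have he : |cov b l r + _| ≤ _ := est_ent hN hr Pb hm
  have hfin : |as⁻¹ * EL b l r n0 - (lam * (zb - z) + q * as⁻¹)|
      ≤ K * (2 * K * DX + K * F + 30 * K ^ 5 * (EB + EW)) := by
    rw [show lam * (zb - z) + q * as⁻¹ = as⁻¹ * (as * (bbar - q * zb) + q) by
      rw [mul_add, inv_mul_cancel_left₀ has.ne']; simp only [bbar, lam]; ring, ← mul_sub, abs_mul, abs_of_pos (inv_pos.2 has)]
    exact mul_le_mul has' hn1 (abs_nonneg _) hK.le
  have hB0 : 0 ≤ EB := by
    rw [hEB, ← EL_const (b := b) (l := l) hr 0]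
    exact EL_mono (Gd.const 0) gB fun d => av_nonneg b l r d fun s => abs_nonneg _
  have hW0 : 0 ≤ EW := by
    rw [hEW, ← EL_const (b := b) (l := l) hr 0]
    exact EL_mono (Gd.const 0) gW fun d => Wv_nonneg d
  have hD0 : 0 ≤ DX := by
    rw [hDX, devX, ← EL_const (b := b) (l := l) hr 0]
    exact EL_mono (Gd.const 0) gX fun d => av_nonneg b l r d fun s => abs_nonneg _
  have hF0 : 0 ≤ F := by
    rw [hF, ← EL_const (b := b) (l := l) hr 0]
    exact EL_mono (Gd.const 0) gΦa fun d => abs_nonneg _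
  have hv0 : 0 ≤ dev b l r / N :=
    div_nonneg (integral_nonneg fun d => mul_nonneg (base_pos _ _ _ _).le (abs_nonneg _)) (Nat.cast_nonneg _)
  have q2 : K ^ 2 ≤ K ^ 6 := pow_le_pow_right₀ h1 (by norm_num)
  have q3 : K ^ 3 ≤ K ^ 6 := pow_le_pow_right₀ h1 (by norm_num)
  have q4 : K ^ 4 ≤ K ^ 6 := pow_le_pow_right₀ h1 (by norm_num)
  have q5 : K ^ 5 ≤ K ^ 6 := pow_le_pow_right₀ h1 (by norm_num)
  have := mul_le_mul_of_nonneg_right q5 hv0
  have := mul_le_mul_of_nonneg_right q3 hW0
  have := mul_le_mul_of_nonneg_right q4 hD0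
  have := mul_le_mul_of_nonneg_right q2 hD0
  have := mul_le_mul_of_nonneg_right q2 hF0
  have := mul_nonneg (pow_nonneg hK.le 6) hB0
  have := mul_nonneg (pow_nonneg hK.le 6) hW0
  have := mul_nonneg (pow_nonneg hK.le 6) hv0
  have := mul_nonneg (pow_nonneg hK.le 6) hD0
  have := mul_nonneg (pow_nonneg hK.le 6) hF0
  have e1 : 4 * K ^ 5 * dev b l r / N = 4 * (K ^ 5 * (dev b l r / N)) := by ring
  rw [e1] at he
  rw [show K * (2 * K * DX + K * F + 30 * K ^ 5 * (EB + EW))
    = 2 * (K ^ 2 * DX) + K ^ 2 * F + 30 * (K ^ 6 * EB) + 30 * (K ^ 6 * EW) by ring] at hfin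
  rw [show 50 * K ^ 3 * EW + 4 * K ^ 4 * DX = 50 * (K ^ 3 * EW) + 4 * (K ^ 4 * DX) by ring] at hE2
  have hF3 := mul_le_mul_of_nonneg_left hF2 (show 0 ≤ 100 * K ^ 6 by positivity)
  rw [abs_le] at he hE2 hfin ⊢
  constructor <;> linarith [he.1, he.2, hE2.1, hE2.2, hfin.1, hfin.2]

end

end Vale.Agent.P166.Plant
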