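import Vale.Agent.P166.Plant.Model
import Vale.Agent.P166.Plant.Scalar

/-!
Below the edge value the mean pressure minus the annealed exponent does not increase. Rotation
invariance of the Haar law bounds the mean energy by that of the annealed model, up to the
fluctuation of the energy, and the latter is small on average over the temperature.
-/

open MeasureTheory ProbabilityTheory Filter Topology Set Matrix
open Vale.Agent.P157.Plant (Cfg ones)

namespace Vale.Agent.P166.Plant

noncomputable section

variable {N : ℕ} {M η β b : ℝ} {l : Fin N → ℝ}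

/-- Differentiation under the Haar integral. -/
lemma hasDerivAt_haar {f D : ℝ → OMat N → ℝ} (t₀ : ℝ) (hf : ∀ t, Continuous (f t))
    (hD : Continuous fun p : ℝ × OMat N => D p.1 p.2)
    (hd : ∀ t U, HasDerivAt (fun t => f t U) (D t U) t) :
    HasDerivAt (fun t => ∫ U, f t U ∂haarO N) (∫ U, D t₀ U ∂haarO N) t₀ := by
  obtain ⟨C, hC⟩ := ((isCompact_Icc (a := t₀ - 1) (b := t₀ + 1)).prod
    (isCompact_univ (X := OMat N))).exists_bound_of_continuousOn hD.continuousOn
  refine (hasDerivAt_integral_of_dominated_loc_of_deriv_le (F := f) (F' := D) (bound := fun _ => C)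
    (Icc_mem_nhds (show t₀ - 1 < t₀ by linarith) (show t₀ < t₀ + 1 by linarith))
    (Eventually.of_forall fun t => (hf t).aestronglyMeasurable) (P166.integrable_of_continuous (hf t₀))
    (hD.comp (continuous_const.prodMk continuous_id)).aestronglyMeasurable
    (ae_of_all _ fun U t ht => hC (t, U) ⟨ht, Set.mem_univ U⟩) (integrable_const C)
    (ae_of_all _ fun U t _ => hd t U)).2

/-- The rows of the rotation by the angle `t` in the plane of `i` and `j`. -/
def rotR (i j : Fin N) (t : ℝ) (a : Fin N) : Fin N → ℝ :=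
  if a = i then Pi.single i (Real.cos t) + Pi.single j (Real.sin t)
  else if a = j then Pi.single i (-Real.sin t) + Pi.single j (Real.cos t)
  else Pi.single a 1

/-- The rotation matrix. -/
def rotM (i j : Fin N) (t : ℝ) : Matrix (Fin N) (Fin N) ℝ := Matrix.of (rotR i j t)

lemma rotM_mem {i j : Fin N} (h : i ≠ j) (t : ℝ) :
    rotM i j t ∈ Matrix.orthogonalGroup (Fin N) ℝ := by
  rw [mem_orthogonalGroup_iff (n := Fin N) (R := ℝ)]
  ext a k
  show rotR i j t a ⬝ᵥ rotR i j t k = (1 : Matrix (Fin N) (Fin N) ℝ) a k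
  have hsc := Real.cos_sq_add_sin_sq t
  rw [sq, sq] at hsc
  simp only [rotR, Matrix.one_apply]
  by_cases hai : a = i
  · subst hai
    by_cases hki : k = a
    · subst hki; simp [dotProduct_add, add_dotProduct, h, h.symm]; linarith
    · by_cases hkj : k = j
      · subst hkj; simp [dotProduct_add, add_dotProduct, h, h.symm]; ring
      · simp [dotProduct_add, add_dotProduct, h, h.symm, hki, hkj, Ne.symm hki, Ne.symm hkj]
  · by_cases haj : a = j
    · subst haj
      by_cases hki : k = i
      · subst hki; simp [dotProduct_add, add_dotProduct, h, h.symm]; ring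
      · by_cases hkj : k = a
        · subst hkj; simp [dotProduct_add, add_dotProduct, h, h.symm]; linarith
        · simp [dotProduct_add, add_dotProduct, h, h.symm, hki, hkj, Ne.symm hki, Ne.symm hkj]
    · by_cases hki : k = i
      · subst hki; simp [dotProduct_add, add_dotProduct, hai, haj, Ne.symm hai, Ne.symm haj]
      · by_cases hkj : k = j
        · subst hkj; simp [dotProduct_add, add_dotProduct, h.symm, hai, haj, Ne.symm hai, Ne.symm haj]
        · simp [hai, haj, hki, hkj, Pi.single_apply, eq_comm]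

/-- The rotation as an orthogonal matrix. -/
def rotO {i j : Fin N} (h : i ≠ j) (t : ℝ) : OMat N := ⟨rotM i j t, rotM_mem h t⟩

/-- The coordinates of a configuration in the eigenbasis. -/
def xc (U : OMat N) (s : Cfg N) (i : Fin N) : ℝ := High.act U (spin s) i

lemma coord_eq_xc (U : OMat N) (s : Cfg N) (i : Fin N) : coord U s i = xc U s i ^ 2 := rfl

@[fun_prop]
lemma continuous_xc (s : Cfg N) (i : Fin N) : Continuous fun U : OMat N => xc U s i :=
  (continuous_apply i).comp (High.continuous_act_left (spin s))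

lemma xc_rot {i j : Fin N} (h : i ≠ j) (t : ℝ) (U : OMat N) (s : Cfg N) (a : Fin N) :
    xc (rotO h t * U) s a = if a = i then Real.cos t * xc U s i + Real.sin t * xc U s j
      else if a = j then -Real.sin t * xc U s i + Real.cos t * xc U s j else xc U s a := by
  unfold xc
  rw [High.act_mul]
  show rotR i j t a ⬝ᵥ High.act U (spin s) = _
  simp only [rotR]
  split_ifs <;> simp [add_dotProduct]

lemma hasDeriv_xc {i j : Fin N} (h : i ≠ j) (U : OMat N) (s : Cfg N) (a : Fin N) (t : ℝ) :
    HasDerivAt (fun t => xc (rotO h t * U) s a)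
      (if a = i then xc (rotO h t * U) s j else if a = j then -xc (rotO h t * U) s i else 0) t := by
  simp only [xc_rot h]
  by_cases hai : a = i
  · subst hai
    simp only [if_true, if_neg h.symm]
    exact (((Real.hasDerivAt_cos t).mul_const _).fun_add ((Real.hasDerivAt_sin t).mul_const _)).congr_deriv
      (by ring)
  · by_cases haj : a = j
    · subst haj
      simp only [if_neg hai, if_true]
      exact (((Real.hasDerivAt_sin t).fun_neg.mul_const _).fun_add
        ((Real.hasDerivAt_cos t).mul_const _)).congr_deriv (by ring)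
    · simp only [if_neg hai, if_neg haj]
      exact hasDerivAt_const t _

/-- The Gibbs average at inverse temperature `b`. -/
def gib (b : ℝ) (l : Fin N → ℝ) (U : OMat N) (f : Cfg N → ℝ) : ℝ :=
  (∑ s, P166.wt b l U s * f s) / ∑ s, P166.wt b l U s

lemma gib_const (b : ℝ) (l : Fin N → ℝ) (U : OMat N) (x : ℝ) : gib b l U (fun _ => x) = x := by
  rw [gib, ← Finset.sum_mul]
  exact mul_div_cancel_left₀ x (sum_wt_pos b l U).ne'

lemma gib_add (b : ℝ) (l : Fin N → ℝ) (U : OMat N) (f g : Cfg N → ℝ) :
    gib b l U (fun s => f s + g s) = gib b l U f + gib b l U g := by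
  simp only [gib, mul_add, Finset.sum_add_distrib, add_div]

lemma gib_mul (b : ℝ) (l : Fin N → ℝ) (U : OMat N) (x : ℝ) (f : Cfg N → ℝ) :
    gib b l U (fun s => x * f s) = x * gib b l U f := by
  rw [gib, gib, mul_div_assoc', Finset.mul_sum]
  congr 1
  exact Finset.sum_congr rfl fun s _ => by ring

lemma gib_sum {ι : Type*} (t : Finset ι) (b : ℝ) (l : Fin N → ℝ) (U : OMat N) (f : ι → Cfg N → ℝ) :
    gib b l U (fun s => ∑ k ∈ t, f k s) = ∑ k ∈ t, gib b l U (f k) := by
  simp only [gib, Finset.mul_sum]
  rw [Finset.sum_comm, Finset.sum_div]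

lemma gib_mono (b : ℝ) (l : Fin N → ℝ) (U : OMat N) {f g : Cfg N → ℝ} (h : ∀ s, f s ≤ g s) :
    gib b l U f ≤ gib b l U g :=
  div_le_div_of_nonneg_right
    (Finset.sum_le_sum fun s _ => mul_le_mul_of_nonneg_left (h s) (Real.exp_pos _).le) (sum_wt_pos b l U).le

lemma continuous_gib (l : Fin N → ℝ) {f : OMat N → Cfg N → ℝ} (hf : ∀ s, Continuous fun U => f U s) :
    Continuous fun p : ℝ × OMat N => gib p.1 l p.2 (f p.2) := by
  have hw : ∀ s, Continuous fun p : ℝ × OMat N => P166.wt p.1 l p.2 s := fun s => by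
    unfold P166.wt
    exact Real.continuous_exp.comp ((continuous_fst.div_const 2).mul (continuous_finsetSum _ fun i _ =>
      continuous_const.mul ((continuous_coord s i).comp continuous_snd)))
  exact (continuous_finsetSum _ fun s _ => (hw s).mul ((hf s).comp continuous_snd)).div
    (continuous_finsetSum _ fun s _ => hw s) fun p => (sum_wt_pos p.1 l p.2).ne'

lemma continuous_gib' (b : ℝ) (l : Fin N → ℝ) {f : OMat N → Cfg N → ℝ}
    (hf : ∀ s, Continuous fun U => f U s) : Continuous fun U => gib b l U (f U) :=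
  (continuous_gib l hf).comp (continuous_const.prodMk continuous_id)

/-- The derivative of the Gibbs average of `c x_i x_j` along the rotation of that plane. -/
def rotD (b : ℝ) (l : Fin N → ℝ) (c : ℝ) (U : OMat N) (i j : Fin N) : ℝ :=
  gib b l U (fun s => c * (xc U s j ^ 2 - xc U s i ^ 2))
    + b * (gib b l U (fun s => c * (l i - l j) * (xc U s i * xc U s j) ^ 2)
      - gib b l U (fun s => (l i - l j) * (xc U s i * xc U s j))
          * gib b l U (fun s => c * (xc U s i * xc U s j)))

lemma hasDeriv_wt {i j : Fin N} (h : i ≠ j) (b : ℝ) (l : Fin N → ℝ) (U : OMat N) (s : Cfg N) (t : ℝ) :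
    HasDerivAt (fun t => P166.wt b l (rotO h t * U) s)
      (P166.wt b l (rotO h t * U) s
        * (b * ((l i - l j) * (xc (rotO h t * U) s i * xc (rotO h t * U) s j)))) t := by
  have hq : HasDerivAt (fun t => ∑ a, l a * xc (rotO h t * U) s a ^ 2)
      (2 * ((l i - l j) * (xc (rotO h t * U) s i * xc (rotO h t * U) s j))) t := by
    refine (HasDerivAt.fun_sum fun a _ => ((hasDeriv_xc h U s a t).fun_pow 2).const_mul (l a)).congr_deriv ?_
    rw [← Finset.sum_subset (Finset.subset_univ {i, j}) fun a _ ha => by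
      simp only [Finset.mem_insert, Finset.mem_singleton, not_or] at ha
      simp [if_neg ha.1, if_neg ha.2]]
    rw [Finset.sum_pair h]
    simp [h.symm]
    ring
  have := (hq.const_mul (b / 2)).exp
  refine this.congr_deriv ?_
  simp only [P166.wt, coord_eq_xc]
  ring

lemma hasDeriv_rot {i j : Fin N} (h : i ≠ j) (b : ℝ) (l : Fin N → ℝ) (c : ℝ) (U : OMat N) (t : ℝ) :
    HasDerivAt (fun t => gib b l (rotO h t * U)
        (fun s => c * (xc (rotO h t * U) s i * xc (rotO h t * U) s j)))
      (rotD b l c (rotO h t * U) i j) t := by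
  set V := fun t : ℝ => rotO h t * U
  have hT : ∀ s, HasDerivAt (fun t => c * (xc (V t) s i * xc (V t) s j))
      (c * (xc (V t) s j ^ 2 - xc (V t) s i ^ 2)) t := fun s =>
    (((hasDeriv_xc h U s i t).fun_mul (hasDeriv_xc h U s j t)).const_mul c).congr_deriv (by
      simp only [if_true, if_neg h.symm, V]; ring)
  have hW := fun s => hasDeriv_wt h b l U s t
  have hnum : HasDerivAt (fun t => ∑ s, P166.wt b l (V t) s * (c * (xc (V t) s i * xc (V t) s j)))
      (∑ s, P166.wt b l (V t) s * (c * (xc (V t) s j ^ 2 - xc (V t) s i ^ 2))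
        + b * ∑ s, P166.wt b l (V t) s * (c * (l i - l j) * (xc (V t) s i * xc (V t) s j) ^ 2)) t := by
    refine (HasDerivAt.fun_sum fun s _ => (hW s).fun_mul (hT s)).congr_deriv ?_
    rw [Finset.mul_sum, ← Finset.sum_add_distrib]
    exact Finset.sum_congr rfl fun s _ => by simp only [V]; ring
  have hden : HasDerivAt (fun t => ∑ s, P166.wt b l (V t) s)
      (b * ∑ s, P166.wt b l (V t) s * ((l i - l j) * (xc (V t) s i * xc (V t) s j))) t := by
    refine (HasDerivAt.fun_sum fun s _ => hW s).congr_deriv ?_
    rw [Finset.mul_sum]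
    exact Finset.sum_congr rfl fun s _ => by simp only [V]; ring
  refine (hnum.fun_div hden (sum_wt_pos b l (V t)).ne').congr_deriv ?_
  have hZ := (sum_wt_pos b l (V t)).ne'
  simp only [rotD, gib, V] at hZ ⊢
  generalize ∑ s, P166.wt b l (rotO h t * U) s = Z at hZ ⊢
  generalize ∑ s, P166.wt b l (rotO h t * U) s * (c * (xc (rotO h t * U) s j ^ 2 - xc (rotO h t * U) s i ^ 2)) = A
  generalize ∑ s, P166.wt b l (rotO h t * U) s * (c * (l i - l j) * (xc (rotO h t * U) s i * xc (rotO h t * U) s j) ^ 2) = B
  generalize ∑ s, P166.wt b l (rotO h t * U) s * ((l i - l j) * (xc (rotO h t * U) s i * xc (rotO h t * U) s j)) = C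
  generalize ∑ s, P166.wt b l (rotO h t * U) s * (c * (xc (rotO h t * U) s i * xc (rotO h t * U) s j)) = D
  field_simp
  ring

lemma integral_rotD (b : ℝ) (l : Fin N → ℝ) (c : ℝ) (i j : Fin N) :
    ∫ U, rotD b l c U i j ∂haarO N = 0 := by
  rcases eq_or_ne i j with rfl | h
  · have : ∀ U, rotD b l c U i i = 0 := fun U => by
      simp [rotD, gib_const b l U 0]
    simp [this]
  set f := fun (t : ℝ) (U : OMat N) => gib b l (rotO h t * U)
    (fun s => c * (xc (rotO h t * U) s i * xc (rotO h t * U) s j))
  have hg : Continuous fun V : OMat N => gib b l V (fun s => c * (xc V s i * xc V s j)) :=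
    continuous_gib' b l fun s => by fun_prop
  have hD : Continuous fun V : OMat N => rotD b l c V i j := by
    unfold rotD
    exact (continuous_gib' b l fun s => by fun_prop).add (continuous_const.mul
      ((continuous_gib' b l fun s => by fun_prop).sub
        ((continuous_gib' b l fun s => by fun_prop).mul (continuous_gib' b l fun s => by fun_prop))))
  have hrot : Continuous fun p : ℝ × OMat N => rotO h p.1 * p.2 := by
    refine (Continuous.subtype_mk ?_ _).mul continuous_snd
    refine continuous_pi fun a => ?_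
    show Continuous fun p : ℝ × OMat N => rotR i j p.1 a
    refine continuous_pi fun k => ?_
    simp only [rotR]
    split_ifs <;> simp only [Pi.add_apply, Pi.single_apply] <;> split_ifs <;> fun_prop
  have h1 := hasDerivAt_haar (f := f) (D := fun t U => rotD b l c (rotO h t * U) i j) 0
    (fun t => hg.comp (continuous_const_mul _)) (hD.comp hrot) fun t U => hasDeriv_rot h b l c U t
  have h2 : (fun t => ∫ U, f t U ∂haarO N)
      = fun _ => ∫ U, gib b l U (fun s => c * (xc U s i * xc U s j)) ∂haarO N :=
    funext fun t => integral_mul_left_eq_self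
      (fun U => gib b l U (fun s => c * (xc U s i * xc U s j))) (rotO h t)
  rw [h2] at h1
  have h3 := h1.unique (hasDerivAt_const 0 _)
  rwa [integral_mul_left_eq_self (fun U => rotD b l c U i j) (rotO h 0)] at h3

/-- The energy per site. -/
def ener (l : Fin N → ℝ) (U : OMat N) (s : Cfg N) : ℝ := (∑ i, l i * coord U s i) / N

/-- The resolvent statistic per site. -/
def resA (l : Fin N → ℝ) (z : ℝ) (U : OMat N) (s : Cfg N) : ℝ := (∑ i, (z - l i)⁻¹ * coord U s i) / N

@[fun_prop]
lemma continuous_ener (l : Fin N → ℝ) (s : Cfg N) : Continuous fun U => ener l U s := by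
  unfold ener
  exact (continuous_finsetSum _ fun i _ => continuous_const.mul (continuous_coord s i)).div_const _

@[fun_prop]
lemma continuous_resA (l : Fin N → ℝ) (z : ℝ) (s : Cfg N) : Continuous fun U => resA l z U s := by
  unfold resA
  exact (continuous_finsetSum _ fun i _ => continuous_const.mul (continuous_coord s i)).div_const _

/-- The energy is, weighted by the resolvent statistic, at most that of the annealed model. -/
lemma weighted_energy (hN : 0 < N) (hb : 0 < b) {z : ℝ} (hz : ∀ i, l i < z) (hG : empG l z = b) :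
    ∫ U, gib b l U (fun s => (ener l U s - (z - 1 / b)) * resA l z U s) ∂haarO N ≤ 0 := by
  have hn : (0 : ℝ) < N := Nat.cast_pos.2 hN
  set c := fun j => (z - l j)⁻¹
  have hc : ∀ j, 0 < c j := fun j => inv_pos.2 (sub_pos.2 (hz j))
  have hsum : ∫ U, ∑ i, ∑ j, rotD b l (c j) U i j ∂haarO N = 0 := by
    have hcont : ∀ i j, Integrable (fun U => rotD b l (c j) U i j) (haarO N) := fun i j => by
      refine P166.integrable_of_continuous ?_
      unfold rotD
      exact (continuous_gib' b l fun s => by fun_prop).add (continuous_const.mul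
        ((continuous_gib' b l fun s => by fun_prop).sub
          ((continuous_gib' b l fun s => by fun_prop).mul (continuous_gib' b l fun s => by fun_prop))))
    rw [integral_finsetSum _ fun i _ => integrable_finsetSum _ fun j _ => hcont i j]
    refine Finset.sum_eq_zero fun i _ => ?_
    rw [integral_finsetSum _ fun j _ => hcont i j]
    exact Finset.sum_eq_zero fun j _ => integral_rotD b l (c j) i j
  have hle : ∀ U, b * N * N * gib b l U (fun s => (ener l U s - (z - 1 / b)) * resA l z U s)
      ≤ ∑ i, ∑ j, rotD b l (c j) U i j := by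
    intro U
    set m := fun i j => gib b l U (fun s => xc U s i * xc U s j)
    have hsign : ∑ i, ∑ j, gib b l U (fun s => (l i - l j) * (xc U s i * xc U s j))
        * gib b l U (fun s => c j * (xc U s i * xc U s j)) ≤ 0 := by
      simp only [gib_mul]
      set S := ∑ i, ∑ j, (l i - l j) * m i j * (c j * m i j)
      have hS : S + S = ∑ i, ∑ j, (l i - l j) * (c j - c i) * m i j ^ 2 := by
        conv_lhs => arg 2; simp only [S]; rw [Finset.sum_comm]
        simp only [S, ← Finset.sum_add_distrib]
        refine Finset.sum_congr rfl fun i _ => Finset.sum_congr rfl fun j _ => ?_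
        have : m j i = m i j := by simp only [m, mul_comm]
        rw [this]; ring
      have hneg : ∀ i j, (l i - l j) * (c j - c i) * m i j ^ 2 ≤ 0 := fun i j => by
        have e : c j - c i = -((l i - l j) * (c i * c j)) := by
          simp only [c]
          rw [inv_sub_inv (sub_pos.2 (hz j)).ne' (sub_pos.2 (hz i)).ne', ← mul_inv]
          field_simp
          ring
        have := hc i
        have := hc j
        rw [e, show (l i - l j) * -((l i - l j) * (c i * c j)) = -((l i - l j) ^ 2 * (c i * c j)) by ring,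
          neg_mul, neg_nonpos]
        positivity
      have := Finset.sum_nonpos fun i (_ : i ∈ Finset.univ) => Finset.sum_nonpos fun j (_ : j ∈ Finset.univ) => hneg i j
      show S ≤ 0
      linarith
    have hpt : ∀ s, ∑ i, ∑ j, (c j * (xc U s j ^ 2 - xc U s i ^ 2)
          + b * (c j * (l i - l j) * (xc U s i * xc U s j) ^ 2))
        = b * N * N * ((ener l U s - (z - 1 / b)) * resA l z U s) := fun s => by
      have h1 : ∑ i, xc U s i ^ 2 = N := sum_coord U s
      have hcs : ∑ j, c j = N * b := by
        have := hG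
        rw [empG, div_eq_iff hn.ne'] at this
        linarith
      have h2 : ∑ j, c j * (l j * xc U s j ^ 2) = z * ∑ j, c j * xc U s j ^ 2 - N := by
        rw [← h1, Finset.mul_sum, ← Finset.sum_sub_distrib]
        refine Finset.sum_congr rfl fun j _ => ?_
        simp only [c]
        have := (sub_pos.2 (hz j)).ne'
        field_simp
        ring
      have e : ∀ i j, c j * (xc U s j ^ 2 - xc U s i ^ 2) + b * (c j * (l i - l j) * (xc U s i * xc U s j) ^ 2)
          = c j * xc U s j ^ 2 - c j * xc U s i ^ 2 + b * (l i * xc U s i ^ 2) * (c j * xc U s j ^ 2)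
            - b * xc U s i ^ 2 * (c j * (l j * xc U s j ^ 2)) := fun i j => by ring
      simp only [e, Finset.sum_add_distrib, Finset.sum_sub_distrib, ← Finset.mul_sum, ← Finset.sum_mul,
        Finset.sum_const, Finset.card_univ, Fintype.card_fin, nsmul_eq_mul, h1, h2, hcs, ener, resA,
        coord_eq_xc]
      rw [show ∑ j, (z - l j)⁻¹ * xc U s j ^ 2 = ∑ j, c j * xc U s j ^ 2 from rfl]
      generalize ∑ j, c j * xc U s j ^ 2 = A
      generalize ∑ j, l j * xc U s j ^ 2 = B
      field_simp
      ring
    calc b * N * N * gib b l U (fun s => (ener l U s - (z - 1 / b)) * resA l z U s)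
        = ∑ i, ∑ j, (gib b l U (fun s => c j * (xc U s j ^ 2 - xc U s i ^ 2))
            + b * gib b l U (fun s => c j * (l i - l j) * (xc U s i * xc U s j) ^ 2)) := by
          simp only [← gib_mul, ← gib_add, ← gib_sum, hpt]
      _ ≤ ∑ i, ∑ j, rotD b l (c j) U i j := by
          have hb' := mul_nonpos_of_nonneg_of_nonpos hb.le hsign
          simp only [Finset.mul_sum] at hb'
          have e2 : ∀ i j, rotD b l (c j) U i j = gib b l U (fun s => c j * (xc U s j ^ 2 - xc U s i ^ 2))
              + b * gib b l U (fun s => c j * (l i - l j) * (xc U s i * xc U s j) ^ 2)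
              - b * (gib b l U (fun s => (l i - l j) * (xc U s i * xc U s j))
                * gib b l U (fun s => c j * (xc U s i * xc U s j))) := fun i j => by unfold rotD; ring
          simp only [e2, Finset.sum_sub_distrib]
          linarith
  have hcont : Continuous fun U => gib b l U (fun s => (ener l U s - (z - 1 / b)) * resA l z U s) :=
    continuous_gib' b l fun s => by fun_prop
  have hcont2 : Continuous fun U => ∑ i, ∑ j, rotD b l (c j) U i j := by
    refine continuous_finsetSum _ fun i _ => continuous_finsetSum _ fun j _ => ?_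
    unfold rotD
    exact (continuous_gib' b l fun s => by fun_prop).add (continuous_const.mul
      ((continuous_gib' b l fun s => by fun_prop).sub
        ((continuous_gib' b l fun s => by fun_prop).mul (continuous_gib' b l fun s => by fun_prop))))
  have h := integral_mono ((P166.integrable_of_continuous hcont).const_mul (b * N * N))
    (P166.integrable_of_continuous hcont2) hle
  rw [integral_const_mul, hsum] at h
  exact nonpos_of_mul_nonpos_right h (by positivity)

/-- The mean energy. -/
def enMean (b : ℝ) (l : Fin N → ℝ) : ℝ := ∫ U, gib b l U (ener l U) ∂haarO N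

/-- The thermal variance of the energy. -/
def thVar (b : ℝ) (l : Fin N → ℝ) (U : OMat N) : ℝ :=
  gib b l U (fun s => ener l U s ^ 2) - gib b l U (ener l U) ^ 2

lemma abs_ener_le (hl : ∀ i, |l i| ≤ M) (hN : 0 < N) (U : OMat N) (s : Cfg N) : |ener l U s| ≤ M := by
  rw [ener, abs_div, Nat.abs_cast, div_le_iff₀ (Nat.cast_pos.2 hN), ← sum_coord U s, Finset.mul_sum]
  refine (Finset.abs_sum_le_sum_abs _ _).trans (Finset.sum_le_sum fun i _ => ?_)
  rw [abs_mul, abs_of_nonneg (coord_nonneg U s i)]
  exact mul_le_mul_of_nonneg_right (hl i) (coord_nonneg U s i)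

lemma abs_gibE_le (hl : ∀ i, |l i| ≤ M) (hN : 0 < N) (b : ℝ) (U : OMat N) :
    |gib b l U (ener l U)| ≤ M := by
  rw [abs_le]
  exact ⟨(gib_const b l U (-M)).symm.trans_le (gib_mono b l U fun s => (abs_le.1 (abs_ener_le hl hN U s)).1),
    (gib_mono b l U fun s => (abs_le.1 (abs_ener_le hl hN U s)).2).trans_eq (gib_const b l U M)⟩

lemma thVar_nonneg (b : ℝ) (l : Fin N → ℝ) (U : OMat N) : 0 ≤ thVar b l U := by
  set p := gib b l U (ener l U)
  have h := gib_mono b l U (f := fun _ => (0 : ℝ)) (g := fun s => (ener l U s - p) ^ 2) fun s => sq_nonneg _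
  rw [gib_const] at h
  have e : (fun s => (ener l U s - p) ^ 2)
      = fun s => ener l U s ^ 2 + ((-2 * p) * ener l U s + p ^ 2) := by funext s; ring
  rw [e, gib_add, gib_add, gib_mul, gib_const] at h
  unfold thVar
  linarith

lemma hasDeriv_wt_temp (b : ℝ) (l : Fin N → ℝ) (U : OMat N) (s : Cfg N) :
    HasDerivAt (fun b => P166.wt b l U s) (P166.wt b l U s * (N / 2 * ener l U s)) b := by
  have h : HasDerivAt (fun b => b / 2 * ∑ i, l i * coord U s i) (1 / 2 * ∑ i, l i * coord U s i) b :=
    ((hasDerivAt_id' b).div_const 2).mul_const _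
  refine h.exp.congr_deriv ?_
  rcases Nat.eq_zero_or_pos N with rfl | hN
  · simp [ener]
  rw [P166.wt, ener]
  field_simp

lemma hasDeriv_gib_temp (b : ℝ) (l : Fin N → ℝ) (U : OMat N) :
    HasDerivAt (fun b => gib b l U (ener l U)) (N / 2 * thVar b l U) b := by
  have hnum : HasDerivAt (fun b => ∑ s, P166.wt b l U s * ener l U s)
      (N / 2 * ∑ s, P166.wt b l U s * ener l U s ^ 2) b := by
    refine (HasDerivAt.fun_sum fun s _ => (hasDeriv_wt_temp b l U s).mul_const _).congr_deriv ?_
    rw [Finset.mul_sum]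
    exact Finset.sum_congr rfl fun s _ => by ring
  have hden : HasDerivAt (fun b => ∑ s, P166.wt b l U s) (N / 2 * ∑ s, P166.wt b l U s * ener l U s) b := by
    refine (HasDerivAt.fun_sum fun s _ => hasDeriv_wt_temp b l U s).congr_deriv ?_
    rw [Finset.mul_sum]
    exact Finset.sum_congr rfl fun s _ => by ring
  refine (hnum.fun_div hden (sum_wt_pos b l U).ne').congr_deriv ?_
  have hZ := (sum_wt_pos b l U).ne'
  simp only [thVar, gib]
  field_simp

lemma hasDeriv_pressure (hN : 0 < N) (b : ℝ) (l : Fin N → ℝ) (U : OMat N) :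
    HasDerivAt (fun b => pressure b l U) (gib b l U (ener l U) / 2) b := by
  simp only [pressure_eq]
  have hden : HasDerivAt (fun b => (∑ s, P166.wt b l U s) / 2 ^ N)
      ((N / 2 * ∑ s, P166.wt b l U s * ener l U s) / 2 ^ N) b := by
    refine ((HasDerivAt.fun_sum fun s _ => hasDeriv_wt_temp b l U s).congr_deriv ?_).div_const _
    rw [Finset.mul_sum]
    exact Finset.sum_congr rfl fun s _ => by ring
  refine ((hden.log (div_pos (sum_wt_pos b l U) (by positivity)).ne').div_const (N : ℝ)).congr_deriv ?_
  have hZ := (sum_wt_pos b l U).ne'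
  have hn : (N : ℝ) ≠ 0 := Nat.cast_ne_zero.2 hN.ne'
  simp only [gib]
  field_simp

lemma hasDeriv_mean (hN : 0 < N) (b : ℝ) (l : Fin N → ℝ) :
    HasDerivAt (fun b => ∫ U, pressure b l U ∂haarO N) (enMean b l / 2) b := by
  refine (hasDerivAt_haar (f := fun t U => pressure t l U) (D := fun t U => gib t l U (ener l U) / 2) b
    (fun t => P166.continuous_pressure t l)
    ((continuous_gib l fun s => continuous_ener l s).div_const 2)
    fun t U => hasDeriv_pressure hN t l U).congr_deriv ?_
  rw [enMean, integral_div]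

lemma hasDeriv_enMean (b : ℝ) (l : Fin N → ℝ) :
    HasDerivAt (fun b => enMean b l) (N / 2 * ∫ U, thVar b l U ∂haarO N) b := by
  refine (hasDerivAt_haar (f := fun t U => gib t l U (ener l U)) (D := fun t U => N / 2 * thVar t l U) b
    (fun t => continuous_gib' t l fun s => continuous_ener l s)
    (continuous_const.mul ((continuous_gib l fun s => (continuous_ener l s).pow 2).sub
      ((continuous_gib l fun s => continuous_ener l s).pow 2)))
    fun t U => hasDeriv_gib_temp t l U).congr_deriv ?_
  rw [integral_const_mul]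

lemma abs_enMean_le (hl : ∀ i, |l i| ≤ M) (hN : 0 < N) (b : ℝ) : |enMean b l| ≤ M := by
  refine abs_integral_le_integral_abs.trans ((integral_mono
    (P166.integrable_of_continuous (continuous_gib' b l fun s => continuous_ener l s)).abs
    (integrable_const M) fun U => abs_gibE_le hl hN b U).trans (le_of_eq ?_))
  simp

/-- The energy bound, up to the mean square fluctuation. -/
lemma enMean_le (hN : 0 < N) (T : Tame M η β l) {b₀ τ : ℝ} (hb₀ : 0 < b₀) (hb : b₀ ≤ b) (hbβ : b ≤ β)
    (hτ : 0 < τ) :
    enMean b l - (root l b - 1 / b) ≤ (2 * M + 1 / b₀) / η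
      * (τ + (∫ U, thVar b l U ∂haarO N + 2 * M * ∫ U, |gib b l U (ener l U) - enMean b l| ∂haarO N) / (4 * τ)) := by
  have hb0 : 0 < b := hb₀.trans_le hb
  have hn : (0 : ℝ) < N := Nat.cast_pos.2 hN
  obtain ⟨hz, hG, hzM⟩ := root_spec hN T hb0 hbβ
  set z := root l b
  set R := z - 1 / b
  set m := enMean b l
  set V := ∫ U, thVar b l U ∂haarO N + 2 * M * ∫ U, |gib b l U (ener l U) - m| ∂haarO N
  set Z := 2 * M + 1 / b₀
  have hη := T.pos
  have hM : 0 ≤ M := (abs_nonneg _).trans (T.bdd ⟨0, hN⟩)
  have hZ : 0 < Z := by positivity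
  have hw := weighted_energy hN hb0 (fun i => by linarith [hz i]) hG
  have hA : ∀ U s, 1 / Z ≤ resA l z U s ∧ resA l z U s ≤ 1 / η := fun U s => by
    have hc : ∀ i, 1 / Z ≤ (z - l i)⁻¹ ∧ (z - l i)⁻¹ ≤ 1 / η := fun i => by
      have h1 := one_div_le_one_div_of_le hb₀ hb
      have h2 := abs_le.1 (T.bdd i)
      have h3 := hz i
      rw [one_div, one_div η]
      exact ⟨inv_anti₀ (by linarith) (by simp only [Z]; linarith), inv_anti₀ hη (by linarith)⟩
    rw [resA, le_div_iff₀ hn, div_le_iff₀ hn, ← sum_coord U s, Finset.mul_sum, Finset.mul_sum]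
    exact ⟨Finset.sum_le_sum fun i _ => mul_le_mul_of_nonneg_right (hc i).1 (coord_nonneg _ _ _),
      Finset.sum_le_sum fun i _ => mul_le_mul_of_nonneg_right (hc i).2 (coord_nonneg _ _ _)⟩
  have hV0 : 0 ≤ V := add_nonneg (integral_nonneg fun U => thVar_nonneg b l U)
    (mul_nonneg (by positivity) (integral_nonneg fun U => abs_nonneg _))
  rcases le_total (m - R) 0 with hm | hm
  · refine hm.trans ?_
    have : 0 ≤ τ + V / (4 * τ) := by positivity
    positivity
  have hpt : ∀ U, (m - R) / Z - (τ + (thVar b l U + 2 * M * |gib b l U (ener l U) - m|) / (4 * τ)) / η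
      ≤ gib b l U (fun s => (ener l U s - R) * resA l z U s) := fun U => by
    have h1 : gib b l U (fun s => (m - R) / Z + -(τ / η) + -(1 / (4 * τ * η)) * (ener l U s - m) ^ 2)
        ≤ gib b l U (fun s => (ener l U s - R) * resA l z U s) := gib_mono b l U fun s => by
      obtain ⟨a1, a2⟩ := hA U s
      have e : (ener l U s - R) * resA l z U s
          = (m - R) * resA l z U s + (ener l U s - m) * resA l z U s := by ring
      have h3 := mul_le_mul_of_nonneg_left a1 hm
      have h4 : |(ener l U s - m) * resA l z U s| ≤ τ / η + 1 / (4 * τ * η) * (ener l U s - m) ^ 2 := by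
        rw [abs_mul, abs_of_nonneg (le_trans (by positivity) a1)]
        refine (mul_le_mul_of_nonneg_left a2 (abs_nonneg _)).trans ?_
        have h6 : |ener l U s - m| ≤ τ + (ener l U s - m) ^ 2 / (4 * τ) := by
          have h5 := sq_nonneg (|ener l U s - m| - 2 * τ)
          rw [sub_sq, sq_abs] at h5
          have e2 : τ + (ener l U s - m) ^ 2 / (4 * τ)
              = (4 * τ ^ 2 + (ener l U s - m) ^ 2) / (4 * τ) := by field_simp
          rw [e2, le_div_iff₀ (by positivity)]
          linarith
        refine (mul_le_mul_of_nonneg_right h6 (by positivity)).trans (le_of_eq ?_)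
        field_simp
      rw [mul_one_div] at h3
      linarith [(abs_le.1 h4).1]
    have e2 : (fun s => (m - R) / Z + -(τ / η) + -(1 / (4 * τ * η)) * (ener l U s - m) ^ 2)
        = fun s => ((m - R) / Z + -(τ / η) + -(1 / (4 * τ * η)) * m ^ 2)
          + (-(1 / (4 * τ * η)) * ener l U s ^ 2 + (2 * m * (1 / (4 * τ * η))) * ener l U s) := by
      funext s; ring
    rw [e2, gib_add, gib_const, gib_add, gib_mul, gib_mul] at h1
    refine le_trans ?_ h1
    set p := gib b l U (ener l U)
    have hpm : (p - m) ^ 2 ≤ 2 * M * |p - m| := by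
      rw [← sq_abs, sq]
      refine mul_le_mul_of_nonneg_right ?_ (abs_nonneg _)
      have := abs_gibE_le T.bdd hN b U
      have := abs_enMean_le T.bdd hN b
      linarith [abs_sub p m]
    have h7 := mul_le_mul_of_nonneg_left hpm (show (0 : ℝ) ≤ 1 / (4 * τ * η) by positivity)
    unfold thVar
    have e3 : (τ + (gib b l U (fun s => ener l U s ^ 2) - p ^ 2 + 2 * M * |p - m|) / (4 * τ)) / η
        = τ / η + 1 / (4 * τ * η) * (gib b l U (fun s => ener l U s ^ 2) - p ^ 2 + 2 * M * |p - m|) := by
      field_simp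
    rw [e3]
    linarith
  have hc1 : Continuous fun U => gib b l U (fun s => (ener l U s - R) * resA l z U s) :=
    continuous_gib' b l fun s => by fun_prop
  have hcE := continuous_gib' b l fun s => continuous_ener l s
  have hcv : Continuous fun U => thVar b l U :=
    (continuous_gib' b l fun s => (continuous_ener l s).pow 2).sub (hcE.pow 2)
  have i1 : Integrable (fun U => thVar b l U) (haarO N) := P166.integrable_of_continuous hcv
  have i2 : Integrable (fun U => |gib b l U (ener l U) - m|) (haarO N) :=
    P166.integrable_of_continuous (hcE.sub continuous_const).abs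
  have i3 : Integrable (fun U => (τ + (thVar b l U + 2 * M * |gib b l U (ener l U) - m|) / (4 * τ)) / η)
      (haarO N) := ((integrable_const τ).add ((i1.add (i2.const_mul _)).div_const _)).div_const _
  have h := (integral_mono ((integrable_const _).sub i3) (P166.integrable_of_continuous hc1) hpt).trans hw
  have e4 : ∫ U, ((m - R) / Z - (τ + (thVar b l U + 2 * M * |gib b l U (ener l U) - m|) / (4 * τ)) / η) ∂haarO N
      = (m - R) / Z - (τ + V / (4 * τ)) / η := by
    have i12 : Integrable (fun U => thVar b l U + 2 * M * |gib b l U (ener l U) - m|) (haarO N) :=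
      i1.fun_add (i2.const_mul _)
    have i4 : Integrable (fun U => (thVar b l U + 2 * M * |gib b l U (ener l U) - m|) / (4 * τ)) (haarO N) :=
      i12.div_const _
    rw [integral_sub (integrable_const _) i3, integral_div _ (fun U => τ + _),
      integral_add (integrable_const τ) i4, integral_div _ (fun U => thVar b l U + _),
      integral_add i1 (i2.const_mul _), integral_const_mul]
    simp [V]
  simp only [Pi.sub_apply] at h
  rw [e4, sub_nonpos, div_le_iff₀ hZ] at h
  calc m - R ≤ (τ + V / (4 * τ)) / η * Z := h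
    _ = _ := by ring

/-- A bound on a derivative along a segment bounds the increment. -/
lemma sub_le_of_deriv' {f : ℝ → ℝ} {a b C : ℝ} (hab : a ≤ b)
    (hf : ∀ t ∈ Icc a b, ∃ v, HasDerivAt f v t ∧ v ≤ C) : f b - f a ≤ (b - a) * C := by
  choose v hv hC using hf
  have hd : ∀ t ∈ Icc a b, DifferentiableAt ℝ f t := fun t ht => (hv t ht).differentiableAt
  have := (convex_Icc a b).image_sub_le_mul_sub_of_deriv_le (C := C)
    (fun t ht => (hd t ht).continuousAt.continuousWithinAt)
    (fun t ht => (hd t (interior_subset ht)).differentiableWithinAt)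
    (fun t ht => by rw [(hv t (interior_subset ht)).deriv]; exact hC _ _)
    a (left_mem_Icc.2 hab) b (right_mem_Icc.2 hab) hab
  linarith

/-- Self-averaging, uniformly over bounded temperatures. -/
lemma dev_uniform (M B δ : ℝ) (hδ : 0 < δ) :
    ∃ N0 : ℕ, ∀ N ≥ N0, ∀ l : Fin N → ℝ, (∀ i, |l i| ≤ M) → ∀ t ∈ Icc 0 B,
      ∫ U, |pressure t l U - ∫ V, pressure t l V ∂haarO N| ∂haarO N ≤ δ := by
  obtain ⟨N0, h⟩ := High.self_averaging zero_le_one (B * M) δ hδ
  refine ⟨N0, fun N hN l hl t ht => ?_⟩
  have e : ∀ U : OMat N, pressure t l U = pressure 1 (fun i => t * l i) U := fun U => by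
    simp only [pressure_eq, P166.wt, Finset.mul_sum]
    refine congrArg (fun x => Real.log (x / 2 ^ N) / N) (Finset.sum_congr rfl fun s _ => ?_)
    exact congrArg Real.exp (Finset.sum_congr rfl fun i _ => by ring)
  simp only [e]
  refine h N hN _ fun i => ?_
  rw [abs_mul, abs_of_nonneg ht.1]
  exact mul_le_mul ht.2 (hl i) (abs_nonneg _) (ht.1.trans ht.2)

lemma incr_le {f g : ℝ → ℝ} {x y : ℝ} (hxy : x ≤ y) (hd : ∀ t, HasDerivAt f (g t) t) (hg : Monotone g) :
    g x * (y - x) ≤ f y - f x ∧ f y - f x ≤ g y * (y - x) := by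
  constructor
  · have := (convex_Icc x y).mul_sub_le_image_sub_of_le_deriv (f := f) (C := g x)
      (fun t _ => (hd t).continuousAt.continuousWithinAt) (fun t _ => (hd t).differentiableAt.differentiableWithinAt)
      (fun t ht => by rw [(hd t).deriv]; exact hg (interior_subset ht).1)
      x (left_mem_Icc.2 hxy) y (right_mem_Icc.2 hxy) hxy
    linarith
  · have := (convex_Icc x y).image_sub_le_mul_sub_of_deriv_le (f := f) (C := g y)
      (fun t _ => (hd t).continuousAt.continuousWithinAt) (fun t _ => (hd t).differentiableAt.differentiableWithinAt)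
      (fun t ht => by rw [(hd t).deriv]; exact hg (interior_subset ht).2)
      x (left_mem_Icc.2 hxy) y (right_mem_Icc.2 hxy) hxy
    linarith

/-- The quenched fluctuation of the thermal mean on one interval of a grid. -/
lemma energy_dev (hN : 0 < N) {x h δ : ℝ} (hh : 0 < h)
    (hdev : ∀ t ∈ Icc (x - h) (x + 2 * h),
      ∫ U, |pressure t l U - ∫ V, pressure t l V ∂haarO N| ∂haarO N ≤ δ) {t : ℝ} (ht : t ∈ Icc x (x + h)) :
    h / 2 * ∫ U, |gib t l U (ener l U) - enMean t l| ∂haarO N
      ≤ (∫ U, pressure (x + 2 * h) l U ∂haarO N) - (∫ U, pressure (x + h) l U ∂haarO N)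
        - (∫ U, pressure x l U ∂haarO N) + (∫ U, pressure (x - h) l U ∂haarO N) + 4 * δ := by
  set E := fun s => ∫ U, pressure s l U ∂haarO N with hE
  have hmp : ∀ U, Monotone fun s => gib s l U (ener l U) / 2 := fun U =>
    monotone_of_hasDerivAt_nonneg (fun s => (hasDeriv_gib_temp s l U).div_const 2) fun s => by
      have := thVar_nonneg s l U
      positivity
  have hmE : Monotone fun s => enMean s l / 2 :=
    monotone_of_hasDerivAt_nonneg (fun s => (hasDeriv_enMean s l).div_const 2) fun s => by
      have : 0 ≤ ∫ U, thVar s l U ∂haarO N := integral_nonneg fun U => thVar_nonneg s l U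
      positivity
  obtain ⟨eA, eB⟩ := And.intro (incr_le (show x + h ≤ x + 2 * h by linarith) (fun s => hasDeriv_mean hN s l) hmE)
    (incr_le (show x - h ≤ x by linarith) (fun s => hasDeriv_mean hN s l) hmE)
  set d := fun s U => |pressure s l U - E s|
  have hpt : ∀ U, h / 2 * |gib t l U (ener l U) - enMean t l|
      ≤ (E (x + 2 * h) - E (x + h) - E x + E (x - h))
        + (d (x + 2 * h) U + d (x + h) U + d x U + d (x - h) U) := by
    intro U
    have pA := (incr_le (show x + h ≤ x + 2 * h by linarith) (fun s => hasDeriv_pressure hN s l U) (hmp U)).1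
    have pB := (incr_le (show x - h ≤ x by linarith) (fun s => hasDeriv_pressure hN s l U) (hmp U)).2
    have a1 := mul_le_mul_of_nonneg_right (hmp U ht.2) hh.le
    have a2 := mul_le_mul_of_nonneg_right (hmp U ht.1) hh.le
    have a3 := mul_le_mul_of_nonneg_right (hmE ht.2) hh.le
    have a4 := mul_le_mul_of_nonneg_right (hmE ht.1) hh.le
    have e1 : h / 2 * |gib t l U (ener l U) - enMean t l|
        = |gib t l U (ener l U) / 2 * h - enMean t l / 2 * h| := by
      rw [show gib t l U (ener l U) / 2 * h - enMean t l / 2 * h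
          = h / 2 * (gib t l U (ener l U) - enMean t l) by ring, abs_mul, abs_of_pos (half_pos hh)]
    rw [e1, abs_le]
    have q := fun s => abs_le.1 (le_refl (d s U))
    simp only [d] at q ⊢
    have e2 : x + 2 * h - (x + h) = h := by ring
    have e3 : x - (x - h) = h := by ring
    rw [e2] at pA
    rw [e3] at pB
    have eA1 := eA.1
    have eB2 := eB.2
    rw [e2] at eA1
    rw [e3] at eB2
    constructor <;>
      linarith [(q (x + 2 * h)).1, (q (x + 2 * h)).2, (q (x + h)).1, (q (x + h)).2, (q x).1, (q x).2,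
        (q (x - h)).1, (q (x - h)).2]
  have hd : ∀ s, Integrable (d s) (haarO N) := fun s =>
    P166.integrable_of_continuous ((P166.continuous_pressure s l).sub continuous_const).abs
  have hp : Integrable (fun U => h / 2 * |gib t l U (ener l U) - enMean t l|) (haarO N) :=
    P166.integrable_of_continuous (continuous_const.mul
      ((continuous_gib' t l fun s => continuous_ener l s).sub continuous_const).abs)
  have h1 := integral_mono hp ((integrable_const _).fun_add
    ((((hd (x + 2 * h)).fun_add (hd (x + h))).fun_add (hd x)).fun_add (hd (x - h)))) hpt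
  rw [integral_const_mul, integral_add (integrable_const _)
      ((((hd (x + 2 * h)).fun_add (hd (x + h))).fun_add (hd x)).fun_add (hd (x - h))),
    integral_add (((hd (x + 2 * h)).fun_add (hd (x + h))).fun_add (hd x)) (hd (x - h)),
    integral_add ((hd (x + 2 * h)).fun_add (hd (x + h))) (hd x),
    integral_add (hd (x + 2 * h)) (hd (x + h))] at h1
  simp only [integral_const, probReal_univ, one_smul] at h1
  have := hdev (x + 2 * h) ⟨by linarith, le_rfl⟩
  have := hdev (x + h) ⟨by linarith, by linarith⟩
  have := hdev x ⟨by linarith, by linarith⟩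
  have := hdev (x - h) ⟨le_rfl, by linarith⟩
  simp only [d, E] at h1 ⊢
  linarith

theorem gap_mono (M η β b₀ ε : ℝ) (hb₀ : 0 < b₀) (hε : 0 < ε) :
    ∃ N0 : ℕ, ∀ N ≥ N0, ∀ l : Fin N → ℝ, Tame M η β l → ∀ b1 b2 : ℝ, b₀ ≤ b1 → b1 ≤ b2 → b2 ≤ β →
      (∫ U, pressure b2 l U ∂haarO N) - phiN l b2
        ≤ (∫ U, pressure b1 l U ∂haarO N) - phiN l b1 + ε := by
  rcases le_or_gt η 0 with hη | hη
  · exact ⟨0, fun N _ l T => absurd T.pos (not_lt.2 hη)⟩
  set M' := |M| + 1
  have hM' : 0 < M' := by positivity
  set β' := |β| + 1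
  have hβ' : 0 < β' := by positivity
  set C := (2 * M' + 1 / b₀) / η / 2
  have hC : 0 < C := by positivity
  set τ := ε / (4 * C * β')
  have hτ : 0 < τ := by positivity
  obtain ⟨n, hn1, hn2, hn0⟩ : ∃ n : ℕ, 8 * C * M' ^ 2 * β' / (τ * ε) ≤ n ∧ β' / b₀ ≤ n ∧ 0 < n := by
    refine ⟨⌈8 * C * M' ^ 2 * β' / (τ * ε)⌉₊ + ⌈β' / b₀⌉₊ + 1, ?_, ?_, Nat.succ_pos _⟩ <;> push_cast <;>
      linarith [Nat.le_ceil (8 * C * M' ^ 2 * β' / (τ * ε)), Nat.le_ceil (β' / b₀),
        show (0 : ℝ) ≤ ⌈8 * C * M' ^ 2 * β' / (τ * ε)⌉₊ from Nat.cast_nonneg _,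
        show (0 : ℝ) ≤ ⌈β' / b₀⌉₊ from Nat.cast_nonneg _]
  have hn' : (0 : ℝ) < n := Nat.cast_pos.2 hn0
  set δ := τ * ε / (16 * C * M' * n)
  have hδ : 0 < δ := by positivity
  obtain ⟨N1, hdev⟩ := dev_uniform M' (3 * β') δ hδ
  obtain ⟨N2, hN2⟩ := exists_nat_gt (4 * C * M' / (τ * ε))
  refine ⟨max N1 (N2 + 1), fun N hN l T b1 b2 h1 h12 h2 => ?_⟩
  have hN' : 0 < N := by omega
  have hNR : (0 : ℝ) < N := Nat.cast_pos.2 hN'
  rcases eq_or_lt_of_le h12 with rfl | hlt
  · linarith
  set h := (b2 - b1) / n
  have hh : 0 < h := div_pos (by linarith) hn'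
  have hnh : (n : ℝ) * h = b2 - b1 := mul_div_cancel₀ _ hn'.ne'
  have hb2β : b2 ≤ β' := h2.trans ((le_abs_self β).trans (by linarith))
  have hhb : h ≤ b₀ := by
    rw [div_le_iff₀ hb₀] at hn2
    refine (div_le_iff₀ hn').2 ?_
    linarith
  have hlM : ∀ i, |l i| ≤ M' := fun i => (T.bdd i).trans ((le_abs_self M).trans (by linarith))
  have hMM : M ≤ M' := (le_abs_self M).trans (by linarith)
  set E := fun t => ∫ U, pressure t l U ∂haarO N
  set Fm := fun t => E t - phiN l t - C / (2 * τ * N) * enMean t l
  set x := fun k : ℕ => b1 + k * h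
  set G := fun k : ℕ => E (x k + 2 * h) - E (x k + h) - E (x k) + E (x k - h) with hGdef
  have hxk : ∀ k, k < n → b1 ≤ x k ∧ x k + h ≤ b2 := fun k hk => by
    have : ((k : ℝ) + 1) * h ≤ n * h := mul_le_mul_of_nonneg_right (by exact_mod_cast hk) hh.le
    have : 0 ≤ (k : ℝ) * h := by positivity
    simp only [x]
    constructor <;> linarith
  have hstep : ∀ k, k < n → Fm (x (k + 1)) - Fm (x k) ≤ C * τ * h + C * M' / τ * (G k + 4 * δ) := by
    intro k hk
    obtain ⟨hk1, hk2⟩ := hxk k hk
    have e : x (k + 1) = x k + h := by simp only [x]; push_cast; ring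
    have key : Fm (x k + h) - Fm (x k) ≤ (x k + h - x k) * (C * (τ + M' * (G k + 4 * δ) / (τ * h))) := by
      refine sub_le_of_deriv' (by linarith) fun t ht => ⟨(enMean t l / 2) - (root l t - 1 / t) / 2
          - C / (2 * τ * N) * (N / 2 * ∫ U, thVar t l U ∂haarO N),
        ((hasDeriv_mean hN' t l).sub (hasDerivAt_phiN hN' T (by linarith [ht.1]) (by linarith [ht.2]))).sub
          ((hasDeriv_enMean t l).const_mul _), ?_⟩
      have htb : b₀ ≤ t := by linarith [ht.1]
      have hen := enMean_le hN' T hb₀ htb (by linarith [ht.2] : t ≤ β) hτ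
      set D := ∫ U, |gib t l U (ener l U) - enMean t l| ∂haarO N
      set V := ∫ U, thVar t l U ∂haarO N
      have hD : h / 2 * D ≤ G k + 4 * δ := energy_dev hN' hh (fun s hs => hdev N (by omega) l hlM s
        ⟨by linarith [hs.1], by linarith [hs.2]⟩) ht
      have hD0 : 0 ≤ D := integral_nonneg fun U => abs_nonneg _
      have hV0 : 0 ≤ V := integral_nonneg fun U => thVar_nonneg t l U
      have hMpos : 0 ≤ M := (abs_nonneg _).trans (T.bdd ⟨0, hN'⟩)
      have h3 : (enMean t l - (root l t - 1 / t)) / 2 ≤ C * (τ + (V + 2 * M' * D) / (4 * τ)) := by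
        calc (enMean t l - (root l t - 1 / t)) / 2
            ≤ (2 * M + 1 / b₀) / η * (τ + (V + 2 * M * D) / (4 * τ)) / 2 :=
              div_le_div_of_nonneg_right hen zero_le_two
          _ ≤ (2 * M' + 1 / b₀) / η * (τ + (V + 2 * M' * D) / (4 * τ)) / 2 := by gcongr
          _ = _ := by ring
      have h4 : C * (2 * M' * D / (4 * τ)) ≤ C * (M' * (G k + 4 * δ) / (τ * h)) := by
        refine mul_le_mul_of_nonneg_left ?_ hC.le
        rw [div_le_div_iff₀ (by positivity) (by positivity)]
        calc 2 * M' * D * (τ * h) = 4 * τ * M' * (h / 2 * D) := by ring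
          _ ≤ 4 * τ * M' * (G k + 4 * δ) := mul_le_mul_of_nonneg_left hD (by positivity)
          _ = _ := by ring
      have e2 : C / (2 * τ * N) * (N / 2 * V) = C * (V / (4 * τ)) := by field_simp; ring
      rw [e2]
      rw [add_div, mul_add, mul_add] at h3
      linarith
    rw [e]
    refine key.trans (le_of_eq ?_)
    field_simp
    ring
  have hsum : Fm (x n) - Fm (x 0) ≤ n * (C * τ * h) + C * M' / τ * (∑ k ∈ Finset.range n, G k + n * (4 * δ)) := by
    rw [← Finset.sum_range_sub (fun k => Fm (x k)) n]
    refine (Finset.sum_le_sum fun k hk => hstep k (Finset.mem_range.1 hk)).trans (le_of_eq ?_)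
    simp only [Finset.sum_add_distrib, mul_add, Finset.sum_const, Finset.card_range, nsmul_eq_mul, ← Finset.mul_sum]
    ring
  have hG : ∑ k ∈ Finset.range n, G k ≤ 2 * (h * M') := by
    set e := fun k : ℕ => E (b1 + k * h) - E (b1 + k * h - h)
    have hGe : ∀ k, G k = (e (k + 2) + e (k + 1)) - (e (k + 1) + e k) := fun k => by
      simp only [hGdef, e, x]; push_cast; ring_nf
    rw [Finset.sum_congr rfl fun k _ => hGe k, Finset.sum_range_sub (fun k => e (k + 1) + e k) n]
    have hb : ∀ k, |e k| ≤ h * M' / 2 := fun k => by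
      have hmE : Monotone fun s => enMean s l / 2 :=
        monotone_of_hasDerivAt_nonneg (fun s => (hasDeriv_enMean s l).div_const 2) fun s => by
          have : 0 ≤ ∫ U, thVar s l U ∂haarO N := integral_nonneg fun U => thVar_nonneg s l U
          positivity
      obtain ⟨q1, q2⟩ := incr_le (show b1 + k * h - h ≤ b1 + k * h by linarith)
        (fun s => hasDeriv_mean hN' s l) hmE
      rw [show b1 + k * h - (b1 + k * h - h) = h by ring] at q1 q2
      have r1 := mul_le_mul_of_nonneg_right (abs_le.1 (abs_enMean_le hlM hN' (b1 + k * h - h))).1 hh.le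
      have r2 := mul_le_mul_of_nonneg_right (abs_le.1 (abs_enMean_le hlM hN' (b1 + k * h))).2 hh.le
      rw [abs_le]
      constructor <;> simp only [e, E] <;> linarith
    linarith [(abs_le.1 (hb (n + 1))).2, (abs_le.1 (hb n)).2, (abs_le.1 (hb 1)).1, (abs_le.1 (hb 0)).1]
  have hxn : x n = b2 := by simp only [x]; linarith
  have hx0 : x 0 = b1 := by simp [x]
  rw [hxn, hx0] at hsum
  have t1 : (n : ℝ) * (C * τ * h) ≤ ε / 4 := by
    calc (n : ℝ) * (C * τ * h) = C * τ * (b2 - b1) := by rw [← hnh]; ring
      _ ≤ C * τ * β' := mul_le_mul_of_nonneg_left (by linarith) (by positivity)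
      _ = ε / 4 := by simp only [τ]; field_simp
  have t2 : C * M' / τ * (2 * (h * M')) ≤ ε / 4 := by
    have hhβ : h ≤ β' / n := div_le_div_of_nonneg_right (by linarith) hn'.le
    calc C * M' / τ * (2 * (h * M')) ≤ C * M' / τ * (2 * (β' / n * M')) := by gcongr
      _ = 8 * C * M' ^ 2 * β' / (τ * ε) * (ε / (4 * n)) := by field_simp; ring
      _ ≤ n * (ε / (4 * n)) := mul_le_mul_of_nonneg_right hn1 (by positivity)
      _ = ε / 4 := by field_simp
  have t3 : C * M' / τ * (n * (4 * δ)) = ε / 4 := by simp only [δ]; field_simp; ring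
  have t4 : C / (2 * τ * N) * enMean b2 l - C / (2 * τ * N) * enMean b1 l ≤ ε / 4 := by
    have hN3 : 4 * C * M' / (τ * ε) ≤ N :=
      hN2.le.trans (by exact_mod_cast (show N2 ≤ N by omega))
    rw [← mul_sub]
    calc C / (2 * τ * N) * (enMean b2 l - enMean b1 l) ≤ C / (2 * τ * N) * (2 * M') := by
          refine mul_le_mul_of_nonneg_left ?_ (by positivity)
          linarith [(abs_le.1 (abs_enMean_le hlM hN' b2)).2, (abs_le.1 (abs_enMean_le hlM hN' b1)).1]
      _ = 4 * C * M' / (τ * ε) * (ε / (4 * N)) := by field_simp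
      _ ≤ N * (ε / (4 * N)) := mul_le_mul_of_nonneg_right hN3 (by positivity)
      _ = ε / 4 := by field_simp
  have t5 := mul_le_mul_of_nonneg_left hG (show 0 ≤ C * M' / τ by positivity)
  simp only [Fm, E] at hsum ⊢
  linarith

end

end Vale.Agent.P166.Plant
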