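import Vale.Agent.P166.Plant.Side
import Vale.Agent.P166.Plant.Mono

/-!
Statistics of one or two Gibbs samples in the eigenbasis.
-/

open MeasureTheory ProbabilityTheory Filter Topology
open Vale.Agent.P157.Plant (Cfg ones sp xr ovl lin absSum)

namespace Vale.Agent.P166.Plant

noncomputable section

variable {N : ℕ}

/-- The mean coordinate. -/
def mu1 (b : ℝ) (l : Fin N → ℝ) (r : ℝ) (d : Dat N) (i : Fin N) : ℝ :=
  av b l r d (fun s => xc d.1 s i)

/-- The mean product of two coordinates. -/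
def mu2 (b : ℝ) (l : Fin N → ℝ) (r : ℝ) (d : Dat N) (i j : Fin N) : ℝ :=
  av b l r d (fun s => xc d.1 s i * xc d.1 s j)

/-- The weighted square of one sample. -/
def X1 (c : Fin N → ℝ) (U : OMat N) (s : Cfg N) : ℝ := (∑ i, c i * xc U s i ^ 2) / N

/-- The weighted product of two samples. -/
def X2 (c : Fin N → ℝ) (U : OMat N) (s s' : Cfg N) : ℝ := (∑ i, c i * (xc U s i * xc U s' i)) / N

/-- The weighted product of one sample and the mean. -/
def Y1 (b : ℝ) (l : Fin N → ℝ) (r : ℝ) (c : Fin N → ℝ) (d : Dat N) (s : Cfg N) : ℝ :=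
  (∑ i, c i * (xc d.1 s i * mu1 b l r d i)) / N

/-- The weighted square of the mean. -/
def Z1 (b : ℝ) (l : Fin N → ℝ) (r : ℝ) (c : Fin N → ℝ) (d : Dat N) : ℝ :=
  (∑ i, c i * mu1 b l r d i ^ 2) / N

end

end Vale.Agent.P166.Plant
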