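import Vale.Agent.P166.Plant.IncrDefs

/-!
The derivative of the planted entropy in the inverse temperature, as a covariance with the
log likelihood.
-/

open MeasureTheory ProbabilityTheory Filter Topology Set
open Vale.Agent.P157.Plant (Cfg ones sp xr ovl lin absSum ent absSum_nonneg measurable_absSum)

namespace Vale.Agent.P166.Plant

noncomputable section

variable {N : ℕ}

/-- Half the mean energy of the annealed model, the derivative of `log zbar`. -/
def halfMean (l : Fin N → ℝ) (t : ℝ) : ℝ :=
  (∫ V, P166.wt t l V (ones N) * ((∑ i, l i * coord V (ones N) i) / 2) ∂haarO N) / zbar t l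

/-- Half the energy, averaged and centred. -/
def likSlope (l : Fin N → ℝ) (r t : ℝ) (d : Dat N) : ℝ :=
  av t l r d (fun s => ∑ i, l i * coord d.1 s i) / 2 - halfMean l t

lemma hasDerivAt_wt_beta (l : Fin N → ℝ) (U : OMat N) (s : Cfg N) (t : ℝ) :
    HasDerivAt (fun t => P166.wt t l U s)
      (P166.wt t l U s * ((∑ i, l i * coord U s i) / 2)) t :=
  ((((hasDerivAt_id' t).div_const 2).mul_const (∑ i, l i * coord U s i)).exp).congr_deriv (by
    unfold P166.wt; ring)

lemma hasDerivAt_zbar (l : Fin N → ℝ) (t : ℝ) :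
    HasDerivAt (fun t => zbar t l) (zbar t l * halfMean l t) t := by
  refine (hasDerivAt_haar (f := fun t U => P166.wt t l U (ones N))
    (D := fun t U => P166.wt t l U (ones N) * ((∑ i, l i * coord U (ones N) i) / 2)) t
    (fun t => P166.continuous_wt t l _) ?_ fun t U => hasDerivAt_wt_beta l U _ t).congr_deriv ?_
  · unfold P166.wt
    have hc : Continuous fun p : ℝ × OMat N => ∑ i, l i * coord p.2 (ones N) i :=
      continuous_finsetSum _ fun i _ =>
        continuous_const.mul ((P166.continuous_coord (ones N) i).comp continuous_snd)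
    exact (Real.continuous_exp.comp ((continuous_fst.div_const 2).mul hc)).mul (hc.div_const 2)
  · rw [halfMean, mul_div_cancel₀ _ (zbar_pos t l).ne']

lemma hasDerivAt_lik_beta (l : Fin N → ℝ) (r t : ℝ) (d : Dat N) :
    HasDerivAt (fun t => lik t l r d) (lik t l r d * likSlope l r t d) t := by
  have hp : ∀ s, HasDerivAt (fun t => pwt t l r d s)
      (pwt t l r d s * ((∑ i, l i * coord d.1 s i) / 2 - halfMean l t)) t := fun s => by
    refine (((hasDerivAt_wt_beta l d.1 s t).fun_div (hasDerivAt_zbar l t)
      (zbar_pos t l).ne').mul_const (Real.exp (Real.sqrt r * lin d.2 s - r * N / 2))).congr_deriv ?_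
    have := (zbar_pos t l).ne'
    simp only [pwt, base]
    field_simp
  refine ((HasDerivAt.fun_sum (u := Finset.univ) fun s _ => hp s).const_mul
    ((2⁻¹ : ℝ) ^ N)).congr_deriv ?_
  rw [likSlope, mul_sub, mul_div_assoc', lik_mul_av, lik]
  simp only [mul_sub, Finset.sum_sub_distrib, mul_div_assoc', ← Finset.sum_div, ← Finset.sum_mul]
  ring

lemma abs_halfMean_le (l : Fin N → ℝ) (t : ℝ) : |halfMean l t| ≤ (∑ i, |l i|) * N / 2 := by
  rw [halfMean, abs_div, abs_of_pos (zbar_pos t l), div_le_iff₀ (zbar_pos t l), zbar,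
    ← integral_const_mul]
  have hw := P166.integrable_of_continuous (P166.continuous_wt t l (ones N))
  refine (norm_integral_le_of_norm_le (hw.const_mul _) (ae_of_all _ fun V => ?_) :
    ‖∫ V, P166.wt t l V (ones N) * ((∑ i, l i * coord V (ones N) i) / 2) ∂haarO N‖ ≤ _)
  have hpos : 0 < P166.wt t l V (ones N) := Real.exp_pos _
  rw [Real.norm_eq_abs, abs_mul, abs_of_pos hpos, abs_div, abs_two, mul_comm]
  exact mul_le_mul_of_nonneg_right
    (div_le_div_of_nonneg_right (sum_l_coord_le l V _) two_pos.le) hpos.le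

lemma abs_likSlope_le (l : Fin N → ℝ) (r t : ℝ) (d : Dat N) :
    |likSlope l r t d| ≤ (∑ i, |l i|) * N := by
  refine (abs_sub _ _).trans ?_
  rw [abs_div, abs_two]
  have h1 := abs_av_le t l r d fun s => sum_l_coord_le l d.1 s
  have h2 := abs_halfMean_le l t
  linarith

@[fun_prop]
lemma measurable_energy (l : Fin N → ℝ) (s : Cfg N) :
    Measurable fun d : Dat N => ∑ i, l i * coord d.1 s i :=
  Finset.measurable_sum _ fun i _ =>
    ((P166.continuous_coord s i).measurable.comp measurable_fst).const_mul (l i)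

lemma gd_avE (l : Fin N → ℝ) (r t : ℝ) :
    Gd fun d : Dat N => av t l r d (fun s => ∑ i, l i * coord d.1 s i) :=
  gd_av t l r (fun s => measurable_energy l s) fun d s => sum_l_coord_le l d.1 s

lemma gd_likSlope (l : Fin N → ℝ) (r t : ℝ) : Gd (likSlope l r t) := by
  refine Gd.of_bdd ?_ (abs_likSlope_le l r t)
  exact ((gd_avE l r t).1.div_const 2).sub_const _

/-- The likelihood, bounded on an interval of temperatures. -/
lemma lik_le_unif (l : Fin N → ℝ) (r : ℝ) {b t : ℝ} (ht : |t| ≤ |b| + 1) (d : Dat N) :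
    lik t l r d ≤ bdC (|b| + 1) l * Real.exp (Real.sqrt r * absSum d.2 - r * N / 2) ∧
      |Real.log (lik t l r d)|
        ≤ Real.log (bdC (|b| + 1) l) + Real.sqrt r * absSum d.2 + |r| * N / 2 := by
  have hc : bdC t l ≤ bdC (|b| + 1) l := by
    refine Real.exp_le_exp.2 ?_
    rw [abs_of_nonneg (by positivity : (0 : ℝ) ≤ |b| + 1)]
    gcongr
  refine ⟨(lik_le t l r d).trans (mul_le_mul_of_nonneg_right hc (Real.exp_pos _).le), ?_⟩
  refine (abs_log_lik_le t l r d).trans ?_
  have := Real.log_le_log (bdC_pos t l) hc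
  linarith

/-- The derivative of the entropy in the inverse temperature. -/
theorem hasDerivAt_Fe_beta (hN : 0 < N) (l : Fin N → ℝ) {r : ℝ} (hr : 0 ≤ r) (b : ℝ) :
    HasDerivAt (fun t => Fe t l r)
      ((1 / 2) * ∫ d, lik b l r d * av b l r d (fun s => ∑ i, l i * coord d.1 s i)
        * (Real.log (lik b l r d) - Fe b l r) ∂nullM N) b := by
  set S := (∑ i, |l i|) * (N : ℝ)
  have hS : 0 ≤ S := by positivity
  have hs : Icc (b - 1) (b + 1) ∈ 𝓝 b := Icc_mem_nhds (by linarith) (by linarith)
  have ht : ∀ t ∈ Icc (b - 1) (b + 1), |t| ≤ |b| + 1 := fun t ht => abs_le.2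
    ⟨by linarith [ht.1, neg_abs_le b], by linarith [ht.2, le_abs_self b]⟩
  have hlikB : Gd fun d : Dat N =>
      bdC (|b| + 1) l * Real.exp (Real.sqrt r * absSum d.2 - r * N / 2) :=
    ⟨(((measurable_absSum.comp measurable_snd).const_mul _).sub_const _).exp.const_mul _,
      bdC (|b| + 1) l * Real.exp (-(r * N / 2)), Real.sqrt r,
      mul_nonneg (bdC_pos _ l).le (Real.exp_pos _).le, Real.sqrt_nonneg r, fun d => by
      rw [abs_of_pos (mul_pos (bdC_pos _ l) (Real.exp_pos _)), mul_assoc, ← Real.exp_add]
      ring_nf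
      exact le_rfl⟩
  have hlogB : Gd fun d : Dat N =>
      (Real.log (bdC (|b| + 1) l) + |r| * N / 2 + 1) + Real.sqrt r * absSum d.2 :=
    (Gd.const _).add ((Gd.const _).mul Gd.absSum_snd)
  -- the mass does not depend on the temperature
  have hd1 := (hasDerivAt_integral_of_dominated_loc_of_deriv_le (μ := nullM N)
    (F := fun t d => lik t l r d) (F' := fun t d => lik t l r d * likSlope l r t d)
    (bound := fun d => bdC (|b| + 1) l * Real.exp (Real.sqrt r * absSum d.2 - r * N / 2) * S)
    hs (Eventually.of_forall fun t => (gd_lik t l r).1.aestronglyMeasurable)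
    (gd_lik b l r).integrable ((gd_lik b l r).mul (gd_likSlope l r b)).1.aestronglyMeasurable
    (ae_of_all _ fun d t htI => ?_) (hlikB.mul (Gd.const S)).integrable
    (ae_of_all _ fun d t _ => hasDerivAt_lik_beta l r t d)).2
  swap
  · rw [Real.norm_eq_abs, abs_mul, abs_of_pos (lik_pos t l r d)]
    exact mul_le_mul (lik_le_unif l r (ht t htI) d).1 (abs_likSlope_le l r t d) (abs_nonneg _)
      (mul_pos (bdC_pos _ l) (Real.exp_pos _)).le
  have h0 : ∫ d, lik b l r d * likSlope l r b d ∂nullM N = 0 := by
    have he : (fun t => ∫ d, lik t l r d ∂nullM N) = fun _ => (1 : ℝ) :=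
      funext fun t => integral_lik t l hr
    rw [he] at hd1
    exact hd1.unique (hasDerivAt_const b 1)
  have hd2 := (hasDerivAt_integral_of_dominated_loc_of_deriv_le (μ := nullM N)
    (F := fun t d => ent (lik t l r d))
    (F' := fun t d => lik t l r d * likSlope l r t d * (Real.log (lik t l r d) + 1))
    (bound := fun d => bdC (|b| + 1) l * Real.exp (Real.sqrt r * absSum d.2 - r * N / 2) * S
      * ((Real.log (bdC (|b| + 1) l) + |r| * N / 2 + 1) + Real.sqrt r * absSum d.2))
    hs (Eventually.of_forall fun t => (gd_ent_lik t l r).1.aestronglyMeasurable)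
    (gd_ent_lik b l r).integrable
    (((gd_lik b l r).mul (gd_likSlope l r b)).mul
      ((gd_log_lik b l r).add (Gd.const 1))).1.aestronglyMeasurable
    (ae_of_all _ fun d t htI => ?_) ((hlikB.mul (Gd.const S)).mul hlogB).integrable
    (ae_of_all _ fun d t _ => ?_)).2
  rotate_left
  · rw [Real.norm_eq_abs, abs_mul, abs_mul, abs_of_pos (lik_pos t l r d)]
    obtain ⟨h1, h2⟩ := lik_le_unif l r (ht t htI) d
    refine mul_le_mul (mul_le_mul h1 (abs_likSlope_le l r t d) (abs_nonneg _)
      (mul_pos (bdC_pos _ l) (Real.exp_pos _)).le) ?_ (abs_nonneg _)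
      (mul_nonneg (mul_pos (bdC_pos _ l) (Real.exp_pos _)).le hS)
    refine (abs_add_le _ _).trans ?_
    rw [abs_one]
    linarith
  · exact (((hasDerivAt_lik_beta l r t d).mul ((hasDerivAt_lik_beta l r t d).log
      (lik_pos t l r d).ne'))).congr_deriv (by
        have := (lik_pos t l r d).ne'
        field_simp)
  refine hd2.congr_deriv ?_
  have hA := gd_avE l r b
  have iA := ((gd_lik b l r).mul hA).integrable
  have iAL := (((gd_lik b l r).mul hA).mul (gd_log_lik b l r)).integrable
  have iL := (gd_lik b l r).integrable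
  have iE := (gd_ent_lik b l r).integrable
  have iS := ((gd_lik b l r).mul (gd_likSlope l r b)).integrable
  have hκ : ∫ d, lik b l r d * av b l r d (fun s => ∑ i, l i * coord d.1 s i) ∂nullM N
      = 2 * halfMean l b := by
    have e : ∀ d : Dat N, lik b l r d * likSlope l r b d
        = lik b l r d * av b l r d (fun s => ∑ i, l i * coord d.1 s i) * (1 / 2)
          - lik b l r d * halfMean l b := fun d => by rw [likSlope]; ring
    simp only [e] at h0
    rw [integral_sub (iA.mul_const _) (iL.mul_const _), integral_mul_const, integral_mul_const,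
      integral_lik b l hr] at h0
    linarith
  have e1 : ∀ d : Dat N, lik b l r d * likSlope l r b d * (Real.log (lik b l r d) + 1)
      = lik b l r d * av b l r d (fun s => ∑ i, l i * coord d.1 s i) * Real.log (lik b l r d)
          * (1 / 2) - ent (lik b l r d) * halfMean l b + lik b l r d * likSlope l r b d :=
    fun d => by simp only [likSlope, ent]; ring
  have e2 : ∀ d : Dat N, lik b l r d * av b l r d (fun s => ∑ i, l i * coord d.1 s i)
        * (Real.log (lik b l r d) - Fe b l r)
      = lik b l r d * av b l r d (fun s => ∑ i, l i * coord d.1 s i) * Real.log (lik b l r d)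
        - lik b l r d * av b l r d (fun s => ∑ i, l i * coord d.1 s i) * Fe b l r :=
    fun d => mul_sub _ _ _
  simp only [e1, e2]
  rw [integral_add ((iAL.mul_const _).sub' (iE.mul_const _)) iS,
    integral_sub (iAL.mul_const _) (iE.mul_const _), integral_mul_const, integral_mul_const, h0,
    integral_sub iAL (iA.mul_const _), integral_mul_const, hκ]
  simp only [Fe]
  ring

end

end Vale.Agent.P166.Plant
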