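import Vale.Agent.P166.Plant.IncrPoint

/-!
The estimates behind the increment.
-/

open MeasureTheory ProbabilityTheory Filter Topology Set
open Vale.Agent.P157.Plant (Cfg ones sp xr ovl lin absSum ent abs_ovl_le)

namespace Vale.Agent.P166.Plant

noncomputable section

variable {N : ℕ} {b K r z zb : ℝ} {l : Fin N → ℝ}

/-- The mean under the planted law of a function of the data. -/
def EL (b : ℝ) (l : Fin N → ℝ) (r : ℝ) (f : Dat N → ℝ) : ℝ := ∫ d, lik b l r d * f d ∂nullM N

/-- The centred log-likelihood. -/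
def psi (b : ℝ) (l : Fin N → ℝ) (r : ℝ) (d : Dat N) : ℝ := Real.log (lik b l r d) - Fe b l r

lemma EL_int {f : Dat N → ℝ} (hf : Gd f) : Integrable (fun d => lik b l r d * f d) (nullM N) :=
  ((gd_lik b l r).mul hf).integrable

lemma EL_mono {f g : Dat N → ℝ} (hf : Gd f) (hg : Gd g) (h : ∀ d, f d ≤ g d) :
    EL b l r f ≤ EL b l r g :=
  integral_mono (EL_int hf) (EL_int hg) fun d => mul_le_mul_of_nonneg_left (h d) (lik_pos b l r d).le

lemma EL_const (hr : 0 ≤ r) (x : ℝ) : EL b l r (fun _ => x) = x := lik_mean hr x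

lemma EL_add {f g : Dat N → ℝ} (hf : Gd f) (hg : Gd g) :
    EL b l r (fun d => f d + g d) = EL b l r f + EL b l r g := by
  unfold EL; simp only [mul_add]; exact integral_add (EL_int hf) (EL_int hg)

lemma EL_sub {f g : Dat N → ℝ} (hf : Gd f) (hg : Gd g) :
    EL b l r (fun d => f d - g d) = EL b l r f - EL b l r g := by
  unfold EL; simp only [mul_sub]; exact integral_sub (EL_int hf) (EL_int hg)

lemma EL_mul (x : ℝ) (f : Dat N → ℝ) : EL b l r (fun d => x * f d) = x * EL b l r f := by
  unfold EL; simp only [mul_left_comm _ x]; exact integral_const_mul x _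

lemma abs_EL_le {f g : Dat N → ℝ} (hf : Gd f) (hg : Gd g) (h : ∀ d, |f d| ≤ g d) :
    |EL b l r f| ≤ EL b l r g :=
  abs_integral_le_integral_abs.trans (integral_mono (EL_int hf).abs (EL_int hg) fun d => abs_lik_mul (h d))

lemma EL_psi (hr : 0 ≤ r) : EL b l r (psi b l r) = 0 := by
  unfold psi
  rw [EL_sub (gd_log_lik b l r) (Gd.const _), EL_const hr]
  exact sub_eq_zero.2 rfl

lemma gd_Z1 (c : Fin N → ℝ) : Gd fun d : Dat N => Z1 b l r c d := by
  simp only [Z1, sq, div_eq_inv_mul]
  exact (Gd.const _).mul (Gd.sum _ fun i _ => (Gd.const _).mul ((gd_mu1 i).mul (gd_mu1 i)))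

lemma cont_Z1 (c : Fin N → ℝ) (w : Fin N → ℝ) : Continuous fun U : OMat N => Z1 b l r c (U, w) := by
  simp only [Z1]
  exact (continuous_finsetSum _ fun i _ => continuous_const.mul ((cont_mu1 w i).pow 2)).div_const _

lemma measurable_Y1 (c : Fin N → ℝ) (s : Cfg N) : Measurable fun d : Dat N => Y1 b l r c d s := by
  simp only [Y1, div_eq_mul_inv]
  exact (Finset.measurable_sum _ fun i _ => measurable_const.mul
    (((continuous_xc s i).measurable.comp measurable_fst).mul (gd_mu1 i).1)).mul_const _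

lemma gd_avX1 (c : Fin N → ℝ) : Gd fun d : Dat N => av b l r d (X1 c d.1) :=
  gd_cont (f := fun U s => X1 c U s) fun s => by unfold X1; fun_prop

lemma gd_Bv (R : ℝ) : Gd fun d : Dat N => Bv b l r R d :=
  gd_cont (f := fun U s => |X1 l U s - R|) fun s => by unfold X1; fun_prop

lemma gd_Wv (hN : 0 < N) (hr : 0 ≤ r) : Gd fun d : Dat N => Wv b l r d := by
  refine Gd.of_bdd (B := 4) ?_ fun d => ?_
  · exact (measurable_av b l r fun s => measurable_av b l r (h := fun _ s2 => (ovl s s2 - qv b l r) ^ 2)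
      fun s2 => measurable_const).sqrt.sqrt
  · rw [abs_of_nonneg (Wv_nonneg d), Wv]
    have h4 : ∀ {x : ℝ}, x ≤ 4 → Real.sqrt x ≤ 4 := fun {x} hx => Real.sqrt_le_iff.2 ⟨by norm_num, by linarith⟩
    exact h4 (h4 (avV_le hN hr d))

lemma EL_Wv (hN : 0 < N) (hr : 0 ≤ r) {t : ℝ} (ht : 0 < t) :
    EL b l r (fun d => Wv b l r d) ≤ t + vr b l r / t ^ 3 := by
  have hg : Gd fun d => av b l r d fun s => av b l r d fun s2 => (ovl s s2 - qv b l r) ^ 2 :=
    Gd.of_bdd (measurable_av b l r fun s => measurable_av b l r fun s2 => measurable_const) (B := 4)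
      fun d => by
        rw [abs_of_nonneg (av_nonneg b l r d fun s => av_nonneg b l r d fun s2 => sq_nonneg _)]
        exact avV_le hN hr d
  calc EL b l r (fun d => Wv b l r d) ≤ EL b l r fun d =>
        t + (t ^ 3)⁻¹ * av b l r d fun s => av b l r d fun s2 => (ovl s s2 - qv b l r) ^ 2 := by
        refine EL_mono (gd_Wv hN hr) ((Gd.const _).add ((Gd.const _).mul hg)) fun d => ?_
        unfold Wv
        set V := av b l r d fun s => av b l r d fun s2 => (ovl s s2 - qv b l r) ^ 2
        have hV : 0 ≤ V := av_nonneg b l r d fun s => av_nonneg b l r d fun s2 => sq_nonneg _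
        set a := Real.sqrt (Real.sqrt V)
        have ha : a ^ 4 = V := by
          rw [show (4 : ℕ) = 2 * 2 from rfl, pow_mul, Real.sq_sqrt (Real.sqrt_nonneg _), Real.sq_sqrt hV]
        rcases le_total a t with h | h
        · have : 0 ≤ (t ^ 3)⁻¹ * V := by positivity
          linarith
        · have : a ≤ (t ^ 3)⁻¹ * V := by
            rw [← div_eq_inv_mul, le_div_iff₀ (by positivity), ← ha,
              show a ^ 4 = a * a ^ 3 by ring]
            exact mul_le_mul_of_nonneg_left (pow_le_pow_left₀ ht.le h 3) (Real.sqrt_nonneg _)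
          linarith
    _ = t + vr b l r / t ^ 3 := by
        rw [EL_add (Gd.const _) ((Gd.const _).mul hg), EL_const hr, EL_mul, div_eq_inv_mul]
        rfl

lemma abs_le_add_sq {u x : ℝ} (hu : 0 < u) : |x| ≤ u + x ^ 2 / u := by
  rcases le_total |x| u with h | h
  · have : 0 ≤ x ^ 2 / u := by positivity
    linarith
  · have : |x| ≤ x ^ 2 / u := by
      rw [le_div_iff₀ hu, ← sq_abs, sq]
      exact mul_le_mul_of_nonneg_left h (abs_nonneg _)
    linarith

lemma EL_av_abs (hr : 0 ≤ r) {f : OMat N → Cfg N → ℝ} (hf : ∀ s, Continuous fun U => f U s) {u : ℝ}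
    (hu : 0 < u) :
    EL b l r (fun d => av b l r d fun s => |f d.1 s|)
      ≤ u + EL b l r (fun d => av b l r d fun s => f d.1 s ^ 2) / u := by
  have h2 := gd_cont (b := b) (l := l) (r := r) (f := fun U s => f U s ^ 2) fun s => (hf s).pow 2
  refine (EL_mono (gd_cont (f := fun U s => |f U s|) fun s => (hf s).abs)
    ((Gd.const u).add ((Gd.const u⁻¹).mul h2)) fun d =>
      (av_mono b l r d fun s => abs_le_add_sq hu).trans (le_of_eq ?_)).trans (le_of_eq ?_)
  · simp only [div_eq_inv_mul, av_add, av_mul, av_const]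
  · rw [EL_add (Gd.const u) ((Gd.const _).mul h2), EL_const hr, EL_mul, div_eq_inv_mul]

lemma hasDeriv_X1 {i j : Fin N} (h : i ≠ j) (c : Fin N → ℝ) (U : OMat N) (s : Cfg N) (t : ℝ) :
    HasDerivAt (fun t => X1 c (rotO h t * U) s)
      (2 * (c i - c j) * (xc (rotO h t * U) s i * xc (rotO h t * U) s j) / N) t := by
  refine ((HasDerivAt.fun_sum fun a _ => ((hasDeriv_xc h U s a t).fun_pow 2).const_mul (c a)).congr_deriv
    ?_).div_const _
  rw [← Finset.sum_subset (Finset.subset_univ {i, j}) fun a _ ha => by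
    simp only [Finset.mem_insert, Finset.mem_singleton, not_or] at ha
    simp [if_neg ha.1, if_neg ha.2]]
  rw [Finset.sum_pair h]
  simp [h.symm]
  ring

lemma abs_dX1_le {c : Fin N → ℝ} {B : ℝ} (hc : ∀ i, |c i| ≤ B) (U : OMat N) (s : Cfg N) (i j : Fin N) :
    |2 * (c i - c j) * (xc U s i * xc U s j) / N| ≤ 4 * B * |xc U s i * xc U s j| / N := by
  rw [abs_div, Nat.abs_cast, abs_mul]
  refine div_le_div_of_nonneg_right (mul_le_mul_of_nonneg_right ?_ (abs_nonneg _)) (Nat.cast_nonneg _)
  rw [abs_mul, abs_two]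
  linarith [abs_sub (c i) (c j), hc i, hc j]

/-- The energy concentrates at the annealed value. -/
theorem est_energy (hN : 0 < N) (hr : 0 ≤ r) (P : Pt K b l zb) (hm : empG l zb = b) {s : ℝ} (hs : 0 < s) :
    EL b l r (fun d => Bv b l r (zb - b⁻¹) d) ≤ s + 16 * K ^ 6 / N / s := by
  have h1 := P.one
  have hb := P.bpos
  have hn : (0 : ℝ) < N := Nat.cast_pos.2 hN
  set R := zb - b⁻¹
  have hX : ∀ U s, 0 < X1 (rc l zb) U s := fun U s =>
    (inv_pos.2 (zero_lt_one.trans_le h1)).trans_le (P.X1_ge hN U s)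
  have hXi : ∀ U s, (X1 (rc l zb) U s)⁻¹ ≤ K := fun U s =>
    (inv_anti₀ (inv_pos.2 (zero_lt_one.trans_le h1)) (P.X1_ge hN U s)).trans_eq (inv_inv K)
  have hcont : ∀ c : Fin N → ℝ, ∀ s, Continuous fun U => X1 c U s := fun c s => by unfold X1; fun_prop
  have hid := single_id (b := b) (l := l) (r := r) hN hr P.cK (G := 16 * K ^ 4)
    (g := fun U s => (X1 l U s - R) / X1 (rc l zb) U s)
    (g' := fun U s i j => (2 * (l i - l j) * (xc U s i * xc U s j) / N * X1 (rc l zb) U s
      - (X1 l U s - R) * (2 * (rc l zb i - rc l zb j) * (xc U s i * xc U s j) / N))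
        / X1 (rc l zb) U s ^ 2)
    (fun s => ((hcont l s).sub continuous_const).div (hcont _ s) fun U => (hX U s).ne')
    (fun s i j => by
      refine Continuous.div ?_ ((hcont _ s).pow 2) fun U => pow_ne_zero 2 (hX U s).ne'
      unfold X1; fun_prop)
    (fun i j h U s t => ((hasDeriv_X1 h l U s t).sub_const R).fun_div (hasDeriv_X1 h _ U s t) (hX _ s).ne')
    (fun U s i j => by
      have hK : 0 ≤ K := zero_le_one.trans h1
      have e : ∀ (p q Xv : ℝ), 0 < Xv → (p * Xv - (X1 l U s - R) * q) / Xv ^ 2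
          = p * Xv⁻¹ - (X1 l U s - R) * q * (Xv⁻¹) ^ 2 := fun p q Xv h => by field_simp
      rw [e _ _ _ (hX U s)]
      refine (abs_sub _ _).trans ?_
      rw [abs_mul, abs_mul, abs_mul (X1 l U s - R), abs_of_pos (inv_pos.2 (hX U s)),
        abs_of_nonneg (sq_nonneg (X1 (rc l zb) U s)⁻¹)]
      have hBR : |X1 l U s - R| ≤ 3 * K := by
        refine (abs_sub _ _).trans ?_
        have := abs_X1_le hN P.lK U s
        have := (abs_sub zb b⁻¹).trans (add_le_add P.zb (le_of_eq_of_le (abs_of_pos (inv_pos.2 hb)) P.binv))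
        simp only [R]; linarith
      have hi := inv_nonneg.2 (hX U s).le
      calc _ ≤ 4 * K * |xc U s i * xc U s j| / N * K + 3 * K * (4 * K * |xc U s i * xc U s j| / N) * K ^ 2 := by
            gcongr
            · exact abs_dX1_le P.lK U s i j
            · exact hXi U s
            · exact abs_dX1_le P.cK U s i j
            · exact hXi U s
        _ = (4 * K ^ 2 + 12 * K ^ 4) * |xc U s i * xc U s j| / N := by ring
        _ ≤ _ := by
            gcongr
            linarith [pow_le_pow_right₀ h1 (show 2 ≤ 4 by norm_num)])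
  have e : ∀ d : Dat N, (fun s => (X1 l d.1 s - R) / X1 (rc l zb) d.1 s * br1 b l (rc l zb) d.1 s)
      = fun s => b * (X1 l d.1 s - R) ^ 2 := fun d => funext fun s => by
    rw [br1_res hN P.lt d.1 s R, hm, show 1 + b * (R - zb) = 0 by simp only [R]; field_simp; ring]
    have := (hX d.1 s).ne'
    field_simp
    ring
  simp only [e, av_mul] at hid
  have h := (abs_le.1 hid).2
  rw [show ∫ d, lik b l r d * (b * av b l r d fun s => (X1 l d.1 s - R) ^ 2) ∂nullM N
    = b * EL b l r (fun d => av b l r d fun s => (X1 l d.1 s - R) ^ 2) from EL_mul b _] at h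
  have h2 : EL b l r (fun d => av b l r d fun s => (X1 l d.1 s - R) ^ 2) ≤ 16 * K ^ 6 / N := by
    rw [← le_div_iff₀' hb] at h
    refine h.trans ?_
    rw [div_eq_inv_mul _ b, show 16 * K ^ 6 / (N : ℝ) = K * (K * (16 * K ^ 4) / N) by ring]
    have : 0 ≤ K := zero_le_one.trans h1
    exact mul_le_mul_of_nonneg_right P.binv (by positivity)
  refine (EL_av_abs hr (f := fun U s => X1 l U s - R) (fun s => (hcont l s).sub continuous_const) hs).trans ?_
  gcongr

lemma empG2_ge (hN : 0 < N) (P : Pt K b l zb) (hm : empG l zb = b) : b / K ≤ empG2 l zb := by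
  have hn : (0 : ℝ) < N := Nat.cast_pos.2 hN
  conv_lhs => rw [← hm]
  rw [empG, empG2, div_right_comm, div_le_div_iff_of_pos_right hn, Finset.sum_div]
  refine Finset.sum_le_sum fun i _ => ?_
  rw [← inv_pow, sq, div_eq_mul_inv]
  exact mul_le_mul_of_nonneg_left (P.cge i) (inv_nonneg.2 (sub_pos.2 (P.lt i)).le)

/-- The resolvent statistic concentrates. -/
theorem est_res (hN : 0 < N) (hr : 0 ≤ r) (P : Pt K b l zb) (hm : empG l zb = b) {δ u : ℝ} (hδ : 0 < δ)
    (P' : Pt K b l (zb + δ)) (hu : 0 < u) :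
    EL b l r (fun d => av b l r d fun s => |X1 (rc l zb) d.1 s - empG2 l zb / b|)
      ≤ 2 * δ * K ^ 2 + u
        + (2 * K ^ 2 * EL b l r (fun d => Bv b l r (zb - b⁻¹) d) + 4 * K ^ 3 / N) / δ / u := by
  have h1 := P.one
  have hK : 0 ≤ K := zero_le_one.trans h1
  have hb := P.bpos
  have hn : (0 : ℝ) < N := Nat.cast_pos.2 hN
  set R := zb - b⁻¹
  set z := zb + δ
  set a := (b - empG l z) / (b * δ)
  have hcont : ∀ c : Fin N → ℝ, ∀ s, Continuous fun U => X1 c U s := fun c s => by unfold X1; fun_prop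
  have hcc : ∀ i, 0 < rc l z i ∧ rc l zb i - rc l z i = δ * (rc l zb i * rc l z i) := fun i => by
    have hz := (sub_pos.2 (P'.lt i)).ne'
    have hzb := (sub_pos.2 (P.lt i)).ne'
    refine ⟨inv_pos.2 (sub_pos.2 (P'.lt i)), ?_⟩
    simp only [rc, z] at hz ⊢
    field_simp
    ring
  have ha : a = (∑ i, rc l zb i * rc l z i) / N / b := by
    simp only [a]
    conv_lhs => arg 1; arg 1; rw [← hm]
    rw [empG, empG, ← sub_div, ← Finset.sum_sub_distrib]
    show (∑ i, (rc l zb i - rc l z i)) / (N : ℝ) / (b * δ) = _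
    rw [Finset.sum_congr rfl fun i _ => (hcc i).2, ← Finset.mul_sum]
    field_simp
  have hsb : ∑ i, rc l zb i = N * b := by
    have := hm
    rw [empG, div_eq_iff hn.ne'] at this
    exact this.trans (mul_comm _ _)
  have ha0 : |a| ≤ K := by
    rw [ha, abs_div, abs_div, Nat.abs_cast, abs_of_pos hb, div_div, div_le_iff₀ (by positivity), ← hsb,
      Finset.mul_sum]
    refine (Finset.abs_sum_le_sum_abs _ _).trans (Finset.sum_le_sum fun i _ => ?_)
    rw [abs_mul, mul_comm K, abs_of_pos (show 0 < rc l zb i from inv_pos.2 (sub_pos.2 (P.lt i)))]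
    exact mul_le_mul_of_nonneg_left (P'.cK i) (inv_pos.2 (sub_pos.2 (P.lt i))).le
  have haa : |a - empG2 l zb / b| ≤ δ * K ^ 2 := by
    rw [ha, empG2, ← sub_div, ← sub_div, ← Finset.sum_sub_distrib, abs_div, abs_div, Nat.abs_cast,
      abs_of_pos hb, div_div, div_le_iff₀ (by positivity), ← hsb, Finset.mul_sum]
    refine (Finset.abs_sum_le_sum_abs _ _).trans (Finset.sum_le_sum fun i _ => ?_)
    obtain ⟨hz0, hzd⟩ := hcc i
    have hb0 : 0 < rc l zb i := inv_pos.2 (sub_pos.2 (P.lt i))
    rw [show ((zb - l i) ^ 2)⁻¹ = rc l zb i * rc l zb i by rw [rc, ← mul_inv, ← sq],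
      show rc l zb i * rc l z i - rc l zb i * rc l zb i = -(rc l zb i * (rc l zb i - rc l z i)) by ring,
      hzd, abs_neg, abs_of_pos (by positivity),
      show rc l zb i * (δ * (rc l zb i * rc l z i)) = δ * (rc l zb i * rc l z i) * rc l zb i by ring, sq]
    gcongr
    · exact (le_abs_self _).trans (P.cK i)
    · exact (le_abs_self _).trans (P'.cK i)
  have hX : ∀ U s, |X1 (rc l zb) U s - X1 (rc l z) U s| ≤ δ * K ^ 2 := fun U s => by
    rw [X1, X1, ← sub_div, ← Finset.sum_sub_distrib, abs_div, Nat.abs_cast, div_le_iff₀ hn,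
      ← sum_xc_sq U s, Finset.mul_sum]
    refine (Finset.abs_sum_le_sum_abs _ _).trans (Finset.sum_le_sum fun i _ => ?_)
    rw [← sub_mul, (hcc i).2, abs_mul, abs_mul, abs_mul, abs_of_pos hδ, abs_of_nonneg (sq_nonneg (xc U s i)), sq K]
    gcongr
    · exact P.cK i
    · exact P'.cK i
  have hid := single_id (b := b) (l := l) (r := r) hN hr P'.cK (G := 4 * K)
    (g := fun U s => X1 (rc l z) U s - a)
    (g' := fun U s i j => 2 * (rc l z i - rc l z j) * (xc U s i * xc U s j) / N)
    (fun s => (hcont _ s).sub continuous_const) (fun s i j => by fun_prop)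
    (fun i j h U s t => (hasDeriv_X1 h _ U s t).sub_const a) (fun U s i j => abs_dX1_le P'.cK U s i j)
  set S2 := EL b l r (fun d => av b l r d fun s => (X1 (rc l z) d.1 s - a) ^ 2) with hS2
  set S1 := EL b l r (fun d => av b l r d fun s =>
    (X1 (rc l z) d.1 s - a) * (X1 (rc l z) d.1 s * (X1 l d.1 s - R))) with hS1
  have e : ∀ d : Dat N, (fun s => (X1 (rc l z) d.1 s - a) * br1 b l (rc l z) d.1 s)
      = fun s => -(b * δ) * (X1 (rc l z) d.1 s - a) ^ 2
        + b * ((X1 (rc l z) d.1 s - a) * (X1 (rc l z) d.1 s * (X1 l d.1 s - R))) := fun d => funext fun s => by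
    have : b - empG l z = b * δ * a := by simp only [a]; field_simp
    rw [br1_res hN P'.lt d.1 s R]
    have h' : 1 + b * (R - z) = -(b * δ) := by simp only [R, z]; field_simp; ring
    rw [h', show ∀ p q : ℝ, p * -(b * δ) + b - empG l z + q = p * -(b * δ) + (b - empG l z) + q
      from fun p q => by ring, this]
    ring
  simp only [e, av_add, av_mul] at hid
  have g2 := gd_cont (b := b) (l := l) (r := r) (f := fun U s => (X1 (rc l z) U s - a) ^ 2)
    fun s => ((hcont _ s).sub continuous_const).pow 2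
  have g1 := gd_cont (b := b) (l := l) (r := r)
    (f := fun U s => (X1 (rc l z) U s - a) * (X1 (rc l z) U s * (X1 l U s - R)))
    fun s => ((hcont _ s).sub continuous_const).mul ((hcont _ s).mul ((hcont _ s).sub continuous_const))
  change |EL b l r (fun d => -(b * δ) * av b l r d _ + b * av b l r d _)| ≤ _ at hid
  rw [EL_add ((Gd.const _).mul g2) ((Gd.const _).mul g1), EL_mul, EL_mul, ← hS2, ← hS1] at hid
  have hS1b : |S1| ≤ 2 * K ^ 2 * EL b l r (fun d => Bv b l r R d) := by
    rw [← EL_mul]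
    refine abs_EL_le g1 ((Gd.const _).mul (gd_Bv R)) fun d => ?_
    rw [Bv, ← av_mul]
    refine abs_av_sub_le d _ _ fun s => ?_
    rw [abs_mul, abs_mul, ← mul_assoc, sq, ← mul_assoc]
    refine mul_le_mul_of_nonneg_right (mul_le_mul ((abs_sub _ _).trans ?_) (abs_X1_le hN P'.cK d.1 s)
      (abs_nonneg _) (by positivity)) (abs_nonneg _)
    linarith [abs_X1_le hN P'.cK d.1 s]
  have hS2b : S2 ≤ (2 * K ^ 2 * EL b l r (fun d => Bv b l r R d) + 4 * K ^ 3 / N) / δ := by
    rw [le_div_iff₀ hδ]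
    have h := (abs_le.1 hid).1
    have h2 : b * (S2 * δ) ≤ b * |S1| + K * (4 * K) / N := by
      nlinarith [mul_le_mul_of_nonneg_left (le_abs_self S1) hb.le]
    have h3 : S2 * δ ≤ |S1| + b⁻¹ * (K * (4 * K) / N) := by
      rw [← le_div_iff₀' hb] at h2
      refine h2.trans (le_of_eq ?_)
      field_simp
    have h4 : b⁻¹ * (K * (4 * K) / N) ≤ 4 * K ^ 3 / N := by
      rw [show 4 * K ^ 3 / (N : ℝ) = K * (K * (4 * K) / N) by ring]
      exact mul_le_mul_of_nonneg_right P.binv (by positivity)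
    linarith
  have hg := gd_cont (b := b) (l := l) (r := r) (f := fun U s => |X1 (rc l z) U s - a|)
    fun s => ((hcont _ s).sub continuous_const).abs
  calc _ ≤ EL b l r (fun d => 2 * δ * K ^ 2 + av b l r d fun s => |X1 (rc l z) d.1 s - a|) := by
        refine EL_mono (gd_cont (f := fun U s => |X1 (rc l zb) U s - empG2 l zb / b|) fun s =>
          ((hcont _ s).sub continuous_const).abs) ((Gd.const _).add hg) fun d => ?_
        rw [← av_const b l r d (2 * δ * K ^ 2), ← av_add]
        refine av_mono b l r d fun s => ?_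
        have := hX d.1 s
        have := abs_add_le (X1 (rc l zb) d.1 s - X1 (rc l z) d.1 s) (X1 (rc l z) d.1 s - empG2 l zb / b)
        have := abs_add_le (X1 (rc l z) d.1 s - a) (a - empG2 l zb / b)
        simp only [sub_add_sub_cancel] at *
        linarith
    _ ≤ _ := by
        rw [EL_add (Gd.const _) hg, EL_const hr]
        have := EL_av_abs (b := b) (l := l) hr (f := fun U s => X1 (rc l z) U s - a)
          (fun s => (hcont _ s).sub continuous_const) hu
        have := div_le_div_of_nonneg_right hS2b hu.le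
        linarith

lemma measurable_num2 (c : Fin N → ℝ) (s : Cfg N) : Measurable fun d : Dat N => num2 b l r c d s := by
  refine measurable_av b l r (h := fun d s' => X2 l d.1 s' s * X2 c d.1 s' s
    - X2 (fun _ => 1) d.1 s' s * X2 (fun i => l i * c i) d.1 s' s) fun s' => ?_
  exact (show Continuous fun U : OMat N => X2 l U s' s * X2 c U s' s
    - X2 (fun _ => 1) U s' s * X2 (fun i => l i * c i) U s' s by unfold X2; fun_prop).measurable.comp
    measurable_fst

lemma abs_num2_le (hN : 0 < N) (P : Pt K b l z) (d : Dat N) (s : Cfg N) :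
    |num2 b l r (rc l z) d s| ≤ 2 * K ^ 2 := by
  refine abs_av_le b l r d fun s' => ?_
  have h1 := P.one
  have hlc : ∀ i, |l i * rc l z i| ≤ K ^ 2 := fun i => by
    rw [abs_mul, sq]; exact mul_le_mul (P.lK i) (P.cK i) (abs_nonneg _) (zero_le_one.trans h1)
  refine (abs_sub _ _).trans ?_
  rw [abs_mul, abs_mul]
  have i1 := mul_le_mul (abs_X2_le hN P.lK d.1 s' s) (abs_X2_le hN P.cK d.1 s' s) (abs_nonneg _)
    (zero_le_one.trans h1)
  have i2 := mul_le_mul (abs_X2_le hN (c := fun _ : Fin N => (1 : ℝ)) (K := 1) (fun _ => by simp) d.1 s' s)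
    (abs_X2_le hN hlc d.1 s' s) (abs_nonneg _) zero_le_one
  nlinarith

lemma gd_num2X (hN : 0 < N) (P : Pt K b l z) :
    Gd fun d => av b l r d fun s => (X1 (rc l z) d.1 s)⁻¹ * num2 b l r (rc l z) d s := by
  have hK : 0 < K := zero_lt_one.trans_le P.one
  refine gd_av b l r (fun s => Measurable.mul ?_ (measurable_num2 _ s)) (B := K * (2 * K ^ 2)) fun d s => ?_
  · exact ((show Continuous fun U : OMat N => X1 (rc l z) U s by unfold X1; fun_prop).measurable.comp
      measurable_fst).inv
  · rw [abs_mul, abs_inv]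
    refine mul_le_mul ?_ (abs_num2_le hN P d s) (abs_nonneg _) hK.le
    exact (inv_anti₀ (inv_pos.2 hK) ((P.X1_ge hN d.1 s).trans (le_abs_self _))).trans_eq (inv_inv K)

/-- The covariance of the energy and the log-likelihood, as a pair average. -/
theorem est_ent (hN : 0 < N) (hr : 0 ≤ r) (P : Pt K b l zb) (hm : empG l zb = b) :
    |EL b l r (fun d => psi b l r d * av b l r d (X1 l d.1))
        + EL b l r (fun d => av b l r d fun s => (X1 (rc l zb) d.1 s)⁻¹ * num2 b l r (rc l zb) d s)|
      ≤ 4 * K ^ 5 * dev b l r / N := by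
  have h1 := P.one
  have hb := P.bpos
  set R := zb - b⁻¹
  have hX : ∀ U s, 0 < X1 (rc l zb) U s := fun U s =>
    (inv_pos.2 (zero_lt_one.trans_le h1)).trans_le (P.X1_ge hN U s)
  have hXi : ∀ U s, (X1 (rc l zb) U s)⁻¹ ≤ K := fun U s =>
    (inv_anti₀ (inv_pos.2 (zero_lt_one.trans_le h1)) (P.X1_ge hN U s)).trans_eq (inv_inv K)
  have hid := ent_id (b := b) (l := l) (r := r) hN hr P.cK (G := 4 * K ^ 3)
    (g := fun U s => (X1 (rc l zb) U s)⁻¹)
    (g' := fun U s i j => -(2 * (rc l zb i - rc l zb j) * (xc U s i * xc U s j) / N) / X1 (rc l zb) U s ^ 2)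
    (fun s => (show Continuous fun U : OMat N => X1 (rc l zb) U s by unfold X1; fun_prop).inv₀
      fun U => (hX U s).ne')
    (fun s i j => by
      refine Continuous.div (by fun_prop) ?_ fun U => pow_ne_zero 2 (hX U s).ne'
      unfold X1; fun_prop)
    (fun i j h U s t => (hasDeriv_X1 h _ U s t).fun_inv (hX _ s).ne')
    (fun U s i j => by
      rw [abs_div, abs_neg, abs_of_nonneg (sq_nonneg (X1 (rc l zb) U s)), div_eq_mul_inv, ← inv_pow]
      refine (mul_le_mul (abs_dX1_le P.cK U s i j) (pow_le_pow_left₀ (inv_nonneg.2 (hX U s).le) (hXi U s) 2)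
        (by positivity) (by have := zero_le_one.trans h1; positivity)).trans (le_of_eq ?_)
      ring)
  have e : ∀ d : Dat N, (fun s => (X1 (rc l zb) d.1 s)⁻¹ * br1 b l (rc l zb) d.1 s)
      = fun s => b * X1 l d.1 s - b * R := fun d => funext fun s => by
    rw [br1_res hN P.lt d.1 s R, hm, show 1 + b * (R - zb) = 0 by simp only [R]; field_simp; ring]
    have := (hX d.1 s).ne'
    field_simp
    ring
  simp only [e, av_sub, av_mul, av_const] at hid
  set D := EL b l r (fun d => psi b l r d * av b l r d (X1 l d.1)) with hD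
  set E2 := EL b l r (fun d => av b l r d fun s => (X1 (rc l zb) d.1 s)⁻¹ * num2 b l r (rc l zb) d s) with hE2
  have gA : Gd fun d => psi b l r d * av b l r d (X1 l d.1) :=
    ((gd_log_lik b l r).sub (Gd.const _)).mul (gd_avX1 l)
  have gψ : Gd fun d => psi b l r d := (gd_log_lik b l r).sub (Gd.const _)
  have gn := gd_num2X (r := r) hN P
  change |EL b l r (fun d => psi b l r d * (b * av b l r d (X1 l d.1) - b * R)
    + b * av b l r d fun s => (X1 (rc l zb) d.1 s)⁻¹ * num2 b l r (rc l zb) d s)| ≤ _ at hid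
  rw [show (fun d => psi b l r d * (b * av b l r d (X1 l d.1) - b * R)
      + b * av b l r d fun s => (X1 (rc l zb) d.1 s)⁻¹ * num2 b l r (rc l zb) d s)
    = fun d => (b * (psi b l r d * av b l r d (X1 l d.1)) - b * R * psi b l r d)
      + b * av b l r d fun s => (X1 (rc l zb) d.1 s)⁻¹ * num2 b l r (rc l zb) d s from funext fun d => by ring,
    EL_add (((Gd.const _).mul gA).sub ((Gd.const _).mul gψ)) ((Gd.const _).mul gn),
    EL_sub ((Gd.const _).mul gA) ((Gd.const _).mul gψ), EL_mul, EL_mul, EL_mul, EL_psi hr, mul_zero, sub_zero,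
    ← mul_add, ← hD, ← hE2, abs_mul, abs_of_pos hb, ← le_div_iff₀' hb] at hid
  refine hid.trans ?_
  have hdev : 0 ≤ dev b l r := integral_nonneg fun d => mul_nonneg (base_pos _ _ _ _).le (abs_nonneg _)
  rw [div_eq_inv_mul _ b, show 4 * K ^ 5 * dev b l r / N = K * (K * (4 * K ^ 3) * dev b l r / N) by ring]
  have : 0 ≤ K := zero_le_one.trans h1
  exact mul_le_mul_of_nonneg_right P.binv (by positivity)

end

end Vale.Agent.P166.Plant
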