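import Vale.Agent.P166.Plant.IncrRot

/-!
Rotation identities for two samples and for the log-likelihood.
-/

open MeasureTheory ProbabilityTheory Filter Topology Set
open Vale.Agent.P157.Plant (Cfg ones sp xr ovl lin absSum)

namespace Vale.Agent.P166.Plant

noncomputable section

variable {N : ℕ} {b M K r : ℝ} {l : Fin N → ℝ}

lemma sum_abs_le {u v : Fin N → ℝ} (hu : ∑ i, u i ^ 2 ≤ N) (hv : ∑ i, v i ^ 2 ≤ N) :
    ∑ i, |u i * v i| ≤ N := by
  have h : ∀ i, |u i * v i| ≤ (u i ^ 2 + v i ^ 2) / 2 := fun i => by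
    rw [abs_mul]; nlinarith [sq_nonneg (|u i| - |v i|), sq_abs (u i), sq_abs (v i)]
  refine (Finset.sum_le_sum fun i _ => h i).trans ?_
  rw [← Finset.sum_div, Finset.sum_add_distrib]
  linarith

lemma av_neg (d : Dat N) (f : Cfg N → ℝ) : av b l r d (fun s => -f s) = -av b l r d f := by
  rw [show (fun s => -f s) = fun s => (-1 : ℝ) * f s from funext fun s => by ring, av_mul, neg_one_mul]

lemma abs_av_le_av (d : Dat N) (f : Cfg N → ℝ) : |av b l r d f| ≤ av b l r d (fun s => |f s|) := by
  rw [abs_le]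
  refine ⟨?_, av_mono b l r d fun s => le_abs_self _⟩
  rw [neg_le, ← neg_one_mul, ← av_mul]
  exact av_mono b l r d fun s => by rw [neg_one_mul]; exact neg_le_abs _

lemma sum_mu_xc (d : Dat N) {v : Fin N → ℝ} (hv : ∑ i, v i ^ 2 ≤ N) :
    ∑ i, |mu1 b l r d i * v i| ≤ N := by
  have h : ∀ i, |mu1 b l r d i * v i| ≤ av b l r d (fun s => |xc d.1 s i * v i|) := fun i => by
    rw [mu1, ← av_mul_right]; exact abs_av_le_av d _
  refine (Finset.sum_le_sum fun i _ => h i).trans ?_
  rw [← av_finsum]
  exact (av_mono b l r d fun s => sum_abs_le (sum_xc_sq d.1 s).le hv).trans_eq (av_const _ _ _ _ _)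

lemma sum_mu_mu_xx (d : Dat N) (s : Cfg N) :
    ∑ i, ∑ j, |mu1 b l r d i * mu1 b l r d j| * |xc d.1 s i * xc d.1 s j| ≤ (N : ℝ) * N := by
  have h := sum_mu_xc (b := b) (l := l) (r := r) d (sum_xc_sq d.1 s).le
  refine le_trans (le_of_eq ?_) (mul_le_mul h h (Finset.sum_nonneg fun i _ => abs_nonneg _) (Nat.cast_nonneg _))
  rw [Finset.sum_mul_sum]
  exact Finset.sum_congr rfl fun i _ => Finset.sum_congr rfl fun j _ => by simp only [abs_mul]; ring

lemma sum_mu2_xx (d : Dat N) {u v : Fin N → ℝ} (hu : ∑ i, u i ^ 2 ≤ N) (hv : ∑ i, v i ^ 2 ≤ N) :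
    ∑ i, ∑ j, |mu2 b l r d i j| * |u i * v j| ≤ (N : ℝ) * N := by
  have h : ∀ i j, |mu2 b l r d i j| * |u i * v j|
      ≤ av b l r d (fun s => |xc d.1 s i * u i| * |xc d.1 s j * v j|) := fun i j => by
    refine (mul_le_mul_of_nonneg_right (abs_av_le_av d _) (abs_nonneg _)).trans (le_of_eq ?_)
    rw [← av_mul_right]
    exact congrArg _ (funext fun s => by simp only [abs_mul]; ring)
  refine (Finset.sum_le_sum fun i _ => Finset.sum_le_sum fun j _ => h i j).trans ?_
  simp only [← av_finsum, ← Finset.sum_mul_sum]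
  exact (av_mono b l r d fun s => mul_le_mul (sum_abs_le (sum_xc_sq d.1 s).le hu)
    (sum_abs_le (sum_xc_sq d.1 s).le hv) (Finset.sum_nonneg fun i _ => abs_nonneg _)
    (Nat.cast_nonneg _)).trans_eq (av_const _ _ _ _ _)

/-- Rotation derivatives summed over all planes have mean zero. -/
lemma sum_rot (F D : Fin N → Fin N → Dat N → ℝ) (hF : ∀ i j z, Continuous fun U => F i j (U, z))
    (hD : ∀ i j z, Continuous fun U => D i j (U, z)) (hg : ∀ i j, Gd (D i j))
    (h0 : ∀ i d, D i i d = 0)
    (hd : ∀ i j (h : i ≠ j) d t, HasDerivAt (fun t => F i j (rotd h t d)) (D i j (rotd h t d)) t) :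
    ∫ d, ∑ i, ∑ j, D i j d ∂nullM N = 0 := by
  rw [integral_finsetSum _ fun i _ => integrable_finsetSum _ fun j _ => (hg i j).integrable]
  refine Finset.sum_eq_zero fun i _ => ?_
  rw [integral_finsetSum _ fun j _ => (hg i j).integrable]
  refine Finset.sum_eq_zero fun j _ => ?_
  rcases eq_or_ne i j with rfl | h
  · simp [h0]
  · exact integral_rot h (hF i j) (hD i j) (hg i j) (hd i j h)

lemma cont_mu1 (z : Fin N → ℝ) (i : Fin N) : Continuous fun U : OMat N => mu1 b l r (U, z) i :=
  cont_av z (f := fun U s => xc U s i) fun s => continuous_xc s i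

lemma cont_mu2 (z : Fin N → ℝ) (i j : Fin N) : Continuous fun U : OMat N => mu2 b l r (U, z) i j :=
  cont_av z (f := fun U s => xc U s i * xc U s j) fun s => by fun_prop

lemma gd_mu1 (i : Fin N) : Gd fun d : Dat N => mu1 b l r d i :=
  gd_cont (f := fun U s => xc U s i) fun s => continuous_xc s i

lemma gd_mu2 (i j : Fin N) : Gd fun d : Dat N => mu2 b l r d i j :=
  gd_cont (f := fun U s => xc U s i * xc U s j) fun s => by fun_prop

/-- The rate of change of a mean coordinate. -/
def dmu (b : ℝ) (l : Fin N → ℝ) (r : ℝ) (d : Dat N) (i j k : Fin N) : ℝ :=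
  av b l r d (fun s => (if k = i then xc d.1 s j else if k = j then -xc d.1 s i else 0)
    + b * rotW l d.1 s i j * xc d.1 s k)
    - b * av b l r d (fun s => rotW l d.1 s i j) * mu1 b l r d k

lemma rot_mu1 {i j : Fin N} (h : i ≠ j) (d : Dat N) (k : Fin N) (t : ℝ) :
    HasDerivAt (fun t => mu1 b l r (rotd h t d) k) (dmu b l r (rotd h t d) i j k) t :=
  rot_av (b := b) (l := l) (r := r) h d (f := fun U s => xc U s k) fun s => hasDeriv_xc h d.1 s k t

/-- Two-sample derivative terms, before multiplying by the test. -/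
def pairT (b : ℝ) (l : Fin N → ℝ) (r : ℝ) (d : Dat N) (i j : Fin N) : ℝ :=
  av b l r d (fun s => xc d.1 s j ^ 2 - xc d.1 s i ^ 2 + b * rotW l d.1 s i j * (xc d.1 s i * xc d.1 s j))
    - (mu1 b l r d j ^ 2 - mu1 b l r d i ^ 2
      + b * av b l r d (fun s => rotW l d.1 s i j * xc d.1 s i) * mu1 b l r d j
      + b * mu1 b l r d i * av b l r d (fun s => rotW l d.1 s i j * xc d.1 s j)
      - b * av b l r d (fun s => rotW l d.1 s i j) * (mu1 b l r d i * mu1 b l r d j))

/-- The bracket of two samples. -/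
def br2 (b : ℝ) (l : Fin N → ℝ) (r : ℝ) (c : Fin N → ℝ) (d : Dat N) : ℝ :=
  av b l r d (br1 b l c d.1)
    - (Z1 b l r c d - (∑ i, c i) / N * Z1 b l r (fun _ => 1) d
      + b * (av b l r d (fun s => X1 l d.1 s * Y1 b l r c d s - Y1 b l r (fun i => l i * c i) d s)
        + av b l r d (fun s => Y1 b l r l d s * X1 c d.1 s
            - Y1 b l r (fun _ => 1) d s * X1 (fun i => l i * c i) d.1 s)
        - av b l r d (fun s => Y1 b l r l d s * Y1 b l r c d s
            - Y1 b l r (fun _ => 1) d s * Y1 b l r (fun i => l i * c i) d s)))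

lemma sum_av2 (d : Dat N) (F : Fin N → Fin N → Cfg N → ℝ) :
    ∑ i, ∑ j, av b l r d (F i j) = av b l r d (fun s => ∑ i, ∑ j, F i j s) := by
  simp only [av_finsum]

lemma pairT_sum (hN : 0 < N) (c : Fin N → ℝ) (d : Dat N) :
    ∑ i, ∑ j, c j * pairT b l r d i j = (N : ℝ) * N * br2 b l r c d := by
  have hn : (N : ℝ) ≠ 0 := (Nat.cast_pos.2 hN).ne'
  have h1 : ∑ i, ∑ j, c j * av b l r d (fun s => xc d.1 s j ^ 2 - xc d.1 s i ^ 2
      + b * rotW l d.1 s i j * (xc d.1 s i * xc d.1 s j)) = (N : ℝ) * N * av b l r d (br1 b l c d.1) := by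
    simp only [← av_mul, sum_av2, br1_sum hN]
  have h2 : ∑ i, ∑ j, c j * (mu1 b l r d j ^ 2 - mu1 b l r d i ^ 2)
      = (N : ℝ) * N * (Z1 b l r c d - (∑ i, c i) / N * Z1 b l r (fun _ => 1) d) := by
    simp only [mul_sub, Finset.sum_sub_distrib, Z1, one_mul, ← Finset.mul_sum, ← Finset.sum_mul,
      Finset.sum_const, Finset.card_univ, Fintype.card_fin, nsmul_eq_mul]
    field_simp
  have h3 : ∀ s, ∑ i, ∑ j, c j * (rotW l d.1 s i j * xc d.1 s i * mu1 b l r d j)
      = (N : ℝ) * N * (X1 l d.1 s * Y1 b l r c d s - Y1 b l r (fun i => l i * c i) d s) := fun s => by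
    have e : ∀ i j, c j * (rotW l d.1 s i j * xc d.1 s i * mu1 b l r d j)
        = (l i * xc d.1 s i ^ 2) * (c j * (xc d.1 s j * mu1 b l r d j))
          - xc d.1 s i ^ 2 * (l j * c j * (xc d.1 s j * mu1 b l r d j)) := fun i j => by unfold rotW; ring
    simp only [e, Finset.sum_sub_distrib, ← Finset.mul_sum, ← Finset.sum_mul, X1, Y1, sum_xc_sq]
    field_simp
  have h4 : ∀ s, ∑ i, ∑ j, c j * (mu1 b l r d i * (rotW l d.1 s i j * xc d.1 s j))
      = (N : ℝ) * N * (Y1 b l r l d s * X1 c d.1 s
            - Y1 b l r (fun _ => 1) d s * X1 (fun i => l i * c i) d.1 s) := fun s => by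
    have e : ∀ i j, c j * (mu1 b l r d i * (rotW l d.1 s i j * xc d.1 s j))
        = (l i * (xc d.1 s i * mu1 b l r d i)) * (c j * xc d.1 s j ^ 2)
          - (xc d.1 s i * mu1 b l r d i) * (l j * c j * xc d.1 s j ^ 2) := fun i j => by unfold rotW; ring
    simp only [e, Finset.sum_sub_distrib, ← Finset.mul_sum, ← Finset.sum_mul, X1, Y1, one_mul]
    field_simp
  have h5 : ∀ s, ∑ i, ∑ j, c j * (rotW l d.1 s i j * (mu1 b l r d i * mu1 b l r d j))
      = (N : ℝ) * N * (Y1 b l r l d s * Y1 b l r c d s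
            - Y1 b l r (fun _ => 1) d s * Y1 b l r (fun i => l i * c i) d s) := fun s => by
    have e : ∀ i j, c j * (rotW l d.1 s i j * (mu1 b l r d i * mu1 b l r d j))
        = (l i * (xc d.1 s i * mu1 b l r d i)) * (c j * (xc d.1 s j * mu1 b l r d j))
          - (xc d.1 s i * mu1 b l r d i) * (l j * c j * (xc d.1 s j * mu1 b l r d j)) := fun i j => by
      unfold rotW; ring
    simp only [e, Finset.sum_sub_distrib, ← Finset.mul_sum, ← Finset.sum_mul, Y1, one_mul]
    field_simp
  have e : ∀ i j, c j * pairT b l r d i j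
      = c j * av b l r d (fun s => xc d.1 s j ^ 2 - xc d.1 s i ^ 2
          + b * rotW l d.1 s i j * (xc d.1 s i * xc d.1 s j))
        - c j * (mu1 b l r d j ^ 2 - mu1 b l r d i ^ 2)
        - b * av b l r d (fun s => c j * (rotW l d.1 s i j * xc d.1 s i * mu1 b l r d j))
        - b * av b l r d (fun s => c j * (mu1 b l r d i * (rotW l d.1 s i j * xc d.1 s j)))
        + b * av b l r d (fun s => c j * (rotW l d.1 s i j * (mu1 b l r d i * mu1 b l r d j))) := fun i j => by
    simp only [pairT, av_mul, av_mul_right]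
    ring
  simp only [e, Finset.sum_add_distrib, Finset.sum_sub_distrib, h1, h2]
  simp only [← Finset.mul_sum, sum_av2, h3, h4, h5]
  simp only [av_mul, br2]
  ring

/-- The identity of two samples against a test on the data. -/
theorem pair_id (hN : 0 < N) (hr : 0 ≤ r) {c : Fin N → ℝ} (hc : ∀ i, |c i| ≤ K) {G : ℝ} (hG : 0 ≤ G)
    {Φ : Dat N → ℝ} {Φ' : Dat N → Fin N → Fin N → ℝ} {W : Dat N → Cfg N → ℝ}
    (hΦc : ∀ z, Continuous fun U => Φ (U, z)) (hΦ'c : ∀ i j z, Continuous fun U => Φ' (U, z) i j)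
    (hΦg : Gd Φ) (hΦ'g : ∀ i j, Gd fun d => Φ' d i j) (hWg : Gd fun d => av b l r d (W d))
    (hW : ∀ d s, 0 ≤ W d s)
    (hd : ∀ i j (h : i ≠ j) d t, HasDerivAt (fun t => Φ (rotd h t d)) (Φ' (rotd h t d) i j) t)
    (hb : ∀ d i j, |Φ' d i j| ≤ G * |mu1 b l r d i * mu1 b l r d j| / N
      + av b l r d (fun s => W d s * |xc d.1 s i * xc d.1 s j|)) :
    |∫ d, lik b l r d * (Φ d * br2 b l r c d) ∂nullM N|
      ≤ 2 * K * G / N + 2 * K * ∫ d, lik b l r d * av b l r d (W d) ∂nullM N := by
  have hn : (0 : ℝ) < N := Nat.cast_pos.2 hN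
  have hK : 0 ≤ K := (abs_nonneg _).trans (hc ⟨0, hN⟩)
  obtain ⟨S, hS⟩ : ∃ S : Fin N → Fin N → Dat N → ℝ, S = fun i j d =>
      mu2 b l r d i j - mu1 b l r d i * mu1 b l r d j := ⟨_, rfl⟩
  obtain ⟨P, hP⟩ : ∃ P : Fin N → Fin N → Dat N → ℝ, P = fun i j d => if i = j then 0 else
      c j * (S i j d * Φ' d i j) := ⟨_, rfl⟩
  obtain ⟨A, hA⟩ : ∃ A : Fin N → Fin N → Dat N → ℝ, A = fun i j d => c j * pairT b l r d i j := ⟨_, rfl⟩
  have cA : ∀ i j z, Continuous fun U => A i j (U, z) := fun i j z => by
    simp only [hA, pairT]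
    refine continuous_const.mul (((cont_av z (f := fun U s => xc U s j ^ 2 - xc U s i ^ 2
      + b * rotW l U s i j * (xc U s i * xc U s j)) fun s => by unfold rotW; fun_prop)).sub ?_)
    have w1 := cont_av (b := b) (l := l) (r := r) z (f := fun U s => rotW l U s i j * xc U s i)
      fun s => by unfold rotW; fun_prop
    have w2 := cont_av (b := b) (l := l) (r := r) z (f := fun U s => rotW l U s i j * xc U s j)
      fun s => by unfold rotW; fun_prop
    have w3 := cont_av (b := b) (l := l) (r := r) z (f := fun U s => rotW l U s i j)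
      fun s => by unfold rotW; fun_prop
    exact (((((cont_mu1 z j).pow 2).sub ((cont_mu1 z i).pow 2)).add
      ((continuous_const.mul w1).mul (cont_mu1 z j))).add ((continuous_const.mul (cont_mu1 z i)).mul w2)).sub
      ((continuous_const.mul w3).mul ((cont_mu1 z i).mul (cont_mu1 z j)))
  have gA : ∀ i j, Gd (A i j) := fun i j => by
    simp only [hA, pairT]
    refine (Gd.const _).mul ((gd_cont (f := fun U s => xc U s j ^ 2 - xc U s i ^ 2
      + b * rotW l U s i j * (xc U s i * xc U s j)) fun s => by unfold rotW; fun_prop).sub ?_)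
    have w1 := gd_cont (b := b) (l := l) (r := r) (f := fun U s => rotW l U s i j * xc U s i)
      fun s => by unfold rotW; fun_prop
    have w2 := gd_cont (b := b) (l := l) (r := r) (f := fun U s => rotW l U s i j * xc U s j)
      fun s => by unfold rotW; fun_prop
    have w3 := gd_cont (b := b) (l := l) (r := r) (f := fun U s => rotW l U s i j)
      fun s => by unfold rotW; fun_prop
    simp only [sq]
    exact (((((gd_mu1 j).mul (gd_mu1 j)).sub ((gd_mu1 i).mul (gd_mu1 i))).add
      (((Gd.const _).mul w1).mul (gd_mu1 j))).add (((Gd.const _).mul (gd_mu1 i)).mul w2)).sub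
      (((Gd.const _).mul w3).mul ((gd_mu1 i).mul (gd_mu1 j)))
  have cS : ∀ i j z, Continuous fun U => S i j (U, z) := fun i j z => by
    simp only [hS]; exact (cont_mu2 z i j).sub ((cont_mu1 z i).mul (cont_mu1 z j))
  have gS : ∀ i j, Gd (S i j) := fun i j => by
    simp only [hS]; exact (gd_mu2 i j).sub ((gd_mu1 i).mul (gd_mu1 j))
  have cP : ∀ i j z, Continuous fun U => P i j (U, z) := fun i j z => by
    simp only [hP]; split_ifs
    · exact continuous_const
    · exact continuous_const.mul ((cS i j z).mul (hΦ'c i j z))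
  have gP : ∀ i j, Gd (P i j) := fun i j => by
    simp only [hP]; split_ifs
    · exact Gd.const 0
    · exact (Gd.const _).mul ((gS i j).mul (hΦ'g i j))
  have h0 := sum_rot (N := N) (fun i j d => lik b l r d * (Φ d * (c j * S i j d)))
    (fun i j d => lik b l r d * (Φ d * A i j d + P i j d))
    (fun i j z => (cont_lik z).mul ((hΦc z).mul (continuous_const.mul (cS i j z))))
    (fun i j z => (cont_lik z).mul (((hΦc z).mul (cA i j z)).add (cP i j z)))
    (fun i j => (gd_lik b l r).mul ((hΦg.mul (gA i j)).add (gP i j)))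
    (fun i d => by simp [hA, hP, pairT, rotW, av_const])
    fun i j h d t => by
      have hm2 := rot_av (b := b) (l := l) (r := r) h d (t := t) (f := fun U s => xc U s i * xc U s j)
        fun s => (hasDeriv_xc h d.1 s i t).fun_mul (hasDeriv_xc h d.1 s j t)
      have hS' := hm2.fun_sub ((rot_mu1 (b := b) (l := l) (r := r) h d i t).fun_mul
        (rot_mu1 (b := b) (l := l) (r := r) h d j t))
      have hall := (rot_lik (b := b) (l := l) (r := r) h d t).fun_mul
        ((hd i j h d t).fun_mul (hS'.const_mul (c j)))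
      simp only [hS]
      refine hall.congr_deriv ?_
      simp only [hA, hP, hS, pairT, dmu, mu1, mu2, rotd, if_neg h, if_neg h.symm, if_true]
      simp only [mul_assoc, mul_neg, av_add, av_sub, av_mul, av_neg]
      ring
  have hAs : ∀ d, ∑ i, ∑ j, A i j d = (N : ℝ) * N * br2 b l r c d := fun d => by
    simp only [hA]; exact pairT_sum hN c d
  have hPs : ∀ d, |∑ i, ∑ j, P i j d| ≤ 2 * K * G * N + 2 * K * N * N * av b l r d (W d) := fun d => by
    set u := mu1 b l r d
    have hu := sum_mu_le b l r d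
    have t1 : ∑ i, ∑ j, |S i j d| * |u i * u j| ≤ 2 * ((N : ℝ) * N) := by
      refine le_trans (Finset.sum_le_sum fun i _ => Finset.sum_le_sum fun j _ =>
        show |S i j d| * |u i * u j| ≤ |mu2 b l r d i j| * |u i * u j| + u i ^ 2 * u j ^ 2 by
          rw [← mul_pow, ← sq_abs (u i * u j), sq, ← add_mul]
          simp only [hS]
          exact mul_le_mul_of_nonneg_right (abs_sub _ _) (abs_nonneg _)) ?_
      simp only [Finset.sum_add_distrib, ← Finset.sum_mul_sum]
      linarith [sum_mu2_xx (b := b) (l := l) (r := r) d hu hu,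
        mul_le_mul hu hu (Finset.sum_nonneg fun i _ => sq_nonneg (u i)) hn.le]
    have t2 : ∀ s, ∑ i, ∑ j, |S i j d| * |xc d.1 s i * xc d.1 s j| ≤ 2 * ((N : ℝ) * N) := fun s => by
      refine le_trans (Finset.sum_le_sum fun i _ => Finset.sum_le_sum fun j _ =>
        show |S i j d| * |xc d.1 s i * xc d.1 s j| ≤ |mu2 b l r d i j| * |xc d.1 s i * xc d.1 s j|
            + |u i * u j| * |xc d.1 s i * xc d.1 s j| by
          rw [← add_mul]
          simp only [hS]
          exact mul_le_mul_of_nonneg_right (abs_sub _ _) (abs_nonneg _)) ?_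
      simp only [Finset.sum_add_distrib]
      linarith [sum_mu2_xx (b := b) (l := l) (r := r) d (sum_xc_sq d.1 s).le (sum_xc_sq d.1 s).le,
        sum_mu_mu_xx (b := b) (l := l) (r := r) d s]
    calc |∑ i, ∑ j, P i j d| ≤ ∑ i, ∑ j, |P i j d| :=
          (Finset.abs_sum_le_sum_abs _ _).trans (Finset.sum_le_sum fun i _ => Finset.abs_sum_le_sum_abs _ _)
      _ ≤ ∑ i, ∑ j, (K * (G / N) * (|S i j d| * |u i * u j|)
            + K * av b l r d (fun s => W d s * (|S i j d| * |xc d.1 s i * xc d.1 s j|))) := by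
          refine Finset.sum_le_sum fun i _ => Finset.sum_le_sum fun j _ => ?_
          have hw := (av_const b l r d 0).symm.trans_le
            (av_mono b l r d (k := fun s => W d s * (|S i j d| * |xc d.1 s i * xc d.1 s j|)) fun s =>
              mul_nonneg (hW d s) (by positivity))
          simp only [hP]
          split_ifs
          · rw [abs_zero]; positivity
          · rw [abs_mul, abs_mul]
            refine (mul_le_mul (hc j) (mul_le_mul_of_nonneg_left (hb d i j) (abs_nonneg _))
              (by positivity) hK).trans (le_of_eq ?_)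
            rw [show (fun s => W d s * (|S i j d| * |xc d.1 s i * xc d.1 s j|))
              = fun s => |S i j d| * (W d s * |xc d.1 s i * xc d.1 s j|) from funext fun s => by ring, av_mul]
            ring
      _ ≤ K * (G / N) * (2 * ((N : ℝ) * N)) + K * (2 * ((N : ℝ) * N) * av b l r d (W d)) := by
          simp only [Finset.sum_add_distrib, ← Finset.mul_sum, sum_av2]
          gcongr
          rw [← av_mul]
          exact av_mono b l r d fun s => by
            exact (mul_le_mul_of_nonneg_left (t2 s) (hW d s)).trans_eq (by ring)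
      _ = _ := by field_simp
  simp only [← Finset.mul_sum, Finset.sum_add_distrib, ← Finset.mul_sum, hAs] at h0
  have i1 : Integrable (fun d => lik b l r d * (Φ d * br2 b l r c d)) (nullM N) := by
    have e : (fun d => lik b l r d * (Φ d * br2 b l r c d))
        = fun d => ((N : ℝ) * N)⁻¹ * (lik b l r d * (Φ d * ∑ i, ∑ j, A i j d)) := funext fun d => by
      rw [hAs]; field_simp
    rw [e]
    exact (((gd_lik b l r).mul (hΦg.mul (Gd.sum _ fun i _ => Gd.sum _ fun j _ => gA i j))).integrable).const_mul _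
  have i2 := ((gd_lik b l r).mul (Gd.sum Finset.univ fun i _ => Gd.sum Finset.univ fun j _ => gP i j)).integrable
  have i3 := ((gd_lik b l r).mul hWg).integrable
  rw [integral_congr_ae (ae_of_all _ fun d => (show lik b l r d * (Φ d * ((N : ℝ) * N * br2 b l r c d)
      + ∑ i, ∑ j, P i j d) = (N : ℝ) * N * (lik b l r d * (Φ d * br2 b l r c d))
        + lik b l r d * ∑ i, ∑ j, P i j d by ring)),
    integral_add (i1.const_mul _) i2, integral_const_mul] at h0
  have h2 : |∫ d, lik b l r d * ∑ i, ∑ j, P i j d ∂nullM N|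
      ≤ 2 * K * G * N + 2 * K * N * N * ∫ d, lik b l r d * av b l r d (W d) ∂nullM N := by
    refine abs_integral_le_integral_abs.trans ?_
    refine (integral_mono i2.abs (((((gd_lik b l r).mul (Gd.const (2 * K * G * N))).integrable).add
      (i3.const_mul (2 * K * N * N)))) fun d => ?_).trans (le_of_eq ?_)
    · exact (abs_lik_mul (F := fun d => ∑ i, ∑ j, P i j d) (hPs d)).trans_eq (by simp only [Pi.add_apply]; ring)
    · simp only [Pi.add_apply]
      rw [integral_add ((gd_lik b l r).mul (Gd.const _)).integrable (i3.const_mul _), integral_const_mul,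
        lik_mean hr]
  rw [← abs_neg, ← eq_neg_of_add_eq_zero_left h0, abs_mul, abs_mul, Nat.abs_cast] at h2
  calc _ ≤ (2 * K * G * N + 2 * K * N * N * ∫ d, lik b l r d * av b l r d (W d) ∂nullM N) / ((N : ℝ) * N) := by
        rw [le_div_iff₀ (by positivity)]; linarith
    _ = _ := by field_simp

/-- The product of two samples in the identity for the log-likelihood. -/
def num2 (b : ℝ) (l : Fin N → ℝ) (r : ℝ) (c : Fin N → ℝ) (d : Dat N) (s : Cfg N) : ℝ :=
  av b l r d (fun s' => X2 l d.1 s' s * X2 c d.1 s' s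
    - X2 (fun _ => 1) d.1 s' s * X2 (fun i => l i * c i) d.1 s' s)

lemma num2_sum (hN : 0 < N) (c : Fin N → ℝ) (d : Dat N) (s : Cfg N) :
    ∑ i, ∑ j, c j * (av b l r d (fun s' => rotW l d.1 s' i j) * (xc d.1 s i * xc d.1 s j))
      = (N : ℝ) * N * num2 b l r c d s := by
  have hn : (N : ℝ) ≠ 0 := (Nat.cast_pos.2 hN).ne'
  simp only [← av_mul_right, ← av_mul, sum_av2, num2]
  refine congrArg _ (funext fun s' => ?_)
  have e : ∀ i j, c j * (rotW l d.1 s' i j * (xc d.1 s i * xc d.1 s j))
      = (l i * (xc d.1 s' i * xc d.1 s i)) * (c j * (xc d.1 s' j * xc d.1 s j))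
        - (xc d.1 s' i * xc d.1 s i) * (l j * c j * (xc d.1 s' j * xc d.1 s j)) := fun i j => by
    unfold rotW; ring
  simp only [e, Finset.sum_sub_distrib, ← Finset.mul_sum, ← Finset.sum_mul, X2, one_mul]
  field_simp

/-- The identity for the log-likelihood against a test on one sample. -/
theorem ent_id (hN : 0 < N) (hr : 0 ≤ r) {c : Fin N → ℝ} (hc : ∀ i, |c i| ≤ K) {G : ℝ}
    {g : OMat N → Cfg N → ℝ} {g' : OMat N → Cfg N → Fin N → Fin N → ℝ}
    (hgc : ∀ s, Continuous fun U => g U s) (hg'c : ∀ s i j, Continuous fun U => g' U s i j)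
    (hd : ∀ i j (h : i ≠ j) U s t, HasDerivAt (fun t => g (rotO h t * U) s) (g' (rotO h t * U) s i j) t)
    (hb : ∀ U s i j, |g' U s i j| ≤ G * |xc U s i * xc U s j| / N) :
    |∫ d, lik b l r d * ((Real.log (lik b l r d) - Fe b l r) * av b l r d (fun s => g d.1 s * br1 b l c d.1 s)
        + b * av b l r d (fun s => g d.1 s * num2 b l r c d s)) ∂nullM N|
      ≤ K * G * dev b l r / N := by
  have hn : (0 : ℝ) < N := Nat.cast_pos.2 hN
  have hK : 0 ≤ K := (abs_nonneg _).trans (hc ⟨0, hN⟩)
  obtain ⟨A, hA⟩ : ∃ A : Fin N → Fin N → OMat N → Cfg N → ℝ, A = fun i j U s => g U s * (c j *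
      (xc U s j ^ 2 - xc U s i ^ 2 + b * rotW l U s i j * (xc U s i * xc U s j)))
      + if i = j then 0 else c j * (xc U s i * xc U s j * g' U s i j) := ⟨_, rfl⟩
  obtain ⟨B, hB⟩ : ∃ B : Fin N → Fin N → OMat N → Cfg N → ℝ,
      B = fun i j U s => c j * (xc U s i * xc U s j * g U s) := ⟨_, rfl⟩
  have hAc : ∀ i j s, Continuous fun U => A i j U s := fun i j s => by
    simp only [hA, rotW]; split_ifs <;> fun_prop
  have hBc : ∀ i j s, Continuous fun U => B i j U s := fun i j s => by simp only [hB]; fun_prop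
  have hWc : ∀ (i j : Fin N) s, Continuous fun U : OMat N => rotW l U s i j := fun i j s => by
    unfold rotW; fun_prop
  set ψ := fun d : Dat N => Real.log (lik b l r d) - Fe b l r
  have cψ : ∀ z, Continuous fun U => ψ (U, z) := fun z =>
    ((cont_lik z).log fun U => (lik_pos b l r (U, z)).ne').sub continuous_const
  have gψ : Gd ψ := (gd_log_lik b l r).sub (Gd.const _)
  have h0 := sum_rot (N := N) (fun i j d => ψ d * (lik b l r d * av b l r d (B i j d.1)))
    (fun i j d => lik b l r d * (ψ d * av b l r d (A i j d.1)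
      + b * (av b l r d (fun s => rotW l d.1 s i j) * av b l r d (B i j d.1))))
    (fun i j z => (cψ z).mul ((cont_lik z).mul (cont_av z (hBc i j))))
    (fun i j z => (cont_lik z).mul (((cψ z).mul (cont_av z (hAc i j))).add
      (continuous_const.mul ((cont_av z (f := fun U s => rotW l U s i j) (hWc i j)).mul (cont_av z (hBc i j))))))
    (fun i j => (gd_lik b l r).mul ((gψ.mul (gd_cont (hAc i j))).add
      ((Gd.const b).mul ((gd_cont (f := fun U s => rotW l U s i j) (hWc i j)).mul (gd_cont (hBc i j))))))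
    (fun i d => by simp [hA, rotW, av_const])
    fun i j h d t => by
      have hnum := rot_num (b := b) (l := l) (r := r) h d (t := t) (f := B i j) (f' := fun s =>
          c j * ((xc (rotO h t * d.1) s j ^ 2 - xc (rotO h t * d.1) s i ^ 2) * g (rotO h t * d.1) s
            + xc (rotO h t * d.1) s i * xc (rotO h t * d.1) s j * g' (rotO h t * d.1) s i j))
        fun s => by
          simp only [hB]
          refine ((((hasDeriv_xc h d.1 s i t).fun_mul (hasDeriv_xc h d.1 s j t)).fun_mul
            (hd i j h d.1 s t)).const_mul (c j)).congr_deriv ?_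
          simp only [if_neg h.symm, if_true]
          ring
      have hL := rot_lik (b := b) (l := l) (r := r) h d t
      refine (((hL.log (lik_pos b l r _).ne').sub_const (Fe b l r)).fun_mul hnum).congr_deriv ?_
      have e : (fun s => c j * ((xc (rotO h t * d.1) s j ^ 2 - xc (rotO h t * d.1) s i ^ 2) * g (rotO h t * d.1) s
            + xc (rotO h t * d.1) s i * xc (rotO h t * d.1) s j * g' (rotO h t * d.1) s i j)
          + b * rotW l (rotd h t d).1 s i j * B i j (rotd h t d).1 s) = A i j (rotd h t d).1 := funext fun s => by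
        simp only [hA, hB, if_neg h, rotd]; ring
      rw [e]
      have := (lik_pos b l r (rotd h t d)).ne'
      simp only [ψ]
      field_simp
      ring
  have hAs : ∀ U s, |∑ i, ∑ j, A i j U s - (N : ℝ) * N * (g U s * br1 b l c U s)| ≤ K * G * N := fun U s => by
    simp only [hA, Finset.sum_add_distrib, ← Finset.mul_sum, br1_sum hN c U s]
    rw [show g U s * ((N : ℝ) * N * br1 b l c U s) = (N : ℝ) * N * (g U s * br1 b l c U s) by ring,
      add_sub_cancel_left]
    refine (Finset.abs_sum_le_sum_abs _ _).trans ?_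
    refine (Finset.sum_le_sum fun i _ => Finset.abs_sum_le_sum_abs _ _).trans ?_
    calc _ ≤ ∑ i, ∑ j, K * (G / N) * (xc U s i ^ 2 * xc U s j ^ 2) := by
          refine Finset.sum_le_sum fun i _ => Finset.sum_le_sum fun j _ => ?_
          have hp : K * (G / N) * (xc U s i ^ 2 * xc U s j ^ 2)
              = K * (|xc U s i * xc U s j| * (G * |xc U s i * xc U s j| / N)) := by
            rw [← mul_pow, ← sq_abs (xc U s i * xc U s j)]; ring
          have hG := (abs_nonneg _).trans (hb U s i j)
          rw [hp]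
          split_ifs
          · rw [abs_zero]; positivity
          · rw [abs_mul, abs_mul (xc U s i * xc U s j)]
            exact mul_le_mul (hc j) (mul_le_mul_of_nonneg_left (hb U s i j) (abs_nonneg _))
              (by positivity) hK
      _ = K * G * N := by
          simp only [← Finset.mul_sum, ← Finset.sum_mul, sum_xc_sq]
          field_simp
  have hBs : ∀ d, ∑ i, ∑ j, av b l r d (fun s => rotW l d.1 s i j) * av b l r d (B i j d.1)
      = (N : ℝ) * N * av b l r d (fun s => g d.1 s * num2 b l r c d s) := fun d => by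
    simp only [← av_mul, sum_av2]
    refine congrArg _ (funext fun s => ?_)
    have := num2_sum (b := b) (l := l) (r := r) hN c d s
    rw [show (N : ℝ) * N * (g d.1 s * num2 b l r c d s) = g d.1 s * ((N : ℝ) * N * num2 b l r c d s) by ring,
      ← this, Finset.mul_sum]
    refine Finset.sum_congr rfl fun i _ => ?_
    rw [Finset.mul_sum]
    exact Finset.sum_congr rfl fun j _ => by simp only [hB]; ring
  simp only [← Finset.mul_sum, Finset.sum_add_distrib, ← Finset.mul_sum, sum_av2, hBs] at h0
  have hc1 : ∀ s, Continuous fun U => g U s * br1 b l c U s := fun s => by unfold br1 X1; fun_prop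
  have hgn : Gd fun d => av b l r d (fun s => g d.1 s * num2 b l r c d s) := by
    have e : (fun d => av b l r d (fun s => g d.1 s * num2 b l r c d s)) = fun d => ((N : ℝ) * N)⁻¹ *
        ∑ i, ∑ j, av b l r d (fun s => rotW l d.1 s i j) * av b l r d (B i j d.1) := funext fun d => by
      rw [hBs]; field_simp
    rw [e]
    exact (Gd.const _).mul (Gd.sum _ fun i _ => Gd.sum _ fun j _ =>
      (gd_cont (f := fun U s => rotW l U s i j) (hWc i j)).mul (gd_cont (hBc i j)))
  have hgD : Gd fun d => av b l r d (fun s => ∑ i, ∑ j, A i j d.1 s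
      - (N : ℝ) * N * (g d.1 s * br1 b l c d.1 s)) :=
    gd_cont (f := fun U s => ∑ i, ∑ j, A i j U s - (N : ℝ) * N * (g U s * br1 b l c U s)) fun s =>
      (continuous_finsetSum _ fun i _ => continuous_finsetSum _ fun j _ => hAc i j s).sub
        (continuous_const.mul (hc1 s))
  have i1 := ((gd_lik b l r).mul ((gψ.mul (gd_cont (b := b) (l := l) (r := r) (f := fun U s => g U s * br1 b l c U s) hc1)).add
    ((Gd.const b).mul hgn))).integrable
  have i2 := ((gd_lik b l r).mul (gψ.mul hgD)).integrable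
  rw [integral_congr_ae (g := fun d => (N : ℝ) * N * (lik b l r d * (ψ d * av b l r d (fun s => g d.1 s * br1 b l c d.1 s)
        + b * av b l r d (fun s => g d.1 s * num2 b l r c d s)))
      + lik b l r d * (ψ d * av b l r d (fun s => ∑ i, ∑ j, A i j d.1 s
        - (N : ℝ) * N * (g d.1 s * br1 b l c d.1 s)))) (ae_of_all _ fun d => by
      simp only [av_sub, av_mul]; ring),
    integral_add (i1.const_mul _) i2, integral_const_mul] at h0
  have h2 : |∫ d, lik b l r d * (ψ d * av b l r d (fun s => ∑ i, ∑ j, A i j d.1 s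
      - (N : ℝ) * N * (g d.1 s * br1 b l c d.1 s))) ∂nullM N| ≤ K * G * N * dev b l r := by
    refine abs_integral_le_integral_abs.trans ?_
    rw [← lik_dev_eq b l hr, ← integral_const_mul]
    refine integral_mono i2.abs (((gd_lik b l r).mul gψ.abs).integrable.const_mul _) fun d => ?_
    rw [abs_mul, abs_mul, abs_of_pos (lik_pos b l r d)]
    have := abs_av_le b l r d (h := fun s => ∑ i, ∑ j, A i j d.1 s - (N : ℝ) * N * (g d.1 s * br1 b l c d.1 s))
      (hAs d.1)
    calc _ ≤ lik b l r d * (|ψ d| * (K * G * N)) :=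
          mul_le_mul_of_nonneg_left (mul_le_mul_of_nonneg_left this (abs_nonneg _)) (lik_pos b l r d).le
      _ = _ := by ring
  rw [← abs_neg, ← eq_neg_of_add_eq_zero_left h0, abs_mul, abs_mul, Nat.abs_cast] at h2
  rw [le_div_iff₀ hn]
  nlinarith

end

end Vale.Agent.P166.Plant
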