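import Vale.Agent.P166.Plant.IncrPair

/-!
Pointwise approximation of the brackets.
-/

open MeasureTheory ProbabilityTheory Filter Topology Set
open Vale.Agent.P157.Plant (Cfg ones sp xr ovl lin absSum abs_ovl_le)

namespace Vale.Agent.P166.Plant

noncomputable section

variable {N : ℕ} {b K r z : ℝ} {l : Fin N → ℝ}

/-- The resolvent weight. -/
def rc (l : Fin N → ℝ) (z : ℝ) (i : Fin N) : ℝ := (z - l i)⁻¹

/-- Bounds on a resolvent point. -/
structure Pt (K b : ℝ) (l : Fin N → ℝ) (z : ℝ) : Prop where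
  one : 1 ≤ K
  lK : ∀ i, |l i| ≤ K
  lt : ∀ i, l i < z
  inv : ∀ i, (z - l i)⁻¹ ≤ K
  gap : ∀ i, z - l i ≤ K
  zb : |z| ≤ K
  bpos : 0 < b
  binv : b⁻¹ ≤ K
  bK : b ≤ K

/-- The overlap fluctuation to the power one half. -/
def Wv (b : ℝ) (l : Fin N → ℝ) (r : ℝ) (d : Dat N) : ℝ :=
  Real.sqrt (Real.sqrt (av b l r d fun s => av b l r d fun s2 => (ovl s s2 - qv b l r) ^ 2))

/-- The mean deviation of the energy. -/
def Bv (b : ℝ) (l : Fin N → ℝ) (r : ℝ) (R : ℝ) (d : Dat N) : ℝ :=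
  av b l r d fun s => |X1 l d.1 s - R|

lemma Pt.cK (P : Pt K b l z) (i : Fin N) : |rc l z i| ≤ K := by
  rw [rc, abs_of_pos (inv_pos.2 (sub_pos.2 (P.lt i)))]; exact P.inv i

lemma Pt.cge (P : Pt K b l z) (i : Fin N) : K⁻¹ ≤ rc l z i :=
  inv_anti₀ (sub_pos.2 (P.lt i)) (P.gap i)

lemma res_sum (h : ∀ i, l i < z) (f : Fin N → ℝ) :
    ∑ i, l i * rc l z i * f i = z * ∑ i, rc l z i * f i - ∑ i, f i := by
  rw [Finset.mul_sum, ← Finset.sum_sub_distrib]
  refine Finset.sum_congr rfl fun i _ => ?_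
  have := (sub_pos.2 (h i)).ne'
  unfold rc
  field_simp
  ring

lemma X1_res (hN : 0 < N) (h : ∀ i, l i < z) (U : OMat N) (s : Cfg N) :
    X1 (fun i => l i * rc l z i) U s = z * X1 (rc l z) U s - 1 := by
  have hn : (N : ℝ) ≠ 0 := (Nat.cast_pos.2 hN).ne'
  simp only [X1, res_sum h (fun i => xc U s i ^ 2), sum_xc_sq]
  field_simp

lemma Y1_res (h : ∀ i, l i < z) (d : Dat N) (s : Cfg N) :
    Y1 b l r (fun i => l i * rc l z i) d s = z * Y1 b l r (rc l z) d s - Y1 b l r (fun _ => 1) d s := by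
  simp only [Y1, res_sum h (fun i => xc d.1 s i * mu1 b l r d i), one_mul]
  ring

lemma X2_res (h : ∀ i, l i < z) (U : OMat N) (s s' : Cfg N) :
    X2 (fun i => l i * rc l z i) U s s' = z * X2 (rc l z) U s s' - X2 (fun _ => 1) U s s' := by
  simp only [X2, res_sum h (fun i => xc U s i * xc U s' i), one_mul]
  ring

lemma br1_res (hN : 0 < N) (h : ∀ i, l i < z) (U : OMat N) (s : Cfg N) (R : ℝ) :
    br1 b l (rc l z) U s = X1 (rc l z) U s * (1 + b * (R - z)) + b - empG l z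
      + b * (X1 (rc l z) U s * (X1 l U s - R)) := by
  rw [br1, X1_res hN h, show (∑ i, rc l z i) / (N : ℝ) = empG l z from rfl]
  ring

lemma Pt.X1_ge (P : Pt K b l z) (hN : 0 < N) (U : OMat N) (s : Cfg N) :
    K⁻¹ ≤ X1 (rc l z) U s := by
  have hn : (0 : ℝ) < N := Nat.cast_pos.2 hN
  rw [X1, le_div_iff₀ hn, ← sum_xc_sq U s, Finset.mul_sum]
  exact Finset.sum_le_sum fun i _ => mul_le_mul_of_nonneg_right (P.cge i) (sq_nonneg _)

lemma abs_av_sub_le (d : Dat N) (f : Cfg N → ℝ) (B : Cfg N → ℝ) (h : ∀ s, |f s| ≤ B s) :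
    |av b l r d f| ≤ av b l r d B :=
  (abs_av_le_av d f).trans (av_mono b l r d h)

lemma av_abs_le_sqrt (d : Dat N) (f : Cfg N → ℝ) :
    av b l r d (fun s => |f s|) ≤ Real.sqrt (av b l r d fun s => f s ^ 2) := by
  refine Real.le_sqrt_of_sq_le ((av_sq_le b l r d _).trans_eq ?_)
  simp only [sq_abs]

lemma avV_le (hN : 0 < N) (hr : 0 ≤ r) (d : Dat N) :
    av b l r d (fun s => av b l r d fun s2 => (ovl s s2 - qv b l r) ^ 2) ≤ 4 := by
  refine (av_mono b l r d fun s => (av_mono b l r d (k := fun _ => 4) fun s2 => ?_).trans_eq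
    (av_const _ _ _ _ _)).trans_eq (av_const _ _ _ _ _)
  have h1 := abs_le.1 (abs_ovl_le s s2)
  have h2 := qv_nonneg hN b l r
  have h3 := qv_le_one hN b l hr
  nlinarith

lemma Wv_nonneg (d : Dat N) : 0 ≤ Wv b l r d := Real.sqrt_nonneg _

lemma sqrtV_le (hN : 0 < N) (hr : 0 ≤ r) (d : Dat N) :
    Real.sqrt (av b l r d fun s => av b l r d fun s2 => (ovl s s2 - qv b l r) ^ 2) ≤ 2 * Wv b l r d := by
  unfold Wv
  set V := av b l r d fun s => av b l r d fun s2 => (ovl s s2 - qv b l r) ^ 2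
  have hV := avV_le (b := b) (l := l) hN hr d
  have h2 : Real.sqrt V ≤ 4 := (Real.sqrt_le_sqrt hV).trans (by
    rw [show (4 : ℝ) = 2 ^ 2 by norm_num, Real.sqrt_sq two_pos.le]; norm_num)
  have h3 := Real.sq_sqrt (Real.sqrt_nonneg V)
  have h4 : Real.sqrt (Real.sqrt V) ≤ 2 := (Real.sqrt_le_sqrt h2).trans (by
    rw [show (4 : ℝ) = 2 ^ 2 by norm_num, Real.sqrt_sq two_pos.le])
  nlinarith [Real.sqrt_nonneg (Real.sqrt V)]

lemma Q_near (hN : 0 < N) (hr : 0 ≤ r) (d : Dat N) :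
    |Z1 b l r (fun _ => 1) d - qv b l r| ≤ 2 * Wv b l r d :=
  (Z_one b l r d _).trans (sqrtV_le hN hr d)

lemma Y_dev (hN : 0 < N) {c : Fin N → ℝ} (hc : ∀ i, |c i| ≤ K) (d : Dat N) :
    av b l r d (fun s => |Y1 b l r c d s - Z1 b l r c d|) ≤ 2 * K * Wv b l r d := by
  have hK : 0 ≤ K := (abs_nonneg _).trans (hc ⟨0, hN⟩)
  refine (av_abs_le_sqrt d _).trans (Real.sqrt_le_iff.2 ⟨by have := Wv_nonneg (b := b) (l := l) (r := r) d; positivity, ?_⟩)
  refine (Y_var hN hc b l r d (qv b l r)).trans ?_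
  have h := Real.sq_sqrt (Real.sqrt_nonneg
    (av b l r d fun s => av b l r d fun s2 => (ovl s s2 - qv b l r) ^ 2))
  unfold Wv
  rw [mul_pow, h]
  nlinarith [Real.sqrt_nonneg (av b l r d fun s => av b l r d fun s2 => (ovl s s2 - qv b l r) ^ 2), sq_nonneg K]

lemma X2_dev (hN : 0 < N) (hr : 0 ≤ r) {c : Fin N → ℝ} (hc : ∀ i, |c i| ≤ K) (d : Dat N) :
    av b l r d (fun s => av b l r d fun s2 => |X2 c d.1 s s2 - Z1 b l r c d|) ≤ 5 * K * Wv b l r d := by
  have hK : 0 ≤ K := (abs_nonneg _).trans (hc ⟨0, hN⟩)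
  have hW := Wv_nonneg (b := b) (l := l) (r := r) d
  refine (av_mono b l r d fun s => (le_abs_self _).trans' (av_abs_le_sqrt d _)).trans ?_
  refine le_trans (b := Real.sqrt (av b l r d fun s => av b l r d fun s2 =>
    (X2 c d.1 s s2 - Z1 b l r c d) ^ 2)) ?_ (Real.sqrt_le_iff.2 ⟨by positivity, ?_⟩)
  · refine (av_abs_le_sqrt d _).trans (Real.sqrt_le_sqrt (av_mono b l r d fun s => ?_))
    rw [Real.sq_sqrt (av_nonneg b l r d fun s2 => sq_nonneg _)]
  refine (pair_var hN hc b l r d (qv b l r)).trans ?_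
  have hV0 := av_nonneg b l r d (f := fun s => av b l r d fun s2 => (ovl s s2 - qv b l r) ^ 2)
    fun s => av_nonneg b l r d fun s2 => sq_nonneg _
  have hV := avV_le (b := b) (l := l) hN hr d
  set V := av b l r d fun s => av b l r d fun s2 => (ovl s s2 - qv b l r) ^ 2
  have h : Wv b l r d ^ 2 = Real.sqrt V := Real.sq_sqrt (Real.sqrt_nonneg _)
  have h2 : V ≤ 2 * Real.sqrt V := by
    nlinarith [Real.sq_sqrt hV0, Real.sqrt_nonneg V]
  have h3 : 4 * V + 4 * Real.sqrt V ≤ 25 * Wv b l r d ^ 2 := by rw [h]; linarith [Real.sqrt_nonneg V]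
  calc K ^ 2 * (4 * V + 4 * Real.sqrt V) ≤ K ^ 2 * (25 * Wv b l r d ^ 2) :=
        mul_le_mul_of_nonneg_left h3 (sq_nonneg K)
    _ = _ := by ring

lemma av_dev_mul (d : Dat N) (g f : Cfg N → ℝ) {B : ℝ} (hg : ∀ s, |g s| ≤ B) (a : ℝ) :
    |av b l r d (fun s => g s * f s) - a * av b l r d g| ≤ B * av b l r d fun s => |f s - a| := by
  have e : av b l r d (fun s => g s * f s) - a * av b l r d g = av b l r d fun s => g s * (f s - a) := by
    simp only [mul_sub, av_sub, av_mul_right]; ring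
  rw [e, ← av_mul]
  exact abs_av_sub_le d _ _ fun s => by
    rw [abs_mul]; exact mul_le_mul_of_nonneg_right (hg s) (abs_nonneg _)

/-- The bracket of two samples, to first order in the fluctuations. -/
theorem br2_approx (hN : 0 < N) (hr : 0 ≤ r) (P : Pt K b l z) (R : ℝ) (hR : |R| ≤ 2 * K) (d : Dat N) :
    |br2 b l r (rc l z) d
        - ((av b l r d (X1 (rc l z) d.1) - Z1 b l r (rc l z) d)
            * (1 + b * (R - Z1 b l r l d) - b * z * (1 - qv b l r))
          - (1 - qv b l r) * (empG l z - b * (1 - qv b l r)))|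
      ≤ 30 * K ^ 4 * (Bv b l r R d + Wv b l r d) := by
  have h1 := P.one
  have hK : 0 ≤ K := zero_le_one.trans h1
  have hb := P.bpos.le
  set q := qv b l r
  set W := Wv b l r d
  have hW : 0 ≤ W := Wv_nonneg d
  have hB : 0 ≤ Bv b l r R d := av_nonneg b l r d fun s => abs_nonneg _
  set c := rc l z
  have cK := P.cK
  have oK : ∀ i : Fin N, |(fun _ => (1 : ℝ)) i| ≤ 1 := fun _ => by simp
  set x := av b l r d (X1 c d.1)
  set a := Z1 b l r c d
  set b12 := Z1 b l r l d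
  set Q := Z1 b l r (fun _ => 1) d
  have hx : |x| ≤ K := abs_av_le b l r d (abs_X1_le hN cK d.1)
  have ha : |a| ≤ K := abs_Z1_le hN cK b l r d
  have hQ : |Q| ≤ 1 := abs_Z1_le hN oK b l r d
  have hQq := Q_near (b := b) (l := l) hN hr d
  have e1 := av_dev_mul (b := b) (l := l) (r := r) d (X1 c d.1) (X1 l d.1) (abs_X1_le hN cK d.1) R
  have e2 := av_dev_mul (b := b) (l := l) (r := r) d (Y1 b l r c d) (X1 l d.1) (abs_Y1_le hN cK b l r d) R
  have e3 := (av_dev_mul (b := b) (l := l) (r := r) d (X1 c d.1) (Y1 b l r l d) (abs_X1_le hN cK d.1) b12).trans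
    (mul_le_mul_of_nonneg_left (Y_dev hN P.lK d) hK)
  have e4 := (av_dev_mul (b := b) (l := l) (r := r) d (X1 c d.1) (Y1 b l r (fun _ => 1) d)
    (abs_X1_le hN cK d.1) Q).trans (mul_le_mul_of_nonneg_left (Y_dev hN oK d) hK)
  have e5 := (av_dev_mul (b := b) (l := l) (r := r) d (Y1 b l r c d) (Y1 b l r l d)
    (abs_Y1_le hN cK b l r d) b12).trans (mul_le_mul_of_nonneg_left (Y_dev hN P.lK d) hK)
  have e6 := (av_dev_mul (b := b) (l := l) (r := r) d (Y1 b l r c d) (Y1 b l r (fun _ => 1) d)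
    (abs_Y1_le hN cK b l r d) Q).trans (mul_le_mul_of_nonneg_left (Y_dev hN oK d) hK)
  have e7 := (av_dev_mul (b := b) (l := l) (r := r) d (Y1 b l r (fun _ => 1) d) (Y1 b l r (fun _ => 1) d)
    (abs_Y1_le hN oK b l r d) Q).trans (mul_le_mul_of_nonneg_left (Y_dev hN oK d) zero_le_one)
  simp only [av_Y1] at e2 e5 e6 e7
  obtain ⟨A1, hA1⟩ : ∃ A, A = av b l r d (fun s => X1 c d.1 s * X1 l d.1 s) - R * x := ⟨_, rfl⟩
  obtain ⟨A2, hA2⟩ : ∃ A, A = av b l r d (fun s => Y1 b l r c d s * X1 l d.1 s) - R * a := ⟨_, rfl⟩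
  obtain ⟨A3, hA3⟩ : ∃ A, A = av b l r d (fun s => X1 c d.1 s * Y1 b l r l d s) - b12 * x := ⟨_, rfl⟩
  obtain ⟨A4, hA4⟩ : ∃ A, A = av b l r d (fun s => X1 c d.1 s * Y1 b l r (fun _ => 1) d s) - Q * x :=
    ⟨_, rfl⟩
  obtain ⟨A5, hA5⟩ : ∃ A, A = av b l r d (fun s => Y1 b l r c d s * Y1 b l r l d s) - b12 * a := ⟨_, rfl⟩
  obtain ⟨A6, hA6⟩ : ∃ A, A = av b l r d (fun s => Y1 b l r c d s * Y1 b l r (fun _ => 1) d s) - Q * a :=
    ⟨_, rfl⟩
  obtain ⟨A7, hA7⟩ : ∃ A, A = av b l r d (fun s => Y1 b l r (fun _ => 1) d s * Y1 b l r (fun _ => 1) d s)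
      - Q * Q := ⟨_, rfl⟩
  rw [← hA1] at e1
  rw [← hA2] at e2
  rw [← hA3] at e3
  rw [← hA4] at e4
  rw [← hA5] at e5
  rw [← hA6] at e6
  rw [← hA7] at e7
  have t1 : av b l r d (br1 b l c d.1) = x * (1 + b * (R - z)) + b - empG l z + b * A1 := by
    show av b l r d (fun s => br1 b l c d.1 s) = _
    have e : (fun s => br1 b l c d.1 s) = fun s => X1 c d.1 s * (1 + b * (R - z)) + (b - empG l z)
        + (b * (X1 c d.1 s * X1 l d.1 s) - b * R * X1 c d.1 s) := funext fun s => by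
      rw [br1_res hN P.lt d.1 s R]; ring
    rw [e]
    simp only [av_add, av_sub, av_mul, av_mul_right, av_const, hA1, x]
    ring
  have t2 : av b l r d (fun s => X1 l d.1 s * Y1 b l r c d s - Y1 b l r (fun i => l i * c i) d s)
      = R * a + A2 - z * a + Q := by
    simp only [c, Y1_res P.lt]
    simp only [av_sub, av_mul, av_Y1, hA2, mul_comm (X1 l d.1 _)]
    ring
  have t3 : av b l r d (fun s => Y1 b l r l d s * X1 c d.1 s
      - Y1 b l r (fun _ => 1) d s * X1 (fun i => l i * c i) d.1 s)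
      = b12 * x + A3 - z * (Q * x + A4) + Q := by
    have e : (fun s => Y1 b l r l d s * X1 c d.1 s
        - Y1 b l r (fun _ => 1) d s * X1 (fun i => l i * c i) d.1 s)
        = fun s => X1 c d.1 s * Y1 b l r l d s - z * (X1 c d.1 s * Y1 b l r (fun _ => 1) d s)
          + Y1 b l r (fun _ => 1) d s := funext fun s => by
      simp only [c, X1_res hN P.lt]; ring
    rw [e]
    simp only [av_add, av_sub, av_mul, hA3, hA4, show av b l r d (fun s => Y1 b l r (fun _ => 1) d s) = Q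
      from av_Y1 b l r _ d]
    ring
  have t4 : av b l r d (fun s => Y1 b l r l d s * Y1 b l r c d s
      - Y1 b l r (fun _ => 1) d s * Y1 b l r (fun i => l i * c i) d s)
      = b12 * a + A5 - z * (Q * a + A6) + (Q * Q + A7) := by
    have e : (fun s => Y1 b l r l d s * Y1 b l r c d s
        - Y1 b l r (fun _ => 1) d s * Y1 b l r (fun i => l i * c i) d s)
        = fun s => Y1 b l r c d s * Y1 b l r l d s - z * (Y1 b l r c d s * Y1 b l r (fun _ => 1) d s)
          + Y1 b l r (fun _ => 1) d s * Y1 b l r (fun _ => 1) d s := funext fun s => by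
      simp only [c, Y1_res P.lt]; ring
    rw [e]
    simp only [av_add, av_sub, av_mul, hA5, hA6, hA7]
    ring
  have key : br2 b l r c d
      - ((x - a) * (1 + b * (R - b12) - b * z * (1 - q)) - (1 - q) * (empG l z - b * (1 - q)))
      = b * A1 - b * A2 - b * A3 + b * z * A4 + b * A5 - b * z * A6 + b * A7
        + (Q - q) * ((x - a) * b * z + empG l z - b * (2 - Q - q)) := by
    rw [br2, show (∑ i, c i) / (N : ℝ) = empG l z from rfl, t1, t2, t3, t4]
    ring
  rw [key]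
  have hb12 : |b12| ≤ K := abs_Z1_le hN P.lK b l r d
  have hm : |empG l z| ≤ K := by
    have hn : (0 : ℝ) < N := Nat.cast_pos.2 hN
    rw [empG, abs_div, Nat.abs_cast, div_le_iff₀ hn]
    refine (Finset.abs_sum_le_sum_abs _ _).trans ((Finset.sum_le_sum fun i _ => P.cK i).trans_eq ?_)
    simp [mul_comm]
  have hq0 : |2 - Q - q| ≤ 4 := by
    have := abs_le.1 hQ
    rw [abs_le]; constructor <;> linarith [qv_nonneg hN b l r, qv_le_one hN b l hr]
  set T := Bv b l r R d + W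
  have hT : 0 ≤ T := add_nonneg hB hW
  have hWT : W ≤ T := le_add_of_nonneg_left hB
  have p2 : K ≤ K ^ 4 := le_self_pow₀ h1 (by norm_num)
  have p3 : K ^ 2 ≤ K ^ 4 := pow_le_pow_right₀ h1 (by norm_num)
  have p4 : K ^ 3 ≤ K ^ 4 := pow_le_pow_right₀ h1 (by norm_num)
  have m : ∀ {u v A B : ℝ}, |u| ≤ A → |v| ≤ B → |u * v| ≤ A * B := fun hu hv => by
    rw [abs_mul]; exact mul_le_mul hu hv (abs_nonneg _) ((abs_nonneg _).trans hu)
  have hbK : |b| ≤ K := by rw [abs_of_nonneg hb]; exact P.bK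
  have f1 : |b * A1| ≤ K ^ 4 * T := (m hbK e1).trans (by
    calc K * (K * Bv b l r R d) = K ^ 2 * Bv b l r R d := by ring
      _ ≤ K ^ 4 * T := mul_le_mul p3 (le_add_of_nonneg_right hW) hB (by positivity))
  have f2 : |b * A2| ≤ K ^ 4 * T := (m hbK e2).trans (by
    calc K * (K * Bv b l r R d) = K ^ 2 * Bv b l r R d := by ring
      _ ≤ K ^ 4 * T := mul_le_mul p3 (le_add_of_nonneg_right hW) hB (by positivity))
  have f3 : |b * A3| ≤ 2 * K ^ 4 * T := (m hbK e3).trans (by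
    calc K * (K * (2 * K * W)) = 2 * K ^ 3 * W := by ring
      _ ≤ 2 * K ^ 4 * T := by gcongr)
  have f4 : |b * z * A4| ≤ 2 * K ^ 4 * T := (m (m hbK P.zb) e4).trans (by
    calc K * K * (K * (2 * 1 * W)) = 2 * K ^ 3 * W := by ring
      _ ≤ 2 * K ^ 4 * T := by gcongr)
  have f5 : |b * A5| ≤ 2 * K ^ 4 * T := (m hbK e5).trans (by
    calc K * (K * (2 * K * W)) = 2 * K ^ 3 * W := by ring
      _ ≤ 2 * K ^ 4 * T := by gcongr)
  have f6 : |b * z * A6| ≤ 2 * K ^ 4 * T := (m (m hbK P.zb) e6).trans (by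
    calc K * K * (K * (2 * 1 * W)) = 2 * K ^ 3 * W := by ring
      _ ≤ 2 * K ^ 4 * T := by gcongr)
  have f7 : |b * A7| ≤ 2 * K ^ 4 * T := (m hbK e7).trans (by
    calc K * (1 * (2 * 1 * W)) = 2 * K * W := by ring
      _ ≤ 2 * K ^ 4 * T := by gcongr)
  have f8 : |(Q - q) * ((x - a) * b * z + empG l z - b * (2 - Q - q))| ≤ 14 * K ^ 4 * T := by
    have i1 : |(x - a) * b * z + empG l z - b * (2 - Q - q)| ≤ 2 * K * K * K + K + K * 4 :=
      (abs_sub _ _).trans (add_le_add ((abs_add_le _ _).trans (add_le_add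
        (m (m ((abs_sub _ _).trans (by linarith)) hbK) P.zb) hm)) (m hbK hq0))
    refine (m hQq i1).trans ?_
    calc 2 * W * (2 * K * K * K + K + K * 4) = W * (4 * K ^ 3 + 10 * K) := by ring
      _ ≤ T * (4 * K ^ 4 + 10 * K ^ 4) := by gcongr
      _ = _ := by ring
  rw [abs_le] at f1 f2 f3 f4 f5 f6 f7 f8 ⊢
  have := mul_nonneg (pow_nonneg hK 4) hT
  constructor <;> linarith

lemma Pt.x_sub_a (P : Pt K b l z) (hN : 0 < N) (d : Dat N) :
    (1 - Z1 b l r (fun _ => 1) d) / K ≤ av b l r d (X1 (rc l z) d.1) - Z1 b l r (rc l z) d := by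
  have hn : (0 : ℝ) < N := Nat.cast_pos.2 hN
  have e : av b l r d (X1 (rc l z) d.1) - Z1 b l r (rc l z) d
      = (∑ i, rc l z i * (av b l r d (fun s => xc d.1 s i ^ 2) - mu1 b l r d i ^ 2)) / N := by
    show av b l r d (fun s => X1 (rc l z) d.1 s) - _ = _
    simp only [X1, Z1, div_eq_mul_inv, av_mul_right, av_finsum, av_mul, ← sub_mul,
      ← Finset.sum_sub_distrib, ← mul_sub]
  have e1 : 1 - Z1 b l r (fun _ => 1) d
      = (∑ i, (av b l r d (fun s => xc d.1 s i ^ 2) - mu1 b l r d i ^ 2)) / N := by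
    rw [Finset.sum_sub_distrib, ← av_finsum]
    simp only [sum_xc_sq, av_const, Z1, one_mul]
    field_simp
  rw [e, e1, div_div, mul_comm (N : ℝ) K, ← div_div, div_le_div_iff_of_pos_right hn, Finset.sum_div]
  refine Finset.sum_le_sum fun i _ => ?_
  rw [div_eq_inv_mul]
  exact mul_le_mul_of_nonneg_right (P.cge i) (sub_nonneg.2 (av_sq_le b l r d _))

/-- The pair average in the log-likelihood identity, to first order. -/
theorem num2_approx (hN : 0 < N) (hr : 0 ≤ r) (P : Pt K b l z) (d : Dat N) :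
    av b l r d (fun s => |num2 b l r (rc l z) d s
      - (Z1 b l r l d * Z1 b l r (rc l z) d
        - qv b l r * (z * Z1 b l r (rc l z) d - qv b l r))|) ≤ 50 * K ^ 2 * Wv b l r d := by
  have h1 := P.one
  have hK : 0 ≤ K := zero_le_one.trans h1
  set q := qv b l r
  set c := rc l z
  set a := Z1 b l r c d
  set b12 := Z1 b l r l d
  set Q := Z1 b l r (fun _ => 1) d
  have hW : 0 ≤ Wv b l r d := Wv_nonneg d
  have oK : ∀ i : Fin N, |(fun _ => (1 : ℝ)) i| ≤ 1 := fun _ => by simp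
  have hq : |q| ≤ 1 := by
    rw [abs_of_nonneg (qv_nonneg hN b l r)]; exact qv_le_one hN b l hr
  have hQq := Q_near (b := b) (l := l) hN hr d
  have pt : ∀ s' s, |X2 l d.1 s' s * X2 c d.1 s' s - X2 (fun _ => 1) d.1 s' s * X2 (fun i => l i * c i) d.1 s' s
      - (b12 * a - q * (z * a - q))|
      ≤ K * |X2 l d.1 s' s - b12| + 2 * K * |X2 c d.1 s' s - a|
        + 4 * K ^ 2 * (|X2 (fun _ => 1) d.1 s' s - Q| + |Q - q|) := fun s' s => by
    simp only [c, X2_res P.lt]
    have b1 := abs_X2_le hN P.cK d.1 s' s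
    have b2 := abs_X2_le hN oK d.1 s' s
    have b3 : |b12| ≤ K := abs_Z1_le hN P.lK b l r d
    have b4 := P.zb
    set L := X2 l d.1 s' s
    set C := X2 (rc l z) d.1 s' s
    set O := X2 (fun _ => 1) d.1 s' s
    have e : L * C - O * (z * C - O) - (b12 * a - q * (z * a - q))
        = (L - b12) * C + (b12 - q * z) * (C - a) + (O - q) * (O + q - z * C) := by ring
    rw [e]
    refine (abs_add_le _ _).trans (add_le_add ((abs_add_le _ _).trans (add_le_add ?_ ?_)) ?_) <;>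
      rw [abs_mul]
    · rw [mul_comm K]; exact mul_le_mul_of_nonneg_left b1 (abs_nonneg _)
    · refine mul_le_mul_of_nonneg_right ((abs_sub _ _).trans ?_) (abs_nonneg _)
      rw [abs_mul]
      have := mul_le_mul hq b4 (abs_nonneg _) zero_le_one
      linarith
    · rw [mul_comm (4 * K ^ 2)]
      refine mul_le_mul (abs_sub_le O Q q) ((abs_sub _ _).trans ?_) (abs_nonneg _) (by positivity)
      have := abs_add_le O q
      have := mul_le_mul b4 b1 (abs_nonneg _) hK
      rw [abs_mul]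
      nlinarith
  have hs : ∀ s, |num2 b l r c d s - (b12 * a - q * (z * a - q))| ≤ av b l r d fun s' =>
      K * |X2 l d.1 s' s - b12| + 2 * K * |X2 c d.1 s' s - a|
        + 4 * K ^ 2 * (|X2 (fun _ => 1) d.1 s' s - Q| + |Q - q|) := fun s => by
    rw [num2, ← av_const b l r d (b12 * a - q * (z * a - q)), ← av_sub]
    exact abs_av_sub_le d _ _ fun s' => pt s' s
  refine (av_mono b l r d hs).trans ?_
  simp only [av_add, av_mul, av_const]
  have dl := X2_dev (b := b) (l := l) hN hr P.lK d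
  have dc := X2_dev (b := b) (l := l) hN hr P.cK d
  have done := X2_dev (b := b) (l := l) hN hr oK d
  rw [av_swap] at dl dc done
  have g1 := mul_le_mul_of_nonneg_left dl hK
  have g2 := mul_le_mul_of_nonneg_left dc (by positivity : 0 ≤ 2 * K)
  have g3 := mul_le_mul_of_nonneg_left (add_le_add done hQq) (by positivity : 0 ≤ 4 * K ^ 2)
  simp only [c, a, b12, q, Q] at *
  nlinarith [mul_nonneg (sq_nonneg K) hW]

/-- The pair average in the log-likelihood identity when the overlap is close to one. -/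
theorem num2_near_one (hN : 0 < N) (P : Pt K b l z) (d : Dat N) (s : Cfg N) {R t : ℝ}
    (hR : z = R + b⁻¹) (ht : 0 < t) :
    |num2 b l r (rc l z) d s - (1 - X1 (rc l z) d.1 s / b)|
      ≤ 8 * K ^ 3 * (|X1 l d.1 s - R| + t + (1 - av b l r d (fun s' => ovl s' s)) / t) := by
  have h1 := P.one
  have hK : 0 ≤ K := zero_le_one.trans h1
  have hn : (0 : ℝ) < N := Nat.cast_pos.2 hN
  have oK : ∀ i : Fin N, |(fun _ => (1 : ℝ)) i| ≤ 1 := fun _ => by simp
  have hne : ∀ {c : Fin N → ℝ} {B : ℝ}, (∀ i, |c i| ≤ B) → ∀ s' : Cfg N,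
      |X2 c d.1 s' s - X1 c d.1 s| ≤ B * (t + (1 - ovl s' s) / t) := fun {c B} hc s' => by
    have hB : 0 ≤ B := (abs_nonneg _).trans (hc ⟨0, hN⟩)
    rw [X2, X1, ← sub_div, abs_div, Nat.abs_cast, div_le_iff₀ hn, ← Finset.sum_sub_distrib]
    refine (Finset.abs_sum_le_sum_abs _ _).trans ?_
    have hd : ∑ i, (xc d.1 s' i - xc d.1 s i) ^ 2 = 2 * N * (1 - ovl s' s) := by
      have := X2_one d.1 s' s
      rw [X2, div_eq_iff hn.ne'] at this
      simp only [one_mul] at this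
      simp only [sub_sq, Finset.sum_add_distrib, Finset.sum_sub_distrib, sum_xc_sq, mul_assoc,
        ← Finset.mul_sum, this]
      ring
    calc ∑ i, |c i * (xc d.1 s' i * xc d.1 s i) - c i * xc d.1 s i ^ 2|
        ≤ ∑ i, B * (t / 2 * xc d.1 s i ^ 2 + (xc d.1 s' i - xc d.1 s i) ^ 2 / (2 * t)) := by
          refine Finset.sum_le_sum fun i _ => ?_
          rw [show c i * (xc d.1 s' i * xc d.1 s i) - c i * xc d.1 s i ^ 2
            = c i * (xc d.1 s i * (xc d.1 s' i - xc d.1 s i)) by ring, abs_mul]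
          refine mul_le_mul (hc i) ?_ (abs_nonneg _) hB
          rw [abs_mul]
          have := two_mul_le_add_sq (t * |xc d.1 s i|) |xc d.1 s' i - xc d.1 s i|
          rw [mul_pow, sq_abs, sq_abs] at this
          rw [show t / 2 * xc d.1 s i ^ 2 + (xc d.1 s' i - xc d.1 s i) ^ 2 / (2 * t)
            = (t ^ 2 * xc d.1 s i ^ 2 + (xc d.1 s' i - xc d.1 s i) ^ 2) / (2 * t) by field_simp,
            le_div_iff₀ (by positivity)]
          linarith
      _ = B * (t / 2 * N + 2 * N * (1 - ovl s' s) / (2 * t)) := by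
          rw [← Finset.mul_sum, Finset.sum_add_distrib, ← Finset.mul_sum, ← Finset.sum_div, sum_xc_sq, hd]
      _ ≤ B * (t + (1 - ovl s' s) / t) * N := by
          rw [mul_assoc B]
          refine mul_le_mul_of_nonneg_left ?_ hB
          rw [show 2 * (N : ℝ) * (1 - ovl s' s) / (2 * t) = (1 - ovl s' s) / t * N by field_simp]
          nlinarith
  have hb := P.bpos.ne'
  set c := rc l z
  set X := X1 c d.1 s
  have hX : |X| ≤ K := abs_X1_le hN P.cK d.1 s
  have pt : ∀ s', |X2 l d.1 s' s * X2 c d.1 s' s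
      - X2 (fun _ => 1) d.1 s' s * X2 (fun i => l i * c i) d.1 s' s - (1 - X / b)|
      ≤ K * |X1 l d.1 s - R| + (K * K + 2 * K * K + 4 * K ^ 2) * (t + (1 - ovl s' s) / t) := fun s' => by
    simp only [c, X2_res P.lt]
    have dl := hne P.lK s'
    have dc := hne P.cK s'
    have dh := hne oK s'
    rw [show X1 (fun _ => (1 : ℝ)) d.1 s = 1 by simp only [X1, one_mul, sum_xc_sq]; field_simp] at dh
    have b1 := abs_X2_le hN P.cK d.1 s' s
    have b2 := abs_X2_le hN oK d.1 s' s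
    have b3 := abs_X1_le hN P.lK d.1 s
    have hp := (abs_nonneg _).trans dh
    set L := X2 l d.1 s' s
    set C := X2 (rc l z) d.1 s' s
    set O := X2 (fun _ => 1) d.1 s' s
    set B := X1 l d.1 s
    have e : L * C - O * (z * C - O) - (1 - X / b)
        = (B - R) * X + (L - B) * C + (B - z) * (C - X) + (O - 1) * (O + 1 - z * C) := by
      rw [hR]; field_simp; ring
    rw [e]
    refine (abs_add_le _ _).trans ?_
    refine le_trans (add_le_add ((abs_add_le _ _).trans (add_le_add ((abs_add_le _ _).trans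
      (add_le_add (le_of_eq (abs_mul _ _)) (le_of_eq (abs_mul _ _)))) (le_of_eq (abs_mul _ _))))
      (le_of_eq (abs_mul _ _))) ?_
    have i1 := mul_le_mul_of_nonneg_left hX (abs_nonneg (B - R))
    have i2 := mul_le_mul dl b1 (abs_nonneg _) ((abs_nonneg _).trans dl)
    have i3 := mul_le_mul ((abs_sub _ _).trans (add_le_add b3 P.zb)) dc (abs_nonneg _) (by positivity)
    have i4 : |O + 1 - z * C| ≤ 4 * K ^ 2 := by
      refine (abs_sub _ _).trans ?_
      rw [abs_mul]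
      have := abs_add_le O 1
      have := mul_le_mul P.zb b1 (abs_nonneg _) hK
      rw [abs_one] at *
      nlinarith
    have i5 := mul_le_mul dh i4 (abs_nonneg _) ((abs_nonneg _).trans dh)
    linarith
  rw [num2, ← av_const b l r d (1 - X / b), ← av_sub]
  refine (abs_av_sub_le d _ _ pt).trans ?_
  simp only [av_add, av_mul, av_const, div_eq_mul_inv, av_mul_right, av_sub]
  have hO : av b l r d (fun s' => ovl s' s) ≤ 1 :=
    (av_mono b l r d fun s' => (abs_le.1 (abs_ovl_le s' s)).2).trans_eq (av_const _ _ _ _ _)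
  have hS : 0 ≤ t + (1 - av b l r d (fun s' => ovl s' s)) * t⁻¹ :=
    add_nonneg ht.le (mul_nonneg (sub_nonneg.2 hO) (inv_pos.2 ht).le)
  have p2 : K ^ 2 ≤ K ^ 3 := pow_le_pow_right₀ h1 (by norm_num)
  have p1 : K ≤ K ^ 3 := le_self_pow₀ h1 (by norm_num)
  have := mul_le_mul_of_nonneg_right p2 hS
  have := mul_le_mul_of_nonneg_right p1 (abs_nonneg (X1 l d.1 s - R))
  nlinarith [mul_nonneg (pow_nonneg hK 3) (abs_nonneg (X1 l d.1 s - R)), mul_nonneg (pow_nonneg hK 3) hS]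

end

end Vale.Agent.P166.Plant
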