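import Vale.Agent.P166.Plant.IncrVar

/-!
Identities from the invariance of the null law under rotations in the eigenbasis.
-/

open MeasureTheory ProbabilityTheory Filter Topology Set
open Vale.Agent.P157.Plant (Cfg ones sp xr ovl lin absSum half_pow_mul_card)
open Vale.Agent.P157 (gaussVec)

namespace Vale.Agent.P166.Plant

noncomputable section

variable {N : ℕ} {b M K r : ℝ} {l : Fin N → ℝ}

/-- The rate of change of the energy under a rotation. -/
def rotW (l : Fin N → ℝ) (U : OMat N) (s : Cfg N) (i j : Fin N) : ℝ :=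
  (l i - l j) * (xc U s i * xc U s j)

/-- The rotated data. -/
def rotd {i j : Fin N} (h : i ≠ j) (t : ℝ) (d : Dat N) : Dat N := (rotO h t * d.1, d.2)

lemma rot_pwt {i j : Fin N} (h : i ≠ j) (d : Dat N) (s : Cfg N) (t : ℝ) :
    HasDerivAt (fun t => pwt b l r (rotd h t d) s)
      (pwt b l r (rotd h t d) s * (b * rotW l (rotd h t d).1 s i j)) t := by
  refine (((hasDeriv_wt h b l d.1 s t).div_const (zbar b l)).mul_const
    (Real.exp (Real.sqrt r * lin d.2 s - r * N / 2))).congr_deriv ?_
  simp only [pwt, base, rotd, rotW]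
  ring

lemma rot_num {i j : Fin N} (h : i ≠ j) (d : Dat N) {f : OMat N → Cfg N → ℝ} {f' : Cfg N → ℝ} {t : ℝ}
    (hf : ∀ s, HasDerivAt (fun t => f (rotO h t * d.1) s) (f' s) t) :
    HasDerivAt (fun t => lik b l r (rotd h t d) * av b l r (rotd h t d) (f (rotd h t d).1))
      (lik b l r (rotd h t d) * av b l r (rotd h t d)
        (fun s => f' s + b * rotW l (rotd h t d).1 s i j * f (rotd h t d).1 s)) t := by
  simp only [lik_mul_av]
  refine ((HasDerivAt.fun_sum fun s _ => (rot_pwt (b := b) (l := l) (r := r) h d s t).fun_mul (hf s)).const_mul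
    _).congr_deriv ?_
  congr 1
  exact Finset.sum_congr rfl fun s _ => by simp only [rotd]; ring

lemma rot_lik {i j : Fin N} (h : i ≠ j) (d : Dat N) (t : ℝ) :
    HasDerivAt (fun t => lik b l r (rotd h t d))
      (lik b l r (rotd h t d) * (b * av b l r (rotd h t d) (fun s => rotW l (rotd h t d).1 s i j))) t := by
  have h1 := rot_num (b := b) (l := l) (r := r) h d (f := fun _ _ => (1 : ℝ)) (f' := fun _ => 0) (t := t)
    fun s => hasDerivAt_const t _
  simp only [av_const, mul_one, zero_add] at h1
  rwa [av_mul] at h1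

lemma rot_av {i j : Fin N} (h : i ≠ j) (d : Dat N) {f : OMat N → Cfg N → ℝ} {f' : Cfg N → ℝ} {t : ℝ}
    (hf : ∀ s, HasDerivAt (fun t => f (rotO h t * d.1) s) (f' s) t) :
    HasDerivAt (fun t => av b l r (rotd h t d) (f (rotd h t d).1))
      (av b l r (rotd h t d) (fun s => f' s + b * rotW l (rotd h t d).1 s i j * f (rotd h t d).1 s)
        - b * av b l r (rotd h t d) (fun s => rotW l (rotd h t d).1 s i j)
          * av b l r (rotd h t d) (f (rotd h t d).1)) t := by
  have h0 := (lik_pos b l r (rotd h t d)).ne'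
  have h1 := (rot_num (b := b) (l := l) (r := r) h d hf).fun_div (rot_lik (b := b) (l := l) (r := r) h d t) h0
  have e : (fun t => av b l r (rotd h t d) (f (rotd h t d).1)) = fun t =>
      lik b l r (rotd h t d) * av b l r (rotd h t d) (f (rotd h t d).1) / lik b l r (rotd h t d) :=
    funext fun t => (mul_div_cancel_left₀ _ (lik_pos b l r (rotd h t d)).ne').symm
  rw [e]
  refine h1.congr_deriv ?_
  field_simp

lemma cont_pwt (z : Fin N → ℝ) (s : Cfg N) : Continuous fun U : OMat N => pwt b l r (U, z) s := by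
  unfold pwt
  dsimp only
  fun_prop

@[fun_prop]
lemma cont_lik (z : Fin N → ℝ) : Continuous fun U : OMat N => lik b l r (U, z) :=
  (continuous_finsetSum _ fun s _ => cont_pwt z s).const_mul _

lemma cont_av (z : Fin N → ℝ) {f : OMat N → Cfg N → ℝ} (hf : ∀ s, Continuous fun U => f U s) :
    Continuous fun U : OMat N => av b l r (U, z) (f U) := by
  unfold av
  exact ((continuous_finsetSum _ fun s _ => (cont_pwt z s).mul (hf s)).const_mul _).div
    (cont_lik z) fun U => (lik_pos b l r (U, z)).ne'

lemma gd_cont {f : OMat N → Cfg N → ℝ} (hf : ∀ s, Continuous fun U => f U s) :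
    Gd fun d : Dat N => av b l r d (f d.1) := by
  obtain ⟨C, hC⟩ := (isCompact_univ (X := OMat N)).exists_bound_of_continuousOn
    (f := fun U => fun s => f U s) (continuous_pi hf).continuousOn
  exact gd_av b l r (fun s => (hf s).measurable.comp measurable_fst) (B := C) fun d s =>
    (norm_le_pi_norm (fun s => f d.1 s) s).trans (hC d.1 (mem_univ _))

lemma gd_num {f : OMat N → Cfg N → ℝ} (hf : ∀ s, Continuous fun U => f U s) :
    Gd fun d : Dat N => lik b l r d * av b l r d (f d.1) :=
  (gd_lik b l r).mul (gd_cont hf)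

/-- A derivative along a rotation has mean zero. -/
lemma integral_rot {i j : Fin N} (h : i ≠ j) {F D : Dat N → ℝ}
    (hF : ∀ z, Continuous fun U => F (U, z)) (hD : ∀ z, Continuous fun U => D (U, z)) (hg : Gd D)
    (hd : ∀ d t, HasDerivAt (fun t => F (rotd h t d)) (D (rotd h t d)) t) :
    ∫ d, D d ∂nullM N = 0 := by
  rw [nullM, integral_prod_symm D hg.integrable]
  have : ∀ z, ∫ U, D (U, z) ∂haarO N = 0 := fun z => by
    have hrot : Continuous fun p : ℝ × OMat N => rotO h p.1 * p.2 := by
      refine (Continuous.subtype_mk ?_ _).mul continuous_snd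
      refine continuous_pi fun a => ?_
      show Continuous fun p : ℝ × OMat N => rotR i j p.1 a
      refine continuous_pi fun k => ?_
      simp only [rotR]
      split_ifs <;> simp only [Pi.add_apply, Pi.single_apply] <;> split_ifs <;> fun_prop
    have h1 := hasDerivAt_haar (f := fun t U => F (rotO h t * U, z)) (D := fun t U => D (rotO h t * U, z)) 0
      (fun t => (hF z).comp (continuous_const_mul _)) ((hD z).comp hrot) fun t U => hd (U, z) t
    have h2 : (fun t => ∫ U, F (rotO h t * U, z) ∂haarO N) = fun _ => ∫ U, F (U, z) ∂haarO N :=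
      funext fun t => integral_mul_left_eq_self (fun U => F (U, z)) (rotO h t)
    rw [h2] at h1
    have h3 := h1.unique (hasDerivAt_const 0 _)
    rwa [integral_mul_left_eq_self (fun U => D (U, z)) (rotO h 0)] at h3
  simp [this]

lemma abs_lik_mul {B : ℝ} {F : Dat N → ℝ} {d : Dat N} (h : |F d| ≤ B) :
    |lik b l r d * F d| ≤ lik b l r d * B := by
  rw [abs_mul, abs_of_pos (lik_pos b l r d)]
  exact mul_le_mul_of_nonneg_left h (lik_pos b l r d).le

lemma lik_mean (hr : 0 ≤ r) (B : ℝ) : ∫ d, lik b l r d * B ∂nullM N = B := by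
  rw [integral_mul_const, integral_lik b l hr, one_mul]

/-- The bracket of one sample. -/
def br1 (b : ℝ) (l c : Fin N → ℝ) (U : OMat N) (s : Cfg N) : ℝ :=
  X1 c U s - (∑ i, c i) / N + b * (X1 l U s * X1 c U s - X1 (fun i => l i * c i) U s)

lemma br1_sum (hN : 0 < N) (c : Fin N → ℝ) (U : OMat N) (s : Cfg N) :
    ∑ i, ∑ j, c j * (xc U s j ^ 2 - xc U s i ^ 2
      + b * rotW l U s i j * (xc U s i * xc U s j)) = (N : ℝ) * N * br1 b l c U s := by
  have hn : (N : ℝ) ≠ 0 := (Nat.cast_pos.2 hN).ne'
  have e : ∀ i j, c j * (xc U s j ^ 2 - xc U s i ^ 2 + b * rotW l U s i j * (xc U s i * xc U s j))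
      = c j * xc U s j ^ 2 - c j * xc U s i ^ 2 + b * (l i * xc U s i ^ 2) * (c j * xc U s j ^ 2)
        - b * xc U s i ^ 2 * (l j * c j * xc U s j ^ 2) := fun i j => by unfold rotW; ring
  simp only [e, Finset.sum_add_distrib, Finset.sum_sub_distrib, ← Finset.mul_sum, ← Finset.sum_mul,
    Finset.sum_const, Finset.card_univ, Fintype.card_fin, nsmul_eq_mul, sum_xc_sq, br1, X1]
  field_simp
  ring

/-- The identity of one sample against a test function. -/
theorem single_id (hN : 0 < N) (hr : 0 ≤ r) {c : Fin N → ℝ} (hc : ∀ i, |c i| ≤ K) {G : ℝ}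
    {g : OMat N → Cfg N → ℝ} {g' : OMat N → Cfg N → Fin N → Fin N → ℝ}
    (hgc : ∀ s, Continuous fun U => g U s) (hg'c : ∀ s i j, Continuous fun U => g' U s i j)
    (hd : ∀ i j (h : i ≠ j) U s t, HasDerivAt (fun t => g (rotO h t * U) s) (g' (rotO h t * U) s i j) t)
    (hb : ∀ U s i j, |g' U s i j| ≤ G * |xc U s i * xc U s j| / N) :
    |∫ d, lik b l r d * av b l r d (fun s => g d.1 s * br1 b l c d.1 s) ∂nullM N| ≤ K * G / N := by
  have hn : (0 : ℝ) < N := Nat.cast_pos.2 hN
  have hK : 0 ≤ K := (abs_nonneg _).trans (hc ⟨0, hN⟩)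
  obtain ⟨T, hTdef⟩ : ∃ T : Fin N → Fin N → OMat N → Cfg N → ℝ, T = fun i j U s => if i = j then 0 else
    c j * (xc U s i * xc U s j * g' U s i j) := ⟨_, rfl⟩
  obtain ⟨A, hAdef⟩ : ∃ A : Fin N → Fin N → OMat N → Cfg N → ℝ, A = fun i j U s =>
    g U s * (c j * (xc U s j ^ 2 - xc U s i ^ 2 + b * rotW l U s i j * (xc U s i * xc U s j))) := ⟨_, rfl⟩
  have hAc : ∀ i j s, Continuous fun U => A i j U s := fun i j s => by
    simp only [hAdef, rotW]; fun_prop
  have hTc : ∀ i j s, Continuous fun U => T i j U s := fun i j s => by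
    simp only [hTdef]; split_ifs <;> fun_prop
  have hz : ∀ i j, ∫ d, lik b l r d * av b l r d (fun s => A i j d.1 s + T i j d.1 s) ∂nullM N = 0 := by
    intro i j
    rcases eq_or_ne i j with rfl | h
    · simp [hAdef, hTdef, rotW, av_const]
    refine integral_rot h (F := fun d => lik b l r d * av b l r d
      ((fun U s => c j * (xc U s i * xc U s j * g U s)) d.1)) ?_ ?_ ?_ fun d t => ?_
    · intro z
      exact Continuous.mul (cont_lik (b := b) (l := l) (r := r) z)
        (cont_av (b := b) (l := l) (r := r) z (f := fun U s => c j * (xc U s i * xc U s j * g U s)) fun s =>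
          continuous_const.mul (((continuous_xc s i).mul (continuous_xc s j)).mul (hgc s)))
    · intro z
      exact Continuous.mul (cont_lik (b := b) (l := l) (r := r) z)
        (cont_av (b := b) (l := l) (r := r) z (f := fun U s => A i j U s + T i j U s) fun s =>
          (hAc i j s).add (hTc i j s))
    · exact gd_num (f := fun U s => A i j U s + T i j U s) fun s => (hAc i j s).add (hTc i j s)
    refine (rot_num h d (f := fun U s => c j * (xc U s i * xc U s j * g U s)) fun s =>
      (((hasDeriv_xc h d.1 s i t).fun_mul (hasDeriv_xc h d.1 s j t)).fun_mul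
        (hd i j h d.1 s t)).const_mul (c j)).congr_deriv ?_
    congr 1
    refine congrArg _ (funext fun s => ?_)
    simp only [hAdef, hTdef, if_neg h, if_neg h.symm, if_true, rotd]
    ring
  have hI : ∀ i j, Integrable (fun d => lik b l r d * av b l r d (fun s => A i j d.1 s + T i j d.1 s))
      (nullM N) := fun i j => (gd_num fun s => (hAc i j s).add (hTc i j s)).integrable
  have h0 : ∫ d, lik b l r d * av b l r d
      (fun s => ∑ i, ∑ j, (A i j d.1 s + T i j d.1 s)) ∂nullM N = 0 := by
    simp only [av_finsum, Finset.mul_sum]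
    rw [integral_finsetSum _ fun i _ => integrable_finsetSum _ fun j _ => hI i j]
    refine Finset.sum_eq_zero fun i _ => ?_
    rw [integral_finsetSum _ fun j _ => hI i j]
    exact Finset.sum_eq_zero fun j _ => hz i j
  have hA : ∀ U s, ∑ i, ∑ j, A i j U s = (N : ℝ) * N * (g U s * br1 b l c U s) := fun U s => by
    simp only [hAdef, ← Finset.mul_sum, br1_sum hN c U s]
    ring
  have hT : ∀ U s, |∑ i, ∑ j, T i j U s| ≤ K * G * N := fun U s => by
    calc |∑ i, ∑ j, T i j U s| ≤ ∑ i, ∑ j, |T i j U s| :=
          (Finset.abs_sum_le_sum_abs _ _).trans (Finset.sum_le_sum fun i _ => Finset.abs_sum_le_sum_abs _ _)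
      _ ≤ ∑ i, ∑ j, K * (G / N) * (xc U s i ^ 2 * xc U s j ^ 2) := by
          refine Finset.sum_le_sum fun i _ => Finset.sum_le_sum fun j _ => ?_
          have hG := (abs_nonneg _).trans (hb U s i j)
          have hq : 0 ≤ K * (G / N) * (xc U s i ^ 2 * xc U s j ^ 2) := by
            have : K * (G / N) * (xc U s i ^ 2 * xc U s j ^ 2)
                = K * (|xc U s i * xc U s j| * (G * |xc U s i * xc U s j| / N)) := by
              rw [← mul_pow, ← sq_abs (xc U s i * xc U s j)]; ring
            rw [this]; positivity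
          simp only [hTdef]
          split_ifs
          · simpa using hq
          · rw [abs_mul, abs_mul (xc U s i * xc U s j)]
            refine (mul_le_mul (hc j) (mul_le_mul_of_nonneg_left (hb U s i j) (abs_nonneg _))
              (by positivity) hK).trans (le_of_eq ?_)
            rw [← mul_pow, ← sq_abs (xc U s i * xc U s j)]
            ring
      _ = K * G * N := by
          simp only [← Finset.mul_sum, ← Finset.sum_mul, sum_xc_sq]
          field_simp
  simp only [Finset.sum_add_distrib, hA, av_add, mul_add, av_mul] at h0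
  have i1 := ((gd_num (b := b) (l := l) (r := r) (f := fun U s => g U s * br1 b l c U s) fun s => by
    unfold br1 X1; fun_prop)).integrable
  have i2 := ((gd_num (b := b) (l := l) (r := r) (f := fun U s => ∑ i, ∑ j, T i j U s) fun s => by
    exact continuous_finsetSum _ fun i _ => continuous_finsetSum _ fun j _ => hTc i j s)).integrable
  simp only [mul_left_comm (lik b l r _) ((N : ℝ) * N)] at h0
  rw [integral_add (i1.const_mul _) i2, integral_const_mul] at h0
  have h2 : |∫ d, lik b l r d * av b l r d (fun s => ∑ i, ∑ j, T i j d.1 s) ∂nullM N| ≤ K * G * N := by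
    refine (abs_integral_le_integral_abs).trans ?_
    rw [← lik_mean (b := b) (l := l) hr (K * G * N)]
    exact integral_mono i2.abs ((gd_lik b l r).mul (Gd.const _)).integrable fun d =>
      abs_lik_mul (F := fun d => av b l r d _) (abs_av_le b l r d fun s => hT d.1 s)
  rw [← abs_neg, ← eq_neg_of_add_eq_zero_left h0, abs_mul, abs_mul, Nat.abs_cast] at h2
  rw [le_div_iff₀ hn]
  nlinarith

end

end Vale.Agent.P166.Plant
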