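import Vale.Agent.P166.Plant.IncrDefs

/-!
Fluctuations of quadratic statistics are controlled by the fluctuation of the overlap: the
covariance of the coordinates is small when the overlap is concentrated.
-/

open MeasureTheory ProbabilityTheory Filter Topology Matrix
open Vale.Agent.P157.Plant (Cfg ones sp xr ovl lin absSum)

namespace Vale.Agent.P166.Plant

noncomputable section

variable {N : ℕ} {b r : ℝ} {l c : Fin N → ℝ} {d : Dat N} {K : ℝ}

lemma av_swap (b : ℝ) (l : Fin N → ℝ) (r : ℝ) (d : Dat N) (f : Cfg N → Cfg N → ℝ) :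
    av b l r d (fun s => av b l r d (fun s' => f s s'))
      = av b l r d (fun s' => av b l r d (fun s => f s s')) := by
  simp only [av, div_eq_mul_inv, Finset.mul_sum, Finset.sum_mul]
  rw [Finset.sum_comm]
  exact Finset.sum_congr rfl fun s _ => Finset.sum_congr rfl fun s' _ => by ring

lemma av_var_le (b : ℝ) (l : Fin N → ℝ) (r : ℝ) (d : Dat N) (f : Cfg N → ℝ) (q : ℝ) :
    av b l r d (fun s => (f s - av b l r d f) ^ 2) + (av b l r d f - q) ^ 2
      = av b l r d (fun s => (f s - q) ^ 2) := by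
  have e1 : (fun s => (f s - av b l r d f) ^ 2)
      = fun s => (f s - q) ^ 2
        + ((-2 * (av b l r d f - q)) * (f s - q) + (av b l r d f - q) ^ 2) := by
    funext s; ring
  rw [e1, av_add, av_add, av_mul, av_sub, av_const, av_const]
  ring

lemma av_sq_le (b : ℝ) (l : Fin N → ℝ) (r : ℝ) (d : Dat N) (f : Cfg N → ℝ) :
    av b l r d f ^ 2 ≤ av b l r d (fun s => f s ^ 2) := by
  have h := av_var_le b l r d f 0
  simp only [sub_zero] at h
  have h0 := av_mono b l r d (h := fun _ => (0 : ℝ)) (k := fun s => (f s - av b l r d f) ^ 2)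
    fun s => sq_nonneg _
  rw [av_const] at h0
  linarith

lemma av_nonneg (b : ℝ) (l : Fin N → ℝ) (r : ℝ) (d : Dat N) {f : Cfg N → ℝ} (h : ∀ s, 0 ≤ f s) :
    0 ≤ av b l r d f :=
  (av_const b l r d 0).symm.trans_le (av_mono b l r d h)

lemma xc_dot (U : OMat N) (s s' : Cfg N) :
    ∑ i, xc U s i * xc U s' i = ∑ i, sp s i * sp s' i := by
  have hU : (U : Matrix (Fin N) (Fin N) ℝ)ᵀ * (U : Matrix (Fin N) (Fin N) ℝ) = 1 :=
    (mem_orthogonalGroup_iff' (n := Fin N) (R := ℝ)).1 U.2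
  have h : ((U : Matrix (Fin N) (Fin N) ℝ) *ᵥ spin s) ⬝ᵥ ((U : Matrix (Fin N) (Fin N) ℝ) *ᵥ spin s')
      = spin s ⬝ᵥ spin s' := by
    rw [dotProduct_mulVec, ← vecMul_transpose, vecMul_vecMul, hU, vecMul_one]
  exact h

/-- The overlap in the eigenbasis. -/
lemma X2_one (U : OMat N) (s s' : Cfg N) : X2 (fun _ => 1) U s s' = ovl s s' := by
  simp only [X2, one_mul, xc_dot]
  rfl

lemma sum_xc_sq (U : OMat N) (s : Cfg N) : ∑ i, xc U s i ^ 2 = N := sum_coord U s

/-- The covariance of two coordinates. -/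
lemma mu2_sub (b : ℝ) (l : Fin N → ℝ) (r : ℝ) (d : Dat N) (i j : Fin N) :
    av b l r d (fun s => (xc d.1 s i - mu1 b l r d i) * (xc d.1 s j - mu1 b l r d j))
      = mu2 b l r d i j - mu1 b l r d i * mu1 b l r d j := by
  have e : (fun s => (xc d.1 s i - mu1 b l r d i) * (xc d.1 s j - mu1 b l r d j))
      = fun s => xc d.1 s i * xc d.1 s j
        - ((mu1 b l r d j * xc d.1 s i + mu1 b l r d i * xc d.1 s j)
          - mu1 b l r d i * mu1 b l r d j) := by
    funext s; ring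
  rw [e, av_sub, av_sub, av_add, av_mul, av_mul, av_const]
  simp only [mu1, mu2]
  ring

theorem sum_mu_le (b : ℝ) (l : Fin N → ℝ) (r : ℝ) (d : Dat N) :
    ∑ i, mu1 b l r d i ^ 2 ≤ N := by
  refine (Finset.sum_le_sum fun i _ => av_sq_le b l r d _).trans (le_of_eq ?_)
  rw [← av_finsum]
  simp only [sum_xc_sq, av_const]

lemma abs_avg_le (hN : 0 < N) {f g : Fin N → ℝ} (hc : ∀ i, |c i| ≤ K) (hf : ∑ i, f i ^ 2 ≤ N)
    (hg : ∑ i, g i ^ 2 ≤ N) : |(∑ i, c i * (f i * g i)) / N| ≤ K := by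
  have hn : (0 : ℝ) < N := Nat.cast_pos.2 hN
  have hK : 0 ≤ K := (abs_nonneg _).trans (hc ⟨0, hN⟩)
  rw [abs_div, Nat.abs_cast, div_le_iff₀ hn]
  refine (Finset.abs_sum_le_sum_abs _ _).trans ?_
  have h : ∀ i, |c i * (f i * g i)| ≤ K * ((f i ^ 2 + g i ^ 2) / 2) := fun i => by
    rw [abs_mul]
    refine mul_le_mul (hc i) (abs_le.2 ⟨?_, ?_⟩) (abs_nonneg _) hK <;>
      linarith [sq_nonneg (f i + g i), sq_nonneg (f i - g i)]
  refine (Finset.sum_le_sum fun i _ => h i).trans ?_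
  rw [← Finset.mul_sum, ← Finset.sum_div, Finset.sum_add_distrib]
  exact mul_le_mul_of_nonneg_left (by linarith) hK

theorem abs_X1_le (hN : 0 < N) (hc : ∀ i, |c i| ≤ K) (U : OMat N) (s : Cfg N) :
    |X1 c U s| ≤ K := by
  simp only [X1, sq]
  exact abs_avg_le hN hc (sum_xc_sq U s).le (sum_xc_sq U s).le

theorem abs_X2_le (hN : 0 < N) (hc : ∀ i, |c i| ≤ K) (U : OMat N) (s s' : Cfg N) :
    |X2 c U s s'| ≤ K :=
  abs_avg_le hN hc (sum_xc_sq U s).le (sum_xc_sq U s').le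

theorem abs_Y1_le (hN : 0 < N) (hc : ∀ i, |c i| ≤ K) (b : ℝ) (l : Fin N → ℝ) (r : ℝ) (d : Dat N)
    (s : Cfg N) : |Y1 b l r c d s| ≤ K :=
  abs_avg_le hN hc (sum_xc_sq d.1 s).le (sum_mu_le b l r d)

theorem abs_Z1_le (hN : 0 < N) (hc : ∀ i, |c i| ≤ K) (b : ℝ) (l : Fin N → ℝ) (r : ℝ) (d : Dat N) :
    |Z1 b l r c d| ≤ K := by
  simp only [Z1, sq]
  exact abs_avg_le hN hc (sum_mu_le b l r d) (sum_mu_le b l r d)

lemma av_X2 (b : ℝ) (l : Fin N → ℝ) (r : ℝ) (c : Fin N → ℝ) (d : Dat N) (s : Cfg N) :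
    av b l r d (fun s' => X2 c d.1 s s') = Y1 b l r c d s := by
  simp only [X2, Y1, div_eq_mul_inv, av_mul_right, av_finsum, av_mul, mu1]

lemma av_Y1 (b : ℝ) (l : Fin N → ℝ) (r : ℝ) (c : Fin N → ℝ) (d : Dat N) :
    av b l r d (Y1 b l r c d) = Z1 b l r c d := by
  show av b l r d (fun s => Y1 b l r c d s) = _
  simp only [Y1, Z1, div_eq_mul_inv, av_mul_right, av_finsum, av_mul, sq, mu1]

theorem Y_one (b : ℝ) (l : Fin N → ℝ) (r : ℝ) (d : Dat N) (s : Cfg N) :
    Y1 b l r (fun _ => 1) d s = av b l r d (fun s2 => ovl s s2) := by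
  simp only [← av_X2, X2_one]

theorem Z_one (b : ℝ) (l : Fin N → ℝ) (r : ℝ) (d : Dat N) (q : ℝ) :
    |Z1 b l r (fun _ => 1) d - q|
      ≤ Real.sqrt (av b l r d (fun s => av b l r d (fun s2 => (ovl s s2 - q) ^ 2))) := by
  refine Real.abs_le_sqrt ?_
  have e : Z1 b l r (fun _ => 1) d - q
      = av b l r d (fun s => av b l r d (fun s2 => ovl s s2 - q)) := by
    rw [← av_Y1, show (Y1 b l r (fun _ => 1) d) = fun s => av b l r d (fun s2 => ovl s s2) from
      funext fun s => Y_one b l r d s]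
    simp only [av_sub, av_const]
  rw [e]
  exact (av_sq_le b l r d _).trans (av_mono b l r d fun s => av_sq_le b l r d _)

lemma sum_cov_sq (hN : 0 < N) (b : ℝ) (l : Fin N → ℝ) (r : ℝ) (d : Dat N) (q : ℝ) :
    ∑ i, ∑ j, (mu2 b l r d i j - mu1 b l r d i * mu1 b l r d j) ^ 2
      ≤ (N : ℝ) ^ 2 * av b l r d (fun s => av b l r d (fun s2 => (ovl s s2 - q) ^ 2)) := by
  set y := fun (s : Cfg N) (i : Fin N) => xc d.1 s i - mu1 b l r d i with hy
  set Y := fun s => av b l r d (fun s2 => ovl s s2) with hY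
  set Z := Z1 b l r (fun _ => 1) d with hZ
  have hn : (N : ℝ) ≠ 0 := Nat.cast_ne_zero.2 hN.ne'
  have hYf : Y = Y1 b l r (fun _ => 1) d := funext fun s => (Y_one b l r d s).symm
  have hdot : ∀ s s', ∑ i, y s i * y s' i = N * (ovl s s' - Y s - Y s' + Z) := fun s s' => by
    rw [hYf, ← X2_one d.1 s s', hZ]
    simp only [X2, Y1, Z1, one_mul]
    field_simp
    rw [← Finset.sum_sub_distrib, ← Finset.sum_sub_distrib, ← Finset.sum_add_distrib]
    exact Finset.sum_congr rfl fun i _ => by simp only [hy]; ring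
  have h1 : ∑ i, ∑ j, (mu2 b l r d i j - mu1 b l r d i * mu1 b l r d j) ^ 2
      = av b l r d (fun s => av b l r d (fun s' => (∑ i, y s i * y s' i) ^ 2)) := by
    have e : ∀ s s', (∑ i, y s i * y s' i) ^ 2
        = ∑ i, ∑ j, (y s i * y s j) * (y s' i * y s' j) := fun s s' => by
      rw [sq, Finset.sum_mul_sum]
      exact Finset.sum_congr rfl fun i _ => Finset.sum_congr rfl fun j _ => by ring
    simp only [e, av_finsum, av_mul, av_mul_right]
    simp only [hy, mu2_sub, sq]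
  rw [h1]
  simp only [hdot, mul_pow, av_mul]
  refine mul_le_mul_of_nonneg_left ?_ (sq_nonneg _)
  have hswap : ∀ s', av b l r d (fun s => ovl s s' - Y s) = Y s' - Z := fun s' => by
    have hsym : (fun s => ovl s s') = fun s => ovl s' s := by
      funext s; simp only [ovl, mul_comm]
    rw [av_sub, hsym, hZ, ← av_Y1, hYf, Y_one]
  calc av b l r d (fun s => av b l r d (fun s' => (ovl s s' - Y s - Y s' + Z) ^ 2))
      = av b l r d (fun s' => av b l r d (fun s =>
          ((ovl s s' - Y s) - av b l r d (fun s => ovl s s' - Y s)) ^ 2)) := by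
        rw [av_swap]
        simp only [hswap, sub_sub_eq_add_sub, sub_add_eq_add_sub]
    _ ≤ av b l r d (fun s' => av b l r d (fun s => (ovl s s' - Y s) ^ 2)) := by
        refine av_mono b l r d fun s' => ?_
        have h := av_var_le b l r d (fun s => ovl s s' - Y s) 0
        simp only [sub_zero] at h
        linarith [sq_nonneg (av b l r d fun s => ovl s s' - Y s)]
    _ = av b l r d (fun s => av b l r d (fun s' => (ovl s s' - Y s) ^ 2)) := (av_swap _ _ _ _ _).symm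
    _ ≤ _ := by
        refine av_mono b l r d fun s => ?_
        have h := av_var_le b l r d (fun s' => ovl s s') q
        linarith [sq_nonneg (av b l r d (fun s' => ovl s s') - q)]

lemma abs_cov_sum (hN : 0 < N) (hc : ∀ i, |c i| ≤ K) (b : ℝ) (l : Fin N → ℝ) (r : ℝ) (d : Dat N)
    (q : ℝ) :
    |∑ i, ∑ j, c i * c j * ((mu2 b l r d i j - mu1 b l r d i * mu1 b l r d j)
        * (mu1 b l r d i * mu1 b l r d j))|
      ≤ K ^ 2 * (N : ℝ) ^ 2
        * Real.sqrt (av b l r d (fun s => av b l r d (fun s2 => (ovl s s2 - q) ^ 2))) := by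
  have hK : 0 ≤ K := (abs_nonneg _).trans (hc ⟨0, hN⟩)
  set S := fun i j => mu2 b l r d i j - mu1 b l r d i * mu1 b l r d j
  set m := mu1 b l r d
  set V := av b l r d (fun s => av b l r d (fun s2 => (ovl s s2 - q) ^ 2))
  have hS : ∑ i, ∑ j, S i j ^ 2 ≤ (N : ℝ) ^ 2 * V := sum_cov_sq hN b l r d q
  have hm : ∑ i, ∑ j, (|m i| * |m j|) ^ 2 ≤ (N : ℝ) ^ 2 := by
    simp only [mul_pow, sq_abs, ← Finset.mul_sum, ← Finset.sum_mul, ← sq]
    exact pow_le_pow_left₀ (Finset.sum_nonneg fun i _ => sq_nonneg _) (sum_mu_le b l r d) 2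
  refine (Finset.abs_sum_le_sum_abs _ _).trans ?_
  refine (Finset.sum_le_sum fun i _ => Finset.abs_sum_le_sum_abs _ _).trans ?_
  have h : ∀ i j, |c i * c j * (S i j * (m i * m j))| ≤ K ^ 2 * (|S i j| * (|m i| * |m j|)) := by
    intro i j
    rw [abs_mul, abs_mul, abs_mul, abs_mul, sq]
    exact mul_le_mul_of_nonneg_right (mul_le_mul (hc i) (hc j) (abs_nonneg _) hK) (by positivity)
  refine (Finset.sum_le_sum fun i _ => Finset.sum_le_sum fun j _ => h i j).trans ?_
  simp only [← Finset.mul_sum]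
  rw [mul_assoc]
  refine mul_le_mul_of_nonneg_left ?_ (sq_nonneg K)
  rw [← Fintype.sum_prod_type']
  refine (Real.sum_mul_le_sqrt_mul_sqrt _ _ _).trans ?_
  simp only [sq_abs]
  rw [Fintype.sum_prod_type, Fintype.sum_prod_type (f := fun p => (|m p.1| * |m p.2|) ^ 2)]
  refine (mul_le_mul (Real.sqrt_le_sqrt hS) (Real.sqrt_le_sqrt hm) (Real.sqrt_nonneg _)
    (Real.sqrt_nonneg _)).trans (le_of_eq ?_)
  rw [Real.sqrt_mul (sq_nonneg _), Real.sqrt_sq (Nat.cast_nonneg N)]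
  ring

theorem Y_var (hN : 0 < N) (hc : ∀ i, |c i| ≤ K) (b : ℝ) (l : Fin N → ℝ) (r : ℝ) (d : Dat N)
    (q : ℝ) :
    av b l r d (fun s => (Y1 b l r c d s - Z1 b l r c d) ^ 2)
      ≤ 2 * K ^ 2
        * Real.sqrt (av b l r d (fun s => av b l r d (fun s2 => (ovl s s2 - q) ^ 2))) := by
  have hn : (0 : ℝ) < N := Nat.cast_pos.2 hN
  set m := mu1 b l r d with hm
  have e : ∀ s, (Y1 b l r c d s - Z1 b l r c d) ^ 2 = (∑ i, ∑ j, c i * c j * (m i * m j)
      * ((xc d.1 s i - m i) * (xc d.1 s j - m j))) / (N : ℝ) ^ 2 := fun s => by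
    rw [Y1, Z1, ← sub_div, ← Finset.sum_sub_distrib, div_pow, sq, Finset.sum_mul_sum]
    congr 1
    exact Finset.sum_congr rfl fun i _ => Finset.sum_congr rfl fun j _ => by simp only [hm]; ring
  simp only [e, div_eq_mul_inv, av_mul_right, av_finsum, av_mul]
  simp only [hm, mu2_sub]
  rw [← div_eq_mul_inv, div_le_iff₀ (by positivity)]
  have h := (le_abs_self _).trans (abs_cov_sum hN hc b l r d q)
  have h0 := Real.sqrt_nonneg (av b l r d (fun s => av b l r d (fun s2 => (ovl s s2 - q) ^ 2)))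
  refine le_trans (le_of_eq ?_) (h.trans ?_)
  · exact Finset.sum_congr rfl fun i _ => Finset.sum_congr rfl fun j _ => by ring
  · have : 0 ≤ K ^ 2 * (N : ℝ) ^ 2
        * Real.sqrt (av b l r d (fun s => av b l r d (fun s2 => (ovl s s2 - q) ^ 2))) := by positivity
    linarith

theorem pair_var (hN : 0 < N) (hc : ∀ i, |c i| ≤ K) (b : ℝ) (l : Fin N → ℝ) (r : ℝ) (d : Dat N)
    (q : ℝ) :
    av b l r d (fun s => av b l r d (fun s2 => (X2 c d.1 s s2 - Z1 b l r c d) ^ 2))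
      ≤ K ^ 2 * (4 * av b l r d (fun s => av b l r d (fun s2 => (ovl s s2 - q) ^ 2))
        + 4 * Real.sqrt (av b l r d (fun s => av b l r d (fun s2 => (ovl s s2 - q) ^ 2)))) := by
  have hn : (0 : ℝ) < N := Nat.cast_pos.2 hN
  have hK : 0 ≤ K := (abs_nonneg _).trans (hc ⟨0, hN⟩)
  set m := mu1 b l r d with hm
  set Z := Z1 b l r c d with hZ
  set V := av b l r d (fun s => av b l r d (fun s2 => (ovl s s2 - q) ^ 2))
  have e : ∀ s s', (X2 c d.1 s s' - Z) ^ 2 = (∑ i, ∑ j, c i * c j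
      * ((xc d.1 s i * xc d.1 s j) * (xc d.1 s' i * xc d.1 s' j))) / (N : ℝ) ^ 2
      - 2 * Z * X2 c d.1 s s' + Z ^ 2 := fun s s' => by
    have : X2 c d.1 s s' ^ 2 = (∑ i, ∑ j, c i * c j
        * ((xc d.1 s i * xc d.1 s j) * (xc d.1 s' i * xc d.1 s' j))) / (N : ℝ) ^ 2 := by
      rw [X2, div_pow, sq, Finset.sum_mul_sum]
      congr 1
      exact Finset.sum_congr rfl fun i _ => Finset.sum_congr rfl fun j _ => by ring
    rw [← this]; ring
  have e2 : av b l r d (fun s => av b l r d (fun s2 => (X2 c d.1 s s2 - Z) ^ 2))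
      = (∑ i, ∑ j, c i * c j * (mu2 b l r d i j * mu2 b l r d i j)) / (N : ℝ) ^ 2 - Z ^ 2 := by
    simp only [e, av_add, av_sub, av_const, av_mul, av_X2, av_Y1, div_eq_mul_inv, av_mul_right,
      av_finsum]
    simp only [mu2, hZ]
    ring
  have e3 : Z ^ 2 = (∑ i, ∑ j, c i * c j * (m i * m j) ^ 2) / (N : ℝ) ^ 2 := by
    rw [hZ, Z1, div_pow, sq, Finset.sum_mul_sum]
    congr 1
    exact Finset.sum_congr rfl fun i _ => Finset.sum_congr rfl fun j _ => by simp only [hm]; ring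
  rw [e2, e3, ← sub_div, div_le_iff₀ (by positivity), ← Finset.sum_sub_distrib]
  simp only [← Finset.sum_sub_distrib]
  have hsplit : ∑ i, ∑ j, (c i * c j * (mu2 b l r d i j * mu2 b l r d i j) - c i * c j * (m i * m j) ^ 2)
      = ∑ i, ∑ j, c i * c j * (mu2 b l r d i j - m i * m j) ^ 2
        + 2 * ∑ i, ∑ j, c i * c j * ((mu2 b l r d i j - m i * m j) * (m i * m j)) := by
    simp only [Finset.mul_sum, ← Finset.sum_add_distrib]
    exact Finset.sum_congr rfl fun i _ => Finset.sum_congr rfl fun j _ => by ring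
  have h1 : ∑ i, ∑ j, c i * c j * (mu2 b l r d i j - m i * m j) ^ 2 ≤ K ^ 2 * ((N : ℝ) ^ 2 * V) := by
    refine le_trans ?_ (mul_le_mul_of_nonneg_left (sum_cov_sq hN b l r d q) (sq_nonneg K))
    simp only [Finset.mul_sum]
    refine Finset.sum_le_sum fun i _ => Finset.sum_le_sum fun j _ =>
      mul_le_mul_of_nonneg_right ?_ (sq_nonneg _)
    refine (le_abs_self _).trans ?_
    rw [abs_mul, sq]
    exact mul_le_mul (hc i) (hc j) (abs_nonneg _) hK
  have h2 := (le_abs_self _).trans (abs_cov_sum hN hc b l r d q)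
  have hV : 0 ≤ V := av_nonneg b l r d fun s => av_nonneg b l r d fun s2 => sq_nonneg _
  have h3 : 0 ≤ K ^ 2 * (N : ℝ) ^ 2 * V := by positivity
  have h4 : 0 ≤ K ^ 2 * (N : ℝ) ^ 2 * Real.sqrt V := by positivity
  rw [hsplit]
  linarith

end

end Vale.Agent.P166.Plant
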