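import Vale.Agent.P166.Plant.Side
import Vale.Agent.P166.Plant.Concentration
import Vale.Agent.P166.Plant.IncrDeriv
import Vale.Agent.P166.Plant.IncrCases

/-!
The growth of the entropy in the inverse temperature, through rotation invariance of the Haar law.
-/

open MeasureTheory ProbabilityTheory Filter Topology Set
open Vale.Agent.P157.Plant (Cfg ones sp xr ovl lin absSum)
open Vale.Agent.P157 (gaussVec)

namespace Vale.Agent.P166.Plant

noncomputable section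

variable {N : ℕ} {M η β b₀ b K r lam₀ : ℝ} {l : Fin N → ℝ}

lemma pt_of_ge (hN : 0 < N) (T : Tame M η β l) (hb₀ : 0 < b₀) (hb : b ∈ Icc b₀ β) {x z d : ℝ}
    (hx : 0 < x) (hxβ : x ≤ β) (hd : 0 ≤ d) (hd1 : d ≤ 1) (hz : z = root l x + d)
    (hK : 2 + 2 * |M| + |η⁻¹| + |β| + b₀⁻¹ + x⁻¹ ≤ K) : Pt K b l z := by
  obtain ⟨hroom, -, hle⟩ := root_spec hN T hx hxβ
  have hbp := hb₀.trans_le hb.1
  have hM := le_abs_self M
  have := neg_le_abs M
  have := abs_nonneg η⁻¹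
  have := abs_nonneg β
  have := inv_pos.2 hb₀
  have := inv_pos.2 hx
  rw [one_div] at hle
  refine ⟨by linarith [abs_nonneg M], fun i => (T.bdd i).trans (by linarith), fun i => ?_, fun i => ?_,
    fun i => ?_, ?_, hbp, ?_, ?_⟩
  · linarith [hroom i, T.pos]
  · calc (z - l i)⁻¹ ≤ η⁻¹ := inv_anti₀ T.pos (by linarith [hroom i])
      _ ≤ K := by linarith [le_abs_self η⁻¹]
  · linarith [(abs_le.1 (T.bdd i)).1]
  · rw [abs_le]
    refine ⟨?_, by linarith⟩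
    linarith [hroom ⟨0, hN⟩, T.pos, (abs_le.1 (T.bdd ⟨0, hN⟩)).1]
  · linarith [inv_anti₀ hb₀ hb.1]
  · linarith [hb.2, le_abs_self β]

lemma kq_formula (hb : 0 < b) {q : ℝ} (hq : q < 1) :
    2 * kq l b q
      = -((1 - q) * (root l b - root l (b * (1 - q))) + q * (b / empG2 l (root l b))) := by
  have hx : ¬ b * (1 - q) ≤ 0 := not_le.2 (mul_pos hb (by linarith))
  simp only [kq, gfun, dg, if_neg hx, if_neg (not_le.2 hb)]
  field_simp
  ring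

lemma kq_one (hb : 0 < b) : 2 * kq l b 1 = -(b / empG2 l (root l b) - b⁻¹) := by
  simp only [kq, gfun, dg, if_neg (not_le.2 hb), sub_self, mul_zero, le_refl, if_true]
  field_simp
  ring

lemma num_energy {K n e3 e4 : ℝ} (hK : 0 < K) (hn : 1 / n ≤ e4) (h3 : 0 < e3)
    (h : 64 * K ^ 6 * e4 ≤ e3 ^ 2) : 16 * K ^ 6 / n / (e3 / 2) ≤ e3 / 2 := by
  have h1 := mul_le_mul_of_nonneg_left hn (show 0 ≤ 16 * K ^ 6 by positivity)
  rw [mul_one_div] at h1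
  rw [div_le_iff₀ (by positivity)]
  linarith

lemma num_res {K X δ e1 e3 : ℝ} (hK : 0 < K) (hδ : 0 < δ) (he1 : 0 < e1) (he3 : 0 < e3)
    (hX : X ≤ 6 * K ^ 3 * e3) (h : 64 * K ^ 3 * e3 ≤ δ * e1 ^ 2) : X / δ / (e1 / 4) ≤ e1 / 2 := by
  rw [div_div, div_le_iff₀ (by positivity)]
  have : 0 < K ^ 3 * e3 := by positivity
  linarith

lemma num_mid {EB EW N' dv DX Q A e1 e2 e3 V : ℝ} (hA : 0 < A) (he : (1 + A) * e2 = e1) (hEB : EB ≤ e3)
    (hEW : EW ≤ e2 / 4 + V) (hdv : dv ≤ e3) (hDX : DX ≤ e1) (h3 : e3 ≤ e2 / 4) (h2 : 0 < e2)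
    (hQ : Q ≤ A * (N' + V)) (hN : N' ≤ e2) :
    EB + EW + dv + DX + e1 + Q ≤ 6 * e1 + (1 + A) * V := by
  nlinarith [mul_pos hA h2, mul_le_mul_of_nonneg_left hN hA.le]

lemma num_one {c k k1 m L K0 EB DX dv e0 q ε V : ℝ} (hK : 1 ≤ K0) (he0 : 0 < e0) (he : e0 ≤ 1 / 2)
    (hL : 0 ≤ L) (heε : (100 * K0 ^ 5 + 4 * L + 1) * e0 ≤ ε) (hV : 0 ≤ V) (hq : 1 - q ≤ e0 ^ 2)
    (hEB : EB ≤ e0) (hEB0 : 0 ≤ EB) (hq1 : q ≤ 1) (hdv : dv ≤ e0) (hDX : DX ≤ e0)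
    (hc : |c + m| ≤ 4 * K0 ^ 5 * dv + 8 * K0 ^ 4 * (EB + e0 + (1 - q) / e0) + K0 ^ 2 * DX)
    (hm : 2 * k1 = -m) (hk : |k - k1| ≤ L * (1 - q)) : |c - 2 * k| ≤ ε + V := by
  have h5 : (1 - q) / e0 ≤ e0 := by rw [div_le_iff₀ he0, ← sq]; exact hq
  have h6 : 0 ≤ (1 - q) / e0 := div_nonneg (by linarith) he0.le
  have h7 : e0 ^ 2 ≤ e0 := by rw [sq]; exact mul_le_of_le_one_left he0.le (by linarith)
  have i1 := mul_le_mul_of_nonneg_left hdv (show 0 ≤ 4 * K0 ^ 5 by positivity)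
  have i2 : 8 * K0 ^ 4 * (EB + e0 + (1 - q) / e0) ≤ 8 * K0 ^ 5 * (3 * e0) :=
    mul_le_mul (mul_le_mul_of_nonneg_left (pow_le_pow_right₀ hK (by norm_num)) (by norm_num)) (by linarith)
      (by linarith) (by positivity)
  have i3 : K0 ^ 2 * DX ≤ K0 ^ 5 * e0 := (mul_le_mul_of_nonneg_left hDX (by positivity)).trans
    (mul_le_mul_of_nonneg_right (pow_le_pow_right₀ hK (by norm_num)) he0.le)
  have i4 := mul_le_mul_of_nonneg_left (hq.trans h7) hL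
  have : 0 ≤ K0 ^ 5 * e0 := by positivity
  have : 0 ≤ L * e0 := by positivity
  rw [abs_le] at hc hk ⊢
  constructor <;> linarith

lemma num_nat {N : ℕ} {e : ℝ} (he : 0 < e) {N2 : ℕ} (h : e⁻¹ < N2) (hN : N2 ≤ N) : 1 / (N : ℝ) ≤ e := by
  rw [one_div]
  exact (inv_anti₀ (inv_pos.2 he) (h.le.trans (by exact_mod_cast hN))).trans_eq (inv_inv _)

/-- The derivative is `N kq` at the mean overlap, up to the fluctuation of the overlap. -/
theorem increment (M η b₀ β R ε : ℝ) (hb₀ : 0 < b₀) (hε : 0 < ε) :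
    ∃ K, 0 ≤ K ∧ ∃ N0 : ℕ, ∀ N ≥ N0, ∀ l : Fin N → ℝ, Tame M η β l →
      ∀ b ∈ Icc b₀ β, ∀ r ∈ Icc (0 : ℝ) R,
        ∃ v, HasDerivAt (fun t => Fe t l r) v b ∧
          |v - N * kq l b (qv b l r)| ≤ N * (ε + K * vr b l r) := by
  obtain ⟨L, hL, hkq⟩ := scalar_bounds M η β b₀ hb₀
  obtain ⟨K0, hK0⟩ : ∃ K0, K0 = 2 + 2 * |M| + |η⁻¹| + |β| + b₀⁻¹ + b₀⁻¹ := ⟨_, rfl⟩
  have hK0p : 1 ≤ K0 := by
    rw [hK0]; linarith [abs_nonneg M, abs_nonneg η⁻¹, abs_nonneg β, inv_pos.2 hb₀]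
  obtain ⟨e0, he0⟩ : ∃ e, e = min (1 / 2) (ε / (100 * K0 ^ 5 + 4 * L + 1)) := ⟨_, rfl⟩
  have hD0 : 0 < 100 * K0 ^ 5 + 4 * L + 1 := by positivity
  have he0p : 0 < e0 := by rw [he0]; positivity
  have he0h : e0 ≤ 1 / 2 := he0 ▸ min_le_left _ _
  have he0ε : (100 * K0 ^ 5 + 4 * L + 1) * e0 ≤ ε := by
    rw [← le_div_iff₀' hD0]; exact he0 ▸ min_le_right _ _
  obtain ⟨lam₀, hlam₀⟩ : ∃ x, x = e0 ^ 2 := ⟨_, rfl⟩
  have hlam₀p : 0 < lam₀ := by rw [hlam₀]; positivity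
  obtain ⟨K, hKd⟩ : ∃ K, K = K0 + (b₀ * lam₀)⁻¹ := ⟨_, rfl⟩
  have hK0K : K0 ≤ K := by rw [hKd]; linarith [inv_pos.2 (mul_pos hb₀ hlam₀p)]
  have hK : 1 ≤ K := hK0p.trans hK0K
  have hK' : 0 < K := zero_lt_one.trans_le hK
  obtain ⟨e1, he1⟩ : ∃ e, e = min e0 (ε / (1000 * K ^ 6)) := ⟨_, rfl⟩
  have he1p : 0 < e1 := by rw [he1]; positivity
  have he10 : e1 ≤ e0 := he1 ▸ min_le_left _ _
  have he1ε : 1000 * K ^ 6 * e1 ≤ ε := by
    rw [← le_div_iff₀' (by positivity)]; exact he1 ▸ min_le_right _ _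
  obtain ⟨A, hA⟩ : ∃ A, A = 200 * K ^ 7 / lam₀ / e1 := ⟨_, rfl⟩
  have hAp : 0 < A := by rw [hA]; positivity
  obtain ⟨e2, he2⟩ : ∃ e, e = e1 / (1 + A) := ⟨_, rfl⟩
  have he2p : 0 < e2 := by rw [he2]; positivity
  have he2A : (1 + A) * e2 = e1 := by rw [he2]; field_simp
  obtain ⟨δ, hδd⟩ : ∃ δ, δ = min 1 (e1 / (8 * K ^ 2)) := ⟨_, rfl⟩
  have hδ : 0 < δ := by rw [hδd]; positivity
  have hδ1 : δ ≤ 1 := hδd ▸ min_le_left _ _
  have hδe : 8 * K ^ 2 * δ ≤ e1 := by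
    rw [← le_div_iff₀' (by positivity)]; exact hδd ▸ min_le_right _ _
  obtain ⟨e3, he3⟩ : ∃ e, e = min (e2 / 4) (δ * e1 ^ 2 / (64 * K ^ 3)) := ⟨_, rfl⟩
  have he3p : 0 < e3 := by rw [he3]; positivity
  have he32 : e3 ≤ e2 / 4 := he3 ▸ min_le_left _ _
  have he3δ : 64 * K ^ 3 * e3 ≤ δ * e1 ^ 2 := by
    rw [← le_div_iff₀' (by positivity)]; exact he3 ▸ min_le_right _ _
  obtain ⟨e4, he4⟩ : ∃ e, e = min e3 (e3 ^ 2 / (64 * K ^ 6)) := ⟨_, rfl⟩
  have he4p : 0 < e4 := by rw [he4]; positivity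
  have he43 : e4 ≤ e3 := he4 ▸ min_le_left _ _
  have he4e : 64 * K ^ 6 * e4 ≤ e3 ^ 2 := by
    rw [← le_div_iff₀' (by positivity)]; exact he4 ▸ min_le_right _ _
  obtain ⟨N1, hN1⟩ := dev_small M η b₀ β R e3 hb₀ he3p
  obtain ⟨N2, hN2⟩ := exists_nat_gt e4⁻¹
  obtain ⟨Kv, hKv⟩ : ∃ x, x = 100 * K ^ 6 * (1 + A) / (e2 / 4) ^ 3 := ⟨_, rfl⟩
  refine ⟨Kv, by rw [hKv]; positivity, max N1 (max N2 1), fun N hN l T b hb r hr => ?_⟩
  simp only [ge_iff_le, max_le_iff] at hN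
  obtain ⟨hNN1, hNN2, hN'⟩ := hN
  have hn : (0 : ℝ) < N := Nat.cast_pos.2 hN'
  have hNe : 1 / (N : ℝ) ≤ e4 := num_nat he4p hN2 hNN2
  have hbp : 0 < b := hb₀.trans_le hb.1
  obtain ⟨zb, hzb⟩ : ∃ z, z = root l b := ⟨_, rfl⟩
  have hK0b : 2 + 2 * |M| + |η⁻¹| + |β| + b₀⁻¹ + b⁻¹ ≤ K0 := by
    rw [hK0]; linarith [inv_anti₀ hb₀ hb.1]
  have P0 : Pt K0 b l zb := pt_of_ge hN' T hb₀ hb hbp hb.2 le_rfl zero_le_one (by rw [add_zero, hzb]) hK0b
  have P : Pt K b l zb := pt_of_ge hN' T hb₀ hb hbp hb.2 le_rfl zero_le_one (by rw [add_zero, hzb])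
    (hK0b.trans hK0K)
  have Pδ : Pt K b l (zb + δ) := pt_of_ge hN' T hb₀ hb hbp hb.2 hδ.le hδ1 (by rw [hzb]) (hK0b.trans hK0K)
  have hm : empG l zb = b := hzb ▸ (root_spec hN' T hbp hb.2).2.1
  have hv := hasDerivAt_Fe_beta hN' l hr.1 b
  refine ⟨_, hv, ?_⟩
  have e : (1 / 2) * ∫ d, lik b l r d * av b l r d (fun s => ∑ i, l i * coord d.1 s i)
      * (Real.log (lik b l r d) - Fe b l r) ∂nullM N = N / 2 * cov b l r := by
    rw [cov, EL, ← integral_const_mul, ← integral_const_mul]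
    refine integral_congr_ae (ae_of_all _ fun d => ?_)
    have : av b l r d (fun s => ∑ i, l i * coord d.1 s i) = N * av b l r d (X1 l d.1) := by
      rw [← av_mul]
      refine congrArg _ (funext fun s => ?_)
      simp only [X1, coord_eq_xc]
      field_simp
    simp only [this, psi]
    ring
  rw [e, show (N : ℝ) / 2 * cov b l r - N * kq l b (qv b l r)
    = N * ((cov b l r - 2 * kq l b (qv b l r)) / 2) by ring, abs_mul, abs_of_pos hn]
  refine mul_le_mul_of_nonneg_left ?_ hn.le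
  have hvr : 0 ≤ vr b l r := vr_nonneg b l r
  have hKvvr : 0 ≤ Kv * vr b l r := mul_nonneg (by rw [hKv]; positivity) hvr
  rw [abs_div, abs_two]
  suffices h : |cov b l r - 2 * kq l b (qv b l r)| ≤ ε + Kv * vr b l r by linarith
  set q := qv b l r
  have hq0 : 0 ≤ q := qv_nonneg hN' b l r
  have hq1 : q < 1 := qv_lt_one hN' b l hr.1
  set EB := EL b l r (fun d => Bv b l r (zb - b⁻¹) d) with hEBd
  set EW := EL b l r (fun d => Wv b l r d)
  have hEB : EB ≤ e3 := by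
    refine (est_energy hN' hr.1 P hm (s := e3 / 2) (by positivity)).trans ?_
    have := num_energy hK' hNe he3p he4e
    linarith
  have hDX : devX b l r zb ≤ e1 := by
    refine (est_res hN' hr.1 P hm hδ Pδ (u := e1 / 4) (by positivity)).trans ?_
    have hnum : 2 * K ^ 2 * EB + 4 * K ^ 3 / N ≤ 6 * K ^ 3 * e3 := by
      have a1 := mul_le_mul_of_nonneg_left hEB (show 0 ≤ 2 * K ^ 2 by positivity)
      have a2 := mul_le_mul_of_nonneg_left (hNe.trans he43) (show 0 ≤ 4 * K ^ 3 by positivity)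
      have a3 := mul_le_mul_of_nonneg_right (pow_le_pow_right₀ hK (show 2 ≤ 3 by norm_num)) he3p.le
      rw [mul_one_div] at a2
      linarith
    have := num_res hK' hδ he1p he3p hnum he3δ
    linarith
  have hEW : EW ≤ e2 / 4 + vr b l r / (e2 / 4) ^ 3 := EL_Wv hN' hr.1 (by positivity)
  have hdev : dev b l r / N ≤ e3 := by rw [div_le_iff₀ hn]; exact hN1 N hNN1 l T b hb r hr
  have hv2 : 0 ≤ vr b l r / (e2 / 4) ^ 3 := by positivity
  have he31 : e3 ≤ e1 := by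
    have := mul_pos hAp he2p
    linarith
  have hEB0 : 0 ≤ EB := by
    rw [hEBd, ← EL_const (b := b) (l := l) hr.1 0]
    exact EL_mono (Gd.const 0) (gd_Bv _) fun d => av_nonneg b l r d fun s => abs_nonneg _
  rcases le_or_gt (1 - q) lam₀ with hsmall | hbig
  · -- overlap close to one
    have hc := case_one hN' hr.1 P0 hm he0p
    rw [← hEBd, mul_div_assoc] at hc
    have hk := (hkq N l hN' T b hb b hb q ⟨hq0, hq1.le⟩ 1 ⟨zero_le_one, le_rfl⟩).1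
    rw [sub_self, abs_zero, zero_add, abs_sub_comm q, abs_of_nonneg (show 0 ≤ 1 - q by linarith only [hq1])]
      at hk
    exact num_one hK0p he0p he0h hL he0ε hKvvr (hlam₀ ▸ hsmall) (hEB.trans (he31.trans he10)) hEB0 hq1.le
      (hdev.trans (he31.trans he10)) (hDX.trans he10) hc (hzb ▸ kq_one hbp) hk
  · -- overlap away from one
    have hx : 0 < b * (1 - q) := mul_pos hbp (by linarith)
    have hxb : b * (1 - q) ≤ β := (mul_le_of_le_one_right hbp.le (by linarith)).trans hb.2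
    obtain ⟨z, hzd⟩ : ∃ z, z = root l (b * (1 - q)) := ⟨_, rfl⟩
    have Pz : Pt K b l z := by
      refine pt_of_ge hN' T hb₀ hb hx hxb le_rfl zero_le_one (by rw [add_zero, hzd]) ?_
      have : (b * (1 - q))⁻¹ ≤ (b₀ * lam₀)⁻¹ :=
        inv_anti₀ (mul_pos hb₀ hlam₀p) (mul_le_mul hb.1 hbig.le hlam₀p.le hbp.le)
      rw [hKd, hK0]
      linarith [inv_pos.2 hb₀]
    have hz : empG l z = b * (1 - q) := hzd ▸ (root_spec hN' T hx hxb).2.1
    have hc := case_mid hN' hr.1 P hm Pz hz (by linarith) he1p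
    rw [show cov b l r + ((1 - q) * (zb - z) + q * (b / empG2 l zb)) = cov b l r - 2 * kq l b q by
      rw [kq_formula hbp hq1, ← hzb, ← hzd]; ring] at hc
    refine hc.trans ?_
    have hT : EB + EW + 1 / N ≤ e2 + vr b l r / (e2 / 4) ^ 3 := by linarith [hNe.trans (he43.trans he32)]
    have hq' : 200 * K ^ 7 / (1 - q) * (EB + EW + 1 / N) / e1
        ≤ A * (e2 + vr b l r / (e2 / 4) ^ 3) := by
      have hT0 : 0 ≤ EB + EW + 1 / N := by
        have : 0 ≤ EW := by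
          show 0 ≤ EL b l r _
          rw [← EL_const (b := b) (l := l) hr.1 0]
          exact EL_mono (Gd.const 0) (gd_Wv hN' hr.1) fun d => Wv_nonneg d
        positivity
      rw [hA, mul_div_right_comm]
      refine mul_le_mul (div_le_div_of_nonneg_right
        (div_le_div_of_nonneg_left (by positivity) hlam₀p hbig.le) he1p.le) hT hT0 (by positivity)
    rw [show Kv * vr b l r = 100 * K ^ 6 * ((1 + A) * (vr b l r / (e2 / 4) ^ 3)) by rw [hKv]; ring]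
    have hle := num_mid (Q := 200 * K ^ 7 / (1 - q) * (EB + EW + 1 / N) / e1) hAp he2A hEB hEW hdev hDX
      he32 he2p hq' le_rfl
    calc _ ≤ 100 * K ^ 6 * (6 * e1 + (1 + A) * (vr b l r / (e2 / 4) ^ 3)) :=
          mul_le_mul_of_nonneg_left hle (by positivity)
      _ ≤ _ := by
          have : 0 ≤ K ^ 6 * e1 := by positivity
          linarith

end

end Vale.Agent.P166.Plant
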