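import Vale.Agent.P166.High.Reg
import Vale.Agent.P157.Plant.Chan

/-!
Planting one configuration, with a Gaussian side observation of strength `r`.
-/

open MeasureTheory ProbabilityTheory Filter Topology Matrix
open scoped BigOperators
open Vale.Agent.P157.Plant (Cfg ones sp xr ovl lin absSum ent absSum_nonneg abs_lin_le xrEquiv shv
  sp_sq abs_sp abs_ovl_le sp_xr xr_self xr_xr ovl_xr half_pow_mul_card integrable_exp_absSum
  measurable_absSum)
open Vale.Agent.P157 (gaussVec)

namespace Vale.Agent.P166.Plant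

noncomputable section

variable {N : ℕ}

/-- Couplings and side observation. -/
abbrev Dat (N : ℕ) := OMat N × (Fin N → ℝ)

lemma sp_eq_spin (s : Cfg N) : sp s = spin s := rfl

/-- The mean weight of a configuration. -/
def zbar (β : ℝ) (l : Fin N → ℝ) : ℝ := ∫ V, P166.wt β l V (ones N) ∂haarO N

/-- The normalised weight of a configuration in the couplings. -/
def base (β : ℝ) (l : Fin N → ℝ) (U : OMat N) (b : Cfg N) : ℝ := P166.wt β l U b / zbar β l

/-- The weight of a configuration. -/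
def pwt (β : ℝ) (l : Fin N → ℝ) (r : ℝ) (d : Dat N) (b : Cfg N) : ℝ :=
  base β l d.1 b * Real.exp (Real.sqrt r * lin d.2 b - r * N / 2)

/-- The likelihood ratio. -/
def lik (β : ℝ) (l : Fin N → ℝ) (r : ℝ) (d : Dat N) : ℝ :=
  (2⁻¹ : ℝ) ^ N * ∑ b, pwt β l r d b

/-- Gibbs average. -/
def av (β : ℝ) (l : Fin N → ℝ) (r : ℝ) (d : Dat N) (h : Cfg N → ℝ) : ℝ :=
  (2⁻¹ : ℝ) ^ N * (∑ b, pwt β l r d b * h b) / lik β l r d

/-- The law of the data without planting. -/
def nullM (N : ℕ) : Measure (Dat N) := (haarO N).prod (gaussVec (Fin N))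

instance : IsProbabilityMeasure (nullM N) := by unfold nullM; infer_instance

/-- The entropy of the planted law. -/
def Fe (β : ℝ) (l : Fin N → ℝ) (r : ℝ) : ℝ := ∫ d, ent (lik β l r d) ∂nullM N

/-- The mean overlap. -/
def qv (β : ℝ) (l : Fin N → ℝ) (r : ℝ) : ℝ :=
  ∫ d, lik β l r d * av β l r d (fun b => av β l r d (fun b' => ovl b b')) ∂nullM N

/-- The mean squared fluctuation of the overlap. -/
def vr (β : ℝ) (l : Fin N → ℝ) (r : ℝ) : ℝ :=
  ∫ d, lik β l r d * av β l r d (fun b => av β l r d (fun b' => (ovl b b' - qv β l r) ^ 2)) ∂nullM N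

/-- Data in planted coordinates. -/
def sh (r : ℝ) (d : Dat N) : Dat N := (d.1, shv r d.2)

/-- The log-likelihood in planted coordinates. -/
def fe (β : ℝ) (l : Fin N → ℝ) (r : ℝ) (d : Dat N) : ℝ := Real.log (lik β l r (sh r d))

/-- The mean deviation of the log-likelihood under planting. -/
def dev (β : ℝ) (l : Fin N → ℝ) (r : ℝ) : ℝ :=
  ∫ d, base β l d.1 (ones N) * |fe β l r d - Fe β l r| ∂nullM N

/-- The action of a configuration on the data. -/
def actD (s : Cfg N) (d : Dat N) : Dat N := (d.1 * High.signO s, fun i => sp s i * d.2 i)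

/-- A bound for the normalised weights. -/
def bdC (β : ℝ) (l : Fin N → ℝ) : ℝ := Real.exp (|β| * (∑ i, |l i|) * N)

lemma sum_l_coord_le (l : Fin N → ℝ) (U : OMat N) (s : Cfg N) :
    |∑ i, l i * coord U s i| ≤ (∑ i, |l i|) * N := by
  rw [Finset.sum_mul]
  refine (Finset.abs_sum_le_sum_abs _ _).trans (Finset.sum_le_sum fun i _ => ?_)
  rw [abs_mul, abs_of_nonneg (coord_nonneg U s i)]
  refine mul_le_mul_of_nonneg_left ?_ (abs_nonneg _)
  rw [← sum_coord U s]
  exact Finset.single_le_sum (fun j _ => coord_nonneg U s j) (Finset.mem_univ i)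

lemma wt_bounds (β : ℝ) (l : Fin N → ℝ) (U : OMat N) (s : Cfg N) :
    Real.exp (-(|β| * (∑ i, |l i|) * N / 2)) ≤ P166.wt β l U s ∧
      P166.wt β l U s ≤ Real.exp (|β| * (∑ i, |l i|) * N / 2) := by
  have h : |β / 2 * ∑ i, l i * coord U s i| ≤ |β| * (∑ i, |l i|) * N / 2 := by
    rw [abs_mul, abs_div, abs_two]
    calc |β| / 2 * |∑ i, l i * coord U s i| ≤ |β| / 2 * ((∑ i, |l i|) * N) :=
          mul_le_mul_of_nonneg_left (sum_l_coord_le l U s) (by positivity)
      _ = _ := by ring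
  exact ⟨Real.exp_le_exp.2 (abs_le.1 h).1, Real.exp_le_exp.2 (abs_le.1 h).2⟩

lemma zbar_bounds (β : ℝ) (l : Fin N → ℝ) :
    Real.exp (-(|β| * (∑ i, |l i|) * N / 2)) ≤ zbar β l ∧
      zbar β l ≤ Real.exp (|β| * (∑ i, |l i|) * N / 2) := by
  have hi := P166.integrable_of_continuous (P166.continuous_wt β l (ones N))
  constructor
  · simpa [zbar] using integral_mono (integrable_const _) hi fun U => (wt_bounds β l U (ones N)).1
  · simpa [zbar] using integral_mono hi (integrable_const _) fun U => (wt_bounds β l U (ones N)).2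

lemma zbar_pos (β : ℝ) (l : Fin N → ℝ) : 0 < zbar β l :=
  (Real.exp_pos _).trans_le (zbar_bounds β l).1

lemma one_le_bdC (β : ℝ) (l : Fin N → ℝ) : 1 ≤ bdC β l := Real.one_le_exp (by positivity)

lemma bdC_pos (β : ℝ) (l : Fin N → ℝ) : 0 < bdC β l := Real.exp_pos _

lemma base_pos (β : ℝ) (l : Fin N → ℝ) (U : OMat N) (b : Cfg N) : 0 < base β l U b :=
  div_pos (Real.exp_pos _) (zbar_pos β l)

lemma base_le (β : ℝ) (l : Fin N → ℝ) (U : OMat N) (b : Cfg N) : base β l U b ≤ bdC β l := by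
  rw [base, div_le_iff₀ (zbar_pos β l)]
  refine ((wt_bounds β l U b).2).trans ?_
  refine le_trans (le_of_eq ?_) (mul_le_mul_of_nonneg_left (zbar_bounds β l).1 (bdC_pos β l).le)
  rw [bdC, ← Real.exp_add]; congr 1; ring

lemma le_base (β : ℝ) (l : Fin N → ℝ) (U : OMat N) (b : Cfg N) : (bdC β l)⁻¹ ≤ base β l U b := by
  rw [base, le_div_iff₀ (zbar_pos β l)]
  refine le_trans ?_ (wt_bounds β l U b).1
  refine (mul_le_mul_of_nonneg_left (zbar_bounds β l).2 (inv_pos.2 (bdC_pos β l)).le).trans (le_of_eq ?_)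
  rw [bdC, ← Real.exp_neg, ← Real.exp_add]; congr 1; ring

@[fun_prop]
lemma continuous_base (β : ℝ) (l : Fin N → ℝ) (b : Cfg N) : Continuous fun U => base β l U b :=
  (P166.continuous_wt β l b).div_const _

lemma coord_signO (U : OMat N) (s b : Cfg N) (i : Fin N) :
    coord (U * High.signO s) b i = coord U (xr b s) i := by
  unfold coord
  rw [Submonoid.coe_mul, ← mulVec_mulVec]
  congr 3
  funext j
  show (diagonal (spin s) *ᵥ spin b) j = _
  rw [mulVec_diagonal, ← sp_eq_spin, ← sp_eq_spin, ← sp_eq_spin, sp_xr]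
  ring

lemma base_sign (β : ℝ) (l : Fin N → ℝ) (U : OMat N) (s b : Cfg N) :
    base β l (U * High.signO s) b = base β l U (xr b s) := by
  simp only [base, P166.wt, coord_signO]

lemma map_sign (s : Cfg N) : (haarO N).map (fun U => U * High.signO s) = haarO N :=
  (High.sub_haar (N := N)).right _ fun i hi => absurd hi (Finset.notMem_empty i)

lemma integral_base (β : ℝ) (l : Fin N → ℝ) (b : Cfg N) : ∫ U, base β l U b ∂haarO N = 1 := by
  have h1 : ∫ U, base β l U (ones N) ∂haarO N = 1 := by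
    simp only [base]
    rw [integral_div]
    exact div_self (zbar_pos β l).ne'
  conv_lhs => rw [← map_sign b]
  rw [integral_map (continuous_mul_const _).aemeasurable
    (continuous_base β l b).measurable.aestronglyMeasurable]
  simpa [base_sign, xr_self] using h1

lemma pwt_pos (β : ℝ) (l : Fin N → ℝ) (r : ℝ) (d : Dat N) (b : Cfg N) : 0 < pwt β l r d b :=
  mul_pos (base_pos _ _ _ _) (Real.exp_pos _)

lemma lik_pos (β : ℝ) (l : Fin N → ℝ) (r : ℝ) (d : Dat N) : 0 < lik β l r d :=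
  mul_pos (by positivity) (Finset.sum_pos (fun b _ => pwt_pos β l r d b) Finset.univ_nonempty)

/-- An upper bound for the weights. -/
def wHi (β : ℝ) (l : Fin N → ℝ) (r S : ℝ) : ℝ := bdC β l * Real.exp (Real.sqrt r * S - r * N / 2)

lemma pwt_le (β : ℝ) (l : Fin N → ℝ) (r : ℝ) (d : Dat N) (b : Cfg N) :
    pwt β l r d b ≤ wHi β l r (absSum d.2) := by
  refine mul_le_mul (base_le _ _ _ _) (Real.exp_le_exp.2 ?_) (Real.exp_pos _).le (bdC_pos β l).le
  have := mul_le_mul_of_nonneg_left ((le_abs_self _).trans (abs_lin_le d.2 b)) (Real.sqrt_nonneg r)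
  linarith

lemma le_pwt (β : ℝ) (l : Fin N → ℝ) (r : ℝ) (d : Dat N) (b : Cfg N) :
    (bdC β l)⁻¹ * Real.exp (-(Real.sqrt r * absSum d.2) - r * N / 2) ≤ pwt β l r d b := by
  refine mul_le_mul (le_base _ _ _ _) (Real.exp_le_exp.2 ?_) (Real.exp_pos _).le (base_pos _ _ _ _).le
  have := mul_le_mul_of_nonneg_left ((neg_le_abs _).trans (abs_lin_le d.2 b)) (Real.sqrt_nonneg r)
  linarith

lemma lik_le (β : ℝ) (l : Fin N → ℝ) (r : ℝ) (d : Dat N) :
    lik β l r d ≤ wHi β l r (absSum d.2) := by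
  refine (mul_le_mul_of_nonneg_left (Finset.sum_le_sum fun b _ => pwt_le β l r d b) (by positivity)).trans
    (le_of_eq ?_)
  rw [Finset.sum_const, nsmul_eq_mul, Finset.card_univ, ← mul_assoc, half_pow_mul_card, one_mul]

lemma le_lik (β : ℝ) (l : Fin N → ℝ) (r : ℝ) (d : Dat N) :
    (bdC β l)⁻¹ * Real.exp (-(Real.sqrt r * absSum d.2) - r * N / 2) ≤ lik β l r d := by
  refine le_trans (le_of_eq ?_)
    (mul_le_mul_of_nonneg_left (Finset.sum_le_sum fun b _ => le_pwt β l r d b) (by positivity))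
  rw [Finset.sum_const, nsmul_eq_mul, Finset.card_univ, ← mul_assoc, half_pow_mul_card, one_mul]

lemma abs_log_lik_le (β : ℝ) (l : Fin N → ℝ) (r : ℝ) (d : Dat N) :
    |Real.log (lik β l r d)| ≤ Real.log (bdC β l) + Real.sqrt r * absSum d.2 + |r| * N / 2 := by
  have h1 := Real.log_le_log (lik_pos β l r d) (lik_le β l r d)
  have h0 : 0 < (bdC β l)⁻¹ * Real.exp (-(Real.sqrt r * absSum d.2) - r * N / 2) :=
    mul_pos (inv_pos.2 (bdC_pos β l)) (Real.exp_pos _)
  have h2 := Real.log_le_log h0 (le_lik β l r d)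
  rw [wHi, Real.log_mul (bdC_pos β l).ne' (Real.exp_ne_zero _), Real.log_exp] at h1
  rw [Real.log_mul (inv_pos.2 (bdC_pos β l)).ne' (Real.exp_ne_zero _), Real.log_exp, Real.log_inv] at h2
  have hn : (0 : ℝ) ≤ N := Nat.cast_nonneg N
  have := mul_le_mul_of_nonneg_right (le_abs_self r) hn
  have := mul_le_mul_of_nonneg_right (neg_le_abs r) hn
  rw [abs_le]; constructor <;> linarith

lemma av_const (β : ℝ) (l : Fin N → ℝ) (r : ℝ) (d : Dat N) (x : ℝ) :
    av β l r d (fun _ => x) = x := by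
  unfold av
  rw [← Finset.sum_mul, ← mul_assoc]
  exact mul_div_cancel_left₀ x (lik_pos β l r d).ne'

lemma av_add (β : ℝ) (l : Fin N → ℝ) (r : ℝ) (d : Dat N) (h k : Cfg N → ℝ) :
    av β l r d (fun b => h b + k b) = av β l r d h + av β l r d k := by
  unfold av; rw [← add_div, ← mul_add, ← Finset.sum_add_distrib]
  congr 2; exact Finset.sum_congr rfl fun b _ => mul_add _ _ _

lemma av_mul (β : ℝ) (l : Fin N → ℝ) (r : ℝ) (d : Dat N) (x : ℝ) (h : Cfg N → ℝ) :
    av β l r d (fun b => x * h b) = x * av β l r d h := by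
  unfold av; rw [← mul_div_assoc, mul_left_comm x, Finset.mul_sum Finset.univ _ x]
  congr 2; exact Finset.sum_congr rfl fun b _ => mul_left_comm _ _ _

lemma av_mul_right (β : ℝ) (l : Fin N → ℝ) (r : ℝ) (d : Dat N) (x : ℝ) (h : Cfg N → ℝ) :
    av β l r d (fun b => h b * x) = av β l r d h * x := by
  simp_rw [mul_comm _ x]; exact av_mul β l r d x h

lemma av_sub (β : ℝ) (l : Fin N → ℝ) (r : ℝ) (d : Dat N) (h k : Cfg N → ℝ) :
    av β l r d (fun b => h b - k b) = av β l r d h - av β l r d k := by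
  have := av_add β l r d (fun b => h b - k b) k
  simp only [sub_add_cancel] at this
  linarith

lemma av_finsum {ι : Type*} (s : Finset ι) (β : ℝ) (l : Fin N → ℝ) (r : ℝ) (d : Dat N)
    (h : ι → Cfg N → ℝ) :
    av β l r d (fun b => ∑ j ∈ s, h j b) = ∑ j ∈ s, av β l r d (h j) := by
  unfold av
  rw [← Finset.sum_div, ← Finset.mul_sum, Finset.sum_comm]
  simp only [Finset.mul_sum]

lemma av_mono (β : ℝ) (l : Fin N → ℝ) (r : ℝ) (d : Dat N) {h k : Cfg N → ℝ} (hhk : ∀ b, h b ≤ k b) :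
    av β l r d h ≤ av β l r d k :=
  div_le_div_of_nonneg_right (mul_le_mul_of_nonneg_left
    (Finset.sum_le_sum fun b _ => mul_le_mul_of_nonneg_left (hhk b) (pwt_pos β l r d b).le) (by positivity))
    (lik_pos β l r d).le

lemma abs_av_le (β : ℝ) (l : Fin N → ℝ) (r : ℝ) (d : Dat N) {h : Cfg N → ℝ} {B : ℝ}
    (hb : ∀ b, |h b| ≤ B) : |av β l r d h| ≤ B := by
  rw [abs_le]
  exact ⟨(av_const β l r d (-B)).symm.trans_le (av_mono β l r d fun b => (abs_le.1 (hb b)).1),
    (av_mono β l r d fun b => (abs_le.1 (hb b)).2).trans_eq (av_const β l r d B)⟩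

lemma lik_mul_av (β : ℝ) (l : Fin N → ℝ) (r : ℝ) (d : Dat N) (h : Cfg N → ℝ) :
    lik β l r d * av β l r d h = (2⁻¹ : ℝ) ^ N * ∑ b, pwt β l r d b * h b :=
  mul_div_cancel₀ _ (lik_pos β l r d).ne'

lemma pwt_act (β : ℝ) (l : Fin N → ℝ) (r : ℝ) (s : Cfg N) (d : Dat N) (b : Cfg N) :
    pwt β l r (actD s d) b = pwt β l r d (xr b s) := by
  have : lin (actD s d).2 b = lin d.2 (xr b s) := by
    unfold lin actD
    refine Finset.sum_congr rfl fun i _ => ?_
    simp only [sp_xr]; ring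
  unfold pwt
  rw [this]
  simp only [actD, base_sign]

lemma lik_act (β : ℝ) (l : Fin N → ℝ) (r : ℝ) (s : Cfg N) (d : Dat N) :
    lik β l r (actD s d) = lik β l r d := by
  unfold lik
  simp_rw [pwt_act]
  rw [← (xrEquiv s).sum_comp (pwt β l r d)]
  rfl

lemma av_act (β : ℝ) (l : Fin N → ℝ) (r : ℝ) (s : Cfg N) (d : Dat N) (h : Cfg N → ℝ) :
    av β l r (actD s d) (fun b => h (xr b s)) = av β l r d h := by
  unfold av
  rw [lik_act]
  simp_rw [pwt_act]
  rw [← (xrEquiv s).sum_comp fun b => pwt β l r d b * h b]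
  rfl

lemma map_actD (s : Cfg N) : (nullM N).map (actD s) = nullM N := by
  have h2 : (gaussVec (Fin N)).map (fun z i => sp s i * z i) = gaussVec (Fin N) := by
    have h := High.gauss_act (N := N) (High.signO s)
    have e : (fun g : Fin N → ℝ => High.act (High.signO s) g) = fun z i => sp s i * z i := by
      funext z i
      show (diagonal (spin s) *ᵥ z) i = _
      rw [mulVec_diagonal]
      rfl
    rw [e] at h
    exact h
  have : actD s = Prod.map (fun U : OMat N => U * High.signO s) (fun z i => sp s i * z i) := rfl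
  rw [this, nullM, ← Measure.map_prod_map _ _ (continuous_mul_const _).measurable (by fun_prop),
    map_sign, h2]

/-- Functions growing at most exponentially in the side observation. -/
def Gd (F : Dat N → ℝ) : Prop :=
  Measurable F ∧ ∃ K c : ℝ, 0 ≤ K ∧ 0 ≤ c ∧ ∀ d, |F d| ≤ K * Real.exp (c * absSum d.2)

lemma Gd.integrable {F : Dat N → ℝ} (hF : Gd F) : Integrable F (nullM N) := by
  obtain ⟨hm, K, c, hK, hc, hb⟩ := hF
  exact Integrable.mono' (g := fun d => K * Real.exp (c * absSum d.2))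
    ((Integrable.comp_snd (integrable_exp_absSum c) _).const_mul K) hm.aestronglyMeasurable
    (ae_of_all _ fun d => by simpa using hb d)

lemma Gd.const (x : ℝ) : Gd (fun _ : Dat N => x) :=
  ⟨measurable_const, |x|, 0, abs_nonneg x, le_rfl, fun d => by simp⟩

lemma Gd.of_bdd {F : Dat N → ℝ} (hm : Measurable F) {B : ℝ} (hb : ∀ d, |F d| ≤ B) : Gd F :=
  ⟨hm, |B|, 0, abs_nonneg B, le_rfl, fun d => by simpa using (hb d).trans (le_abs_self B)⟩

lemma Gd.mul {F G : Dat N → ℝ} (hF : Gd F) (hG : Gd G) : Gd (fun d => F d * G d) := by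
  obtain ⟨hm, K, c, hK, hc, hb⟩ := hF
  obtain ⟨hm', K', c', hK', hc', hb'⟩ := hG
  refine ⟨hm.mul hm', K * K', c + c', by positivity, by linarith, fun d => ?_⟩
  rw [abs_mul, add_mul, Real.exp_add, mul_mul_mul_comm]
  exact mul_le_mul (hb d) (hb' d) (abs_nonneg _) (by positivity)

lemma Gd.add {F G : Dat N → ℝ} (hF : Gd F) (hG : Gd G) : Gd (fun d => F d + G d) := by
  obtain ⟨hm, K, c, hK, hc, hb⟩ := hF
  obtain ⟨hm', K', c', hK', hc', hb'⟩ := hG
  refine ⟨hm.add hm', K + K', c + c', by positivity, by linarith, fun d => ?_⟩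
  have hS := absSum_nonneg d.2
  refine (abs_add_le _ _).trans ?_
  rw [add_mul]
  refine add_le_add ((hb d).trans ?_) ((hb' d).trans ?_)
  all_goals
    refine mul_le_mul_of_nonneg_left (Real.exp_le_exp.2 ?_) (by assumption)
    nlinarith

lemma Gd.neg {F : Dat N → ℝ} (hF : Gd F) : Gd (fun d => -F d) := by
  obtain ⟨hm, K, c, hK, hc, hb⟩ := hF
  exact ⟨hm.neg, K, c, hK, hc, fun d => by simpa using hb d⟩

lemma Gd.sub {F G : Dat N → ℝ} (hF : Gd F) (hG : Gd G) : Gd (fun d => F d - G d) := by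
  simpa [sub_eq_add_neg] using hF.add hG.neg

lemma Gd.abs {F : Dat N → ℝ} (hF : Gd F) : Gd (fun d => |F d|) := by
  obtain ⟨hm, K, c, hK, hc, hb⟩ := hF
  exact ⟨hm.abs, K, c, hK, hc, fun d => by rw [abs_abs]; exact hb d⟩

lemma Gd.sum {ι : Type*} (s : Finset ι) {F : ι → Dat N → ℝ} (hF : ∀ j ∈ s, Gd (F j)) :
    Gd (fun d => ∑ j ∈ s, F j d) := by
  induction s using Finset.cons_induction with
  | empty => simpa using Gd.const (N := N) 0
  | cons j s hj ih =>
    simp only [Finset.sum_cons]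
    exact (hF j (Finset.mem_cons_self j s)).add (ih fun k hk => hF k (Finset.mem_cons_of_mem hk))

lemma Gd.absSum_snd : Gd (fun d : Dat N => absSum d.2) :=
  ⟨measurable_absSum.comp measurable_snd, 1, 1, zero_le_one, zero_le_one, fun d => by
    rw [abs_of_nonneg (absSum_nonneg _), one_mul, one_mul]
    linarith [Real.add_one_le_exp (absSum d.2)]⟩

@[fun_prop]
lemma measurable_pwt (β : ℝ) (l : Fin N → ℝ) (r : ℝ) (b : Cfg N) :
    Measurable fun d : Dat N => pwt β l r d b := by
  unfold pwt lin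
  exact ((continuous_base β l b).measurable.comp measurable_fst).mul (by fun_prop)

@[fun_prop]
lemma measurable_lik (β : ℝ) (l : Fin N → ℝ) (r : ℝ) : Measurable fun d : Dat N => lik β l r d :=
  (Finset.measurable_sum _ fun b _ => measurable_pwt β l r b).const_mul _

lemma measurable_av (β : ℝ) (l : Fin N → ℝ) (r : ℝ) {h : Dat N → Cfg N → ℝ}
    (hh : ∀ b, Measurable fun d => h d b) : Measurable fun d : Dat N => av β l r d (h d) := by
  unfold av
  exact ((Finset.measurable_sum _ fun b _ => (measurable_pwt β l r b).mul (hh b)).const_mul _).div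
    (measurable_lik β l r)

lemma gd_pwt (β : ℝ) (l : Fin N → ℝ) (r : ℝ) (b : Cfg N) : Gd (fun d : Dat N => pwt β l r d b) := by
  refine ⟨measurable_pwt β l r b, bdC β l * Real.exp (-(r * N / 2)), Real.sqrt r,
    mul_nonneg (bdC_pos β l).le (Real.exp_pos _).le, Real.sqrt_nonneg r, fun d => ?_⟩
  rw [abs_of_pos (pwt_pos β l r d b)]
  refine (pwt_le β l r d b).trans (le_of_eq ?_)
  rw [wHi, mul_assoc, ← Real.exp_add]
  ring_nf

lemma gd_lik (β : ℝ) (l : Fin N → ℝ) (r : ℝ) : Gd (fun d : Dat N => lik β l r d) :=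
  (Gd.const _).mul (Gd.sum _ fun b _ => gd_pwt β l r b)

lemma gd_base (β : ℝ) (l : Fin N → ℝ) (b : Cfg N) : Gd (fun d : Dat N => base β l d.1 b) :=
  Gd.of_bdd ((continuous_base β l b).measurable.comp measurable_fst) fun d => by
    rw [abs_of_pos (base_pos _ _ _ _)]; exact base_le _ _ _ _

lemma gd_log_lik (β : ℝ) (l : Fin N → ℝ) (r : ℝ) :
    Gd (fun d : Dat N => Real.log (lik β l r d)) := by
  have h := ((Gd.const (N := N) (Real.log (bdC β l) + |r| * N / 2)).add
    ((Gd.const (Real.sqrt r)).mul Gd.absSum_snd))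
  obtain ⟨-, K, c, hK, hc, hb⟩ := h
  refine ⟨(measurable_lik β l r).log, K, c, hK, hc, fun d => ?_⟩
  refine (abs_log_lik_le β l r d).trans (le_trans ?_ ((le_abs_self _).trans (hb d)))
  linarith

lemma gd_ent_lik (β : ℝ) (l : Fin N → ℝ) (r : ℝ) : Gd (fun d : Dat N => ent (lik β l r d)) :=
  (gd_lik β l r).mul (gd_log_lik β l r)

lemma gd_av (β : ℝ) (l : Fin N → ℝ) (r : ℝ) {h : Dat N → Cfg N → ℝ}
    (hh : ∀ b, Measurable fun d => h d b) {B : ℝ} (hb : ∀ d b, |h d b| ≤ B) :
    Gd (fun d : Dat N => av β l r d (h d)) :=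
  Gd.of_bdd (measurable_av β l r hh) fun d => abs_av_le β l r d (hb d)

@[fun_prop]
lemma measurable_sh (r : ℝ) : Measurable (sh r : Dat N → Dat N) := by unfold sh shv; fun_prop

/-- Planting one configuration equals averaging with the Gibbs measure. -/
lemma planted_eq (β : ℝ) (l : Fin N → ℝ) (r : ℝ) {H : Dat N → Cfg N → ℝ}
    (hg : ∀ b, Gd fun d => H d b) (hinv : ∀ s d b, H (actD s d) b = H d (xr b s)) :
    ∫ d, pwt β l r d (ones N) * H d (ones N) ∂nullM N
      = ∫ d, lik β l r d * av β l r d (H d) ∂nullM N := by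
  have hb : ∀ b, ∫ d, pwt β l r d b * H d b ∂nullM N
      = ∫ d, pwt β l r d (ones N) * H d (ones N) ∂nullM N := fun b => by
    have hm : Measurable fun d => pwt β l r d b * H d b := (measurable_pwt β l r b).mul (hg b).1
    have hact : Measurable (actD (N := N) b) :=
      ((continuous_mul_const (High.signO b)).measurable.comp measurable_fst).prodMk (by fun_prop)
    conv_lhs => rw [← map_actD b]
    rw [integral_map hact.aemeasurable hm.aestronglyMeasurable]
    refine integral_congr_ae (ae_of_all _ fun d => ?_)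
    simp only [pwt_act, hinv, xr_self]
  simp_rw [lik_mul_av]
  rw [integral_const_mul, integral_finsetSum _ fun b _ => ((gd_pwt β l r b).mul (hg b)).integrable]
  simp_rw [hb]
  rw [Finset.sum_const, nsmul_eq_mul, Finset.card_univ, ← mul_assoc, half_pow_mul_card, one_mul]

lemma planted_eq' (β : ℝ) (l : Fin N → ℝ) (r : ℝ) {F : Dat N → ℝ} (hg : Gd F)
    (hinv : ∀ s d, F (actD s d) = F d) :
    ∫ d, pwt β l r d (ones N) * F d ∂nullM N = ∫ d, lik β l r d * F d ∂nullM N := by
  rw [planted_eq β l r (H := fun d _ => F d) (fun _ => hg) fun s d _ => hinv s d]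
  simp_rw [av_const]

end

end Vale.Agent.P166.Plant
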