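import Vale.Agent.P166.Plant.Increment

/-!
The planted entropy along paths in the temperature and the signal strength.
-/

open MeasureTheory ProbabilityTheory Filter Topology Set
open Vale.Agent.P157.Plant (Cfg ones sp xr ovl lin absSum cubeInfo)

namespace Vale.Agent.P166.Plant

noncomputable section

variable {N : ℕ} {M η β : ℝ} {l : Fin N → ℝ}

lemma wt_ratio (hl : ∀ i, |l i| ≤ M) (b b' : ℝ) (U : OMat N) (s : Cfg N) :
    P166.wt b' l U s ≤ Real.exp (|b' - b| * M * N / 2) * P166.wt b l U s := by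
  rw [P166.wt, P166.wt, ← Real.exp_add, Real.exp_le_exp, ← sub_le_iff_le_add, ← sub_mul, ← sub_div]
  refine (le_abs_self _).trans ?_
  rw [abs_mul, abs_div, abs_two]
  calc |b' - b| / 2 * |∑ i, l i * coord U s i| ≤ |b' - b| / 2 * (M * N) := by
        refine mul_le_mul_of_nonneg_left ?_ (by positivity)
        rw [← sum_coord U s, Finset.mul_sum]
        refine (Finset.abs_sum_le_sum_abs _ _).trans (Finset.sum_le_sum fun i _ => ?_)
        rw [abs_mul, abs_of_nonneg (coord_nonneg U s i)]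
        exact mul_le_mul_of_nonneg_right (hl i) (coord_nonneg U s i)
    _ = _ := by ring

lemma pwt_ratio (hl : ∀ i, |l i| ≤ M) (b b' r : ℝ) (d : Dat N) (s : Cfg N) :
    pwt b' l r d s ≤ Real.exp (|b' - b| * M * N) * pwt b l r d s := by
  have hz : zbar b l ≤ Real.exp (|b' - b| * M * N / 2) * zbar b' l := by
    rw [zbar, zbar, ← integral_const_mul]
    refine integral_mono (P166.integrable_of_continuous (P166.continuous_wt _ _ _))
      ((P166.integrable_of_continuous (P166.continuous_wt _ _ _)).const_mul _) fun U => ?_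
    rw [abs_sub_comm]
    exact wt_ratio hl b' b U _
  simp only [pwt, base]
  rw [← mul_assoc, ← mul_div_assoc]
  refine mul_le_mul_of_nonneg_right ?_ (Real.exp_pos _).le
  rw [div_le_div_iff₀ (zbar_pos b' l) (zbar_pos b l)]
  calc P166.wt b' l d.1 s * zbar b l
      ≤ (Real.exp (|b' - b| * M * N / 2) * P166.wt b l d.1 s)
          * (Real.exp (|b' - b| * M * N / 2) * zbar b' l) :=
        mul_le_mul (wt_ratio hl b b' d.1 s) hz (zbar_pos b l).le
          (mul_nonneg (Real.exp_pos _).le (Real.exp_pos _).le)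
    _ = _ := by
        rw [show Real.exp (|b' - b| * M * N) =
          Real.exp (|b' - b| * M * N / 2) * Real.exp (|b' - b| * M * N / 2) by rw [← Real.exp_add]; ring_nf]
        ring

/-- The pair average of a function of the overlap. -/
def pairE (b : ℝ) (l : Fin N → ℝ) (r : ℝ) (k : ℝ → ℝ) : ℝ :=
  ∫ d, lik b l r d * av b l r d (fun x => av b l r d (fun y => k (ovl x y))) ∂nullM N

lemma gd_pair (b : ℝ) (l : Fin N → ℝ) (r : ℝ) (k : ℝ → ℝ) :
    Gd fun d => lik b l r d * av b l r d (fun x => av b l r d (fun y => k (ovl x y))) := by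
  refine (gd_lik b l r).mul (gd_av b l r (fun x => ?_) (B := ∑ x : Cfg N, ∑ y : Cfg N, |k (ovl x y)|) fun d x => ?_)
  · exact measurable_av b l r fun _ => measurable_const
  · refine (abs_av_le b l r d (B := ∑ y, |k (ovl x y)|) fun y => ?_).trans ?_
    · exact Finset.single_le_sum (f := fun y => |k (ovl x y)|) (fun _ _ => abs_nonneg _) (Finset.mem_univ y)
    · exact Finset.single_le_sum (f := fun x => ∑ y, |k (ovl x y)|)
        (fun _ _ => Finset.sum_nonneg fun _ _ => abs_nonneg _) (Finset.mem_univ x)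

lemma pairE_le_exp (hl : ∀ i, |l i| ≤ M) (b b' r : ℝ) {k : ℝ → ℝ}
    (hk : ∀ x y : Cfg N, 0 ≤ k (ovl x y)) :
    pairE b' l r k ≤ Real.exp (3 * (|b' - b| * M * N)) * pairE b l r k := by
  rw [pairE, pairE, ← integral_const_mul]
  refine integral_mono (gd_pair b' l r k).integrable ((gd_pair b l r k).integrable.const_mul _) fun d => ?_
  have e : ∀ c, lik c l r d * av c l r d (fun x => av c l r d (fun y => k (ovl x y)))
      = (2⁻¹ : ℝ) ^ N * ((2⁻¹ : ℝ) ^ N * ∑ x, ∑ y, pwt c l r d x * pwt c l r d y * k (ovl x y))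
          / lik c l r d := fun c => by
    rw [lik_mul_av]
    simp only [av, mul_div_assoc', Finset.mul_sum, ← Finset.sum_div]
    exact congrArg (fun t : ℝ => t / lik c l r d) (Finset.sum_congr rfl fun x _ => Finset.sum_congr rfl fun y _ => by ring)
  set E := Real.exp (|b' - b| * M * N)
  have hE3 : Real.exp (3 * (|b' - b| * M * N)) = E ^ 3 := by
    rw [show (3 : ℝ) = ((3 : ℕ) : ℝ) by norm_num, Real.exp_nat_mul]
  have hlik : lik b l r d ≤ E * lik b' l r d := by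
    rw [lik, lik, mul_left_comm]
    refine mul_le_mul_of_nonneg_left ?_ (pow_nonneg (inv_nonneg.2 zero_le_two) N)
    rw [Finset.mul_sum]
    refine Finset.sum_le_sum fun s _ => ?_
    simp only [E]
    rw [abs_sub_comm]
    exact pwt_ratio hl b' b r d s
  have hsum : ∀ c, 0 ≤ ∑ x, ∑ y, pwt c l r d x * pwt c l r d y * k (ovl x y) := fun c =>
    Finset.sum_nonneg fun x _ => Finset.sum_nonneg fun y _ =>
      mul_nonneg (mul_nonneg (pwt_pos _ _ _ _ _).le (pwt_pos _ _ _ _ _).le) (hk x y)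
  dsimp only
  rw [e b', e b, hE3, mul_div_assoc', div_le_div_iff₀ (lik_pos _ _ _ _) (lik_pos _ _ _ _)]
  have h2 : ∑ x, ∑ y, pwt b' l r d x * pwt b' l r d y * k (ovl x y)
      ≤ E ^ 2 * ∑ x, ∑ y, pwt b l r d x * pwt b l r d y * k (ovl x y) := by
    rw [Finset.mul_sum]
    refine Finset.sum_le_sum fun x _ => ?_
    rw [Finset.mul_sum]
    refine Finset.sum_le_sum fun y _ => ?_
    rw [← mul_assoc]
    refine mul_le_mul_of_nonneg_right ?_ (hk x y)
    rw [show E ^ 2 * (pwt b l r d x * pwt b l r d y) = (E * pwt b l r d x) * (E * pwt b l r d y) by ring]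
    exact mul_le_mul (pwt_ratio hl b b' r d x) (pwt_ratio hl b b' r d y) (pwt_pos _ _ _ _ _).le
      (mul_nonneg (Real.exp_pos _).le (pwt_pos _ _ _ _ _).le)
  set a := (2⁻¹ : ℝ) ^ N
  have ha : 0 ≤ a := by positivity
  refine (mul_le_mul (mul_le_mul_of_nonneg_left (mul_le_mul_of_nonneg_left h2 ha) ha) hlik
    (lik_pos _ _ _ _).le (mul_nonneg ha (mul_nonneg ha (mul_nonneg (by positivity) (hsum b))))).trans (le_of_eq ?_)
  ring

lemma pairE_const (b : ℝ) (l : Fin N → ℝ) {r : ℝ} (hr : 0 ≤ r) (c : ℝ) :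
    pairE b l r (fun _ => c) = c := by
  simp only [pairE, av_const, integral_mul_const, integral_lik b l hr, one_mul]

lemma pairE_add (b : ℝ) (l : Fin N → ℝ) (r : ℝ) (k k' : ℝ → ℝ) :
    pairE b l r (fun x => k x + k' x) = pairE b l r k + pairE b l r k' := by
  rw [pairE, pairE, pairE, ← integral_add (gd_pair b l r k).integrable (gd_pair b l r k').integrable]
  simp only [av_add, mul_add]

lemma pairE_mul (b : ℝ) (l : Fin N → ℝ) (r : ℝ) (c : ℝ) (k : ℝ → ℝ) :
    pairE b l r (fun x => c * k x) = c * pairE b l r k := by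
  rw [pairE, pairE, ← integral_const_mul]
  simp only [av_mul, mul_left_comm c]

lemma qv_eq_pair (b : ℝ) (l : Fin N → ℝ) (r : ℝ) : qv b l r = pairE b l r (fun x => x) := rfl

lemma pair_sq (b : ℝ) (l : Fin N → ℝ) {r : ℝ} (hr : 0 ≤ r) (c : ℝ) :
    pairE b l r (fun x => (x - c) ^ 2) = vr b l r + (qv b l r - c) ^ 2 := by
  set q := qv b l r
  have e : (fun x : ℝ => (x - c) ^ 2)
      = fun x => (x - q) ^ 2 + (2 * (q - c) * x + (q - c) * (-q - c)) := by funext x; ring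
  rw [e, pairE_add, pairE_add, pairE_mul, pairE_const b l hr, ← qv_eq_pair]
  show vr b l r + _ = _
  ring

lemma close_b (hl : ∀ i, |l i| ≤ M) {b b' r τ : ℝ} (hr : 0 ≤ r) (hτ : 3 * (|b' - b| * M * N) ≤ τ)
    (hτ1 : τ ≤ 1 / 2) :
    |qv b' l r - qv b l r| ≤ 4 * τ ∧ vr b' l r ≤ 2 * vr b l r := by
  rcases Nat.eq_zero_or_pos N with rfl | hN
  · have h0 : ∀ c, pairE c l r (fun x => x) = 0 := fun c => by
      have : ∀ x y : Cfg 0, ovl x y = 0 := fun x y => by simp [ovl]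
      simp only [pairE, this]
      simp [av_const]
    have hv : ∀ c, vr c l r = 0 := fun c => by
      have : ∀ x y : Cfg 0, ovl x y = 0 := fun x y => by simp [ovl]
      simp only [vr, this, qv_eq_pair, h0]
      simp [av_const]
    simp only [qv_eq_pair, h0, hv, sub_zero, abs_zero, mul_zero, le_refl, and_true]
    norm_num at hτ
    linarith
  have hM : 0 ≤ M := (abs_nonneg _).trans (hl ⟨0, hN⟩)
  have he0 : 1 ≤ Real.exp (3 * (|b' - b| * M * N)) := Real.one_le_exp (by positivity)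
  have he : Real.exp (3 * (|b' - b| * M * N)) ≤ 1 + 2 * τ := by
    refine (Real.exp_le_exp.2 hτ).trans ?_
    have hτ0 : 0 ≤ τ := le_trans (by positivity) hτ
    have := (abs_le.1 (Real.abs_exp_sub_one_sub_id_le (show |τ| ≤ 1 by rw [abs_of_nonneg hτ0]; linarith))).2
    nlinarith
  constructor
  · have hb : ∀ c, pairE c l r (fun x => x + 1) = qv c l r + 1 := fun c => by
      rw [pairE_add, pairE_const c l hr, qv_eq_pair]
    have hpos : ∀ x y : Cfg N, 0 ≤ ovl x y + 1 := fun x y => by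
      linarith [(abs_le.1 (Vale.Agent.P157.Plant.abs_ovl_le x y)).1]
    have h1 := pairE_le_exp hl b b' r (k := fun x => x + 1) hpos
    have h2 := pairE_le_exp hl b' b r (k := fun x => x + 1) hpos
    rw [hb, hb] at h1 h2
    rw [abs_sub_comm b b'] at h2
    have a1 := qv_le_one hN b l hr
    have a2 := qv_le_one hN b' l hr
    have a3 := qv_nonneg hN b l r
    have a4 := qv_nonneg hN b' l r
    have m1 := mul_le_mul_of_nonneg_right he (show 0 ≤ qv b l r + 1 by linarith)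
    have m2 := mul_le_mul_of_nonneg_right he (show 0 ≤ qv b' l r + 1 by linarith)
    rw [abs_le]
    constructor <;> nlinarith
  · have h1 := pairE_le_exp hl b b' r (k := fun x => (x - qv b l r) ^ 2) fun _ _ => sq_nonneg _
    rw [pair_sq b' l hr, pair_sq b l hr, sub_self, zero_pow two_ne_zero, add_zero] at h1
    have h3 := mul_le_mul_of_nonneg_right (he.trans (by linarith : 1 + 2 * τ ≤ 2)) (vr_nonneg b l r)
    linarith [sq_nonneg (qv b' l r - qv b l r)]

lemma sqrt_gap {η δ r : ℝ} (hη : 0 < η) (hδ : 0 < δ) (hδr : δ < r) (hr : η ≤ r) :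
    |1 / (Real.sqrt (r + δ) + Real.sqrt r) - 1 / (Real.sqrt (r - δ) + Real.sqrt r)|
      ≤ 2 * δ / (η * Real.sqrt η) := by
  have hr0 : 0 < r := hη.trans_le hr
  set u := Real.sqrt (r + δ)
  set v := Real.sqrt (r - δ)
  set w := Real.sqrt r
  have hw : 0 < w := Real.sqrt_pos.2 hr0
  have hwu : w ≤ u := Real.sqrt_le_sqrt (by linarith)
  have hv : 0 ≤ v := Real.sqrt_nonneg _
  have hvu : v ≤ u := Real.sqrt_le_sqrt (by linarith)
  have hww : η ≤ w * w := by rw [Real.mul_self_sqrt hr0.le]; exact hr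
  have hwη : Real.sqrt η ≤ w := Real.sqrt_le_sqrt hr
  have huv : (u - v) * (u + v) = 2 * δ := by
    have := Real.mul_self_sqrt (show 0 ≤ r + δ by linarith)
    have := Real.mul_self_sqrt (show 0 ≤ r - δ by linarith)
    nlinarith
  rw [div_sub_div _ _ (by positivity) (by positivity), abs_div,
    abs_of_pos (show 0 < (u + w) * (v + w) by positivity),
    show 1 * (v + w) - (u + w) * 1 = -(u - v) by ring, abs_neg, abs_of_nonneg (sub_nonneg.2 hvu),
    div_le_div_iff₀ (by positivity) (by positivity)]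
  have h1 : (u - v) * Real.sqrt η ≤ 2 * δ :=
    (mul_le_mul_of_nonneg_left (hwη.trans (by linarith : w ≤ u + v)) (sub_nonneg.2 hvu)).trans huv.le
  have h2 : η ≤ (u + w) * (v + w) :=
    hww.trans (mul_le_mul (by linarith) (by linarith) hw.le (by linarith))
  calc (u - v) * (η * Real.sqrt η) = (u - v) * Real.sqrt η * η := by ring
    _ ≤ 2 * δ * ((u + w) * (v + w)) := mul_le_mul h1 h2 hη.le (by linarith)

/-- The fluctuations summed over a separated grid. -/
lemma vr_grid (hN : 0 < N) {η R D : ℝ} (hη : 0 < η) {K₀ : ℕ} (hK : 0 < K₀) {x : ℕ → ℝ}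
    (hx0 : η ≤ x 0) (hsep : ∀ j, x j + 2 * (η / (2 * K₀)) ≤ x (j + 1))
    (hR : ∀ j, j < K₀ → x j ≤ R) (hD : ∀ s ∈ Icc (0 : ℝ) (R + η), dev β l s ≤ D) :
    ∑ j ∈ Finset.range K₀, vr β l (x j)
      ≤ K₀ * ((8 * Real.log 2 + 16 * D) / (N * (η / (2 * K₀)))) + 4 / Real.sqrt η + 2 := by
  set δ := η / (2 * (K₀ : ℝ)) with hδdef
  have hK' : (1 : ℝ) ≤ K₀ := by exact_mod_cast hK
  have hδ : 0 < δ := by positivity
  have hδη : δ < η := by rw [hδdef, div_lt_iff₀ (by positivity)]; nlinarith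
  have hx : ∀ j, η ≤ x j := by
    intro j
    induction j with
    | zero => exact hx0
    | succ j ih => linarith [hsep j]
  have hn : (0 : ℝ) < N := by exact_mod_cast hN
  have hb : ∀ j, j < K₀ → vr β l (x j) ≤ (8 * Real.log 2 + 16 * D) / (N * δ)
      + 8 * δ / (η * Real.sqrt η) + 2 * (qv β l (x j + δ) - qv β l (x j - δ)) := by
    intro j hj
    have hr := hx j
    have hRj := hR j hj
    have h := vr_bound (β := β) (l := l) hN hδ (hδη.trans_le hr)
      fun s hs => hD s ⟨by linarith [hs.1], by linarith [hs.2]⟩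
    have h4 := mul_le_mul_of_nonneg_left (sqrt_gap hη hδ (hδη.trans_le hr) hr)
      (show 0 ≤ 4 * δ * N by positivity)
    have h3 : (N : ℝ) * δ * vr β l (x j) ≤ N * δ * ((8 * Real.log 2 + 16 * D) / (N * δ)
        + 8 * δ / (η * Real.sqrt η) + 2 * (qv β l (x j + δ) - qv β l (x j - δ))) := by
      refine h.trans ?_
      conv_rhs => rw [mul_add, mul_add, mul_div_cancel₀ _ (by positivity : (N : ℝ) * δ ≠ 0)]
      have h5 : 4 * δ * N * (2 * δ / (η * Real.sqrt η)) = N * δ * (8 * δ / (η * Real.sqrt η)) := by ring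
      linarith
    exact le_of_mul_le_mul_left h3 (by positivity)
  refine (Finset.sum_le_sum fun j hj => hb j (Finset.mem_range.1 hj)).trans ?_
  rw [Finset.sum_add_distrib, Finset.sum_add_distrib, Finset.sum_const, Finset.sum_const,
    Finset.card_range, nsmul_eq_mul, nsmul_eq_mul, ← Finset.mul_sum]
  have ht := Vale.Agent.P157.Plant.telescope (q := qv β l) (fun x y h1 h2 => qv_mono hN β l h1 h2)
    (fun x _ => qv_nonneg hN β l x) (fun x h => qv_le_one hN β l h) hδ.le (hδη.le.trans hx0) hsep K₀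
  have h2 : (K₀ : ℝ) * (8 * δ / (η * Real.sqrt η)) = 4 / Real.sqrt η := by
    simp only [δ]; field_simp; ring
  linarith

/-- The path of signal strengths: at step `k` from the top the strength grows by the slope. -/
def upPath (h : ℝ) (c : ℕ → ℝ → ℝ) : ℕ → ℝ → ℝ
  | 0, e => e
  | k + 1, e => upPath h c k e + 2 * h * c k (upPath h c k e)

lemma upPath_facts {h L : ℝ} (hh : 0 ≤ h) {c : ℕ → ℝ → ℝ}
    (hc : ∀ k r, 0 ≤ r → 0 ≤ c k r ∧ c k r ≤ L) (hm : ∀ k r r', 0 ≤ r → r ≤ r' → c k r ≤ c k r')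
    (k : ℕ) {e : ℝ} (he : 0 ≤ e) :
    e ≤ upPath h c k e ∧ upPath h c k e ≤ e + k * (2 * h * L) ∧
      ∀ e', e ≤ e' → upPath h c k e + (e' - e) ≤ upPath h c k e' := by
  induction k with
  | zero => simp [upPath]
  | succ k ih =>
    obtain ⟨h1, h2, h3⟩ := ih
    have hc1 := hc k _ (he.trans h1)
    have := mul_le_mul_of_nonneg_left hc1.2 (show 0 ≤ 2 * h by positivity)
    have := mul_nonneg (show 0 ≤ 2 * h by positivity) hc1.1
    refine ⟨by simp only [upPath]; linarith, by simp only [upPath]; push_cast; linarith, fun e' hee => ?_⟩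
    have h4 := h3 e' hee
    have := mul_le_mul_of_nonneg_left (hm k _ _ (he.trans h1)
      (show upPath h c k e ≤ upPath h c k e' by linarith)) (show 0 ≤ 2 * h by positivity)
    simp only [upPath]
    linarith

/-- A bound on a derivative along a segment bounds the increment. -/
lemma sub_le_of_deriv {f : ℝ → ℝ} {a b C : ℝ} (hab : a ≤ b)
    (hf : ∀ t ∈ Icc a b, ∃ v, HasDerivAt f v t ∧ v ≤ C) : f b - f a ≤ (b - a) * C := by
  choose v hv hC using hf
  have hd : ∀ t ∈ Icc a b, DifferentiableAt ℝ f t := fun t ht => (hv t ht).differentiableAt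
  have := (convex_Icc a b).image_sub_le_mul_sub_of_deriv_le (C := C)
    (fun t ht => (hd t ht).continuousAt.continuousWithinAt)
    (fun t ht => (hd t (interior_subset ht)).differentiableWithinAt)
    (fun t ht => by rw [(hv t (interior_subset ht)).deriv]; exact hC _ _)
    a (left_mem_Icc.2 hab) b (right_mem_Icc.2 hab) hab
  linarith

/-- What the path argument uses at one size. -/
structure StepData (M η b₀ β R ε K L : ℝ) (l : Fin N → ℝ) : Prop where
  size : 0 < N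
  tame : Tame M η β l
  inc : ∀ b ∈ Icc b₀ β, ∀ r ∈ Icc (0 : ℝ) R, ∃ v, HasDerivAt (fun t => Fe t l r) v b ∧
    |v - N * kq l b (qv b l r)| ≤ N * (ε + K * vr b l r)
  bound : ∀ b ∈ Icc b₀ β, ∀ b' ∈ Icc b₀ β, ∀ q ∈ Icc (0 : ℝ) 1, ∀ q' ∈ Icc (0 : ℝ) 1,
    |kq l b q - kq l b' q'| ≤ L * (|b - b'| + |q - q'|) ∧
    |cq l b q - cq l b' q'| ≤ L * (|b - b'| + |q - q'|) ∧
    |kq l b q| ≤ L ∧ |cq l b q| ≤ L

/-- One step: the entropy minus `KN` at `p` moves by the slope times the overlap gap. -/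
lemma step_upper {b₀ R ε K L τ : ℝ} (hb₀ : 0 < b₀) (hK : 0 ≤ K) (S : StepData M η b₀ β R ε K L l)
    {b b' r p : ℝ} (hb : b₀ ≤ b) (hbb : b ≤ b') (hb' : b' ≤ β) (hr : r ∈ Icc (0 : ℝ) R)
    (hp : p ∈ Icc (0 : ℝ) 1) (hτ : 3 * ((b' - b) * M * N) ≤ τ) (hτ1 : τ ≤ 1 / 2) :
    (Fe b' l r - N * KN l b' p) - (Fe b l r - N * KN l b p)
      ≤ (b' - b) * (N * (cq l b (qv b l r) * (qv b l r - p)
          + ε + L * ((b' - b) + 8 * τ) + 2 * K * vr b l r)) := by
  refine sub_le_of_deriv (f := fun t => Fe t l r - N * KN l t p) hbb fun t ht => ?_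
  have htI : t ∈ Icc b₀ β := ⟨hb.trans ht.1, ht.2.trans hb'⟩
  have hbI : b ∈ Icc b₀ β := ⟨hb, hbb.trans hb'⟩
  obtain ⟨v, hv, hvb⟩ := S.inc t htI r hr
  refine ⟨v - N * kq l t p,
    hv.sub ((hasDerivAt_KN S.size S.tame (hb₀.trans_le htI.1) htI.2 hp.1 hp.2).const_mul _), ?_⟩
  set q := qv b l r
  set qt := qv t l r
  have hqI : q ∈ Icc (0 : ℝ) 1 := ⟨qv_nonneg S.size b l r, qv_le_one S.size b l hr.1⟩
  have hqtI : qt ∈ Icc (0 : ℝ) 1 := ⟨qv_nonneg S.size t l r, qv_le_one S.size t l hr.1⟩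
  have hM : 0 ≤ M := (abs_nonneg _).trans (S.tame.bdd ⟨0, S.size⟩)
  have htb : |t - b| ≤ b' - b := by rw [abs_of_nonneg (by linarith [ht.1])]; linarith [ht.2]
  obtain ⟨hq, hvr⟩ := close_b S.tame.bdd (b := b) (b' := t) hr.1
    (le_trans (by gcongr) hτ) hτ1
  have h1 := kq_tangent S.size S.tame (hb₀.trans_le htI.1) htI.2 hp hqtI
  obtain ⟨-, hc, -, -⟩ := S.bound t htI b hbI qt hqtI q hqI
  obtain ⟨-, -, -, hcL⟩ := S.bound b hbI b hbI q hqI q hqI
  have hL : 0 ≤ L := (abs_nonneg _).trans hcL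
  have h2 : cq l t qt * (qt - p) ≤ cq l b q * (q - p) + L * ((b' - b) + 8 * τ) := by
    have e : cq l t qt * (qt - p) - cq l b q * (q - p)
        = (cq l t qt - cq l b q) * (qt - p) + cq l b q * (qt - q) := by ring
    have b1 : |(cq l t qt - cq l b q) * (qt - p)| ≤ L * ((b' - b) + 4 * τ) * 1 := by
      rw [abs_mul]
      refine mul_le_mul (hc.trans (mul_le_mul_of_nonneg_left (add_le_add htb hq) hL)) ?_ (abs_nonneg _)
        (mul_nonneg hL (by linarith [abs_nonneg (qt - q)]))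
      rw [abs_le]; constructor <;> linarith [hp.1, hp.2, hqtI.1, hqtI.2]
    have b2 : |cq l b q * (qt - q)| ≤ L * (4 * τ) := by
      rw [abs_mul]; exact mul_le_mul hcL hq (abs_nonneg _) hL
    linarith [(abs_le.1 b1).2, (abs_le.1 b2).2]
  have h3 := (abs_le.1 hvb).2
  have h4 := mul_le_mul_of_nonneg_left hvr hK
  have hn : (0 : ℝ) ≤ N := Nat.cast_nonneg N
  have h5 := mul_le_mul_of_nonneg_left (show kq l t qt - kq l t p + (ε + K * vr t l r)
    ≤ cq l b q * (q - p) + ε + L * ((b' - b) + 8 * τ) + 2 * K * vr b l r by linarith) hn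
  linarith

/-- One step from below. -/
lemma step_lower {b₀ R ε K L τ : ℝ} (hb₀ : 0 < b₀) (hK : 0 ≤ K) (S : StepData M η b₀ β R ε K L l)
    {b b' r p : ℝ} (hb : b₀ ≤ b) (hbb : b ≤ b') (hb' : b' ≤ β) (hr : r ∈ Icc (0 : ℝ) R)
    (hp : p ∈ Icc (0 : ℝ) 1) (hτ : 3 * ((b' - b) * M * N) ≤ τ) (hτ1 : τ ≤ 1 / 2) :
    (b' - b) * (N * (cq l b p * (qv b l r - p) - ε - L * ((b' - b) + 4 * τ) - 2 * K * vr b l r))
      ≤ (Fe b' l r - N * KN l b' p) - (Fe b l r - N * KN l b p) := by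
  have key : (-(Fe b' l r - N * KN l b' p)) - (-(Fe b l r - N * KN l b p))
      ≤ (b' - b) * (-(N * (cq l b p * (qv b l r - p) - ε - L * ((b' - b) + 4 * τ) - 2 * K * vr b l r))) := by
    refine sub_le_of_deriv (f := fun t => -(Fe t l r - N * KN l t p)) hbb fun t ht => ?_
    have htI : t ∈ Icc b₀ β := ⟨hb.trans ht.1, ht.2.trans hb'⟩
    have hbI : b ∈ Icc b₀ β := ⟨hb, hbb.trans hb'⟩
    obtain ⟨v, hv, hvb⟩ := S.inc t htI r hr
    refine ⟨-(v - N * kq l t p),
      (hv.sub ((hasDerivAt_KN S.size S.tame (hb₀.trans_le htI.1) htI.2 hp.1 hp.2).const_mul _)).neg, ?_⟩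
    set q := qv b l r
    set qt := qv t l r
    have hqI : q ∈ Icc (0 : ℝ) 1 := ⟨qv_nonneg S.size b l r, qv_le_one S.size b l hr.1⟩
    have hqtI : qt ∈ Icc (0 : ℝ) 1 := ⟨qv_nonneg S.size t l r, qv_le_one S.size t l hr.1⟩
    have hM : 0 ≤ M := (abs_nonneg _).trans (S.tame.bdd ⟨0, S.size⟩)
    have htb : |t - b| ≤ b' - b := by rw [abs_of_nonneg (by linarith [ht.1])]; linarith [ht.2]
    obtain ⟨hq, hvr⟩ := close_b S.tame.bdd (b := b) (b' := t) hr.1 (le_trans (by gcongr) hτ) hτ1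
    have h1 := kq_tangent S.size S.tame (hb₀.trans_le htI.1) htI.2 hqtI hp
    obtain ⟨-, hc, -, hcL⟩ := S.bound t htI b hbI p hp p hp
    rw [sub_self, abs_zero, add_zero] at hc
    have hL : 0 ≤ L := (abs_nonneg _).trans hcL
    have h2 : cq l b p * (q - p) - L * ((b' - b) + 4 * τ) ≤ cq l t p * (qt - p) := by
      have b1 : |(cq l t p - cq l b p) * (q - p)| ≤ L * (b' - b) * 1 := by
        rw [abs_mul]
        refine mul_le_mul (hc.trans (mul_le_mul_of_nonneg_left htb hL)) ?_ (abs_nonneg _)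
          (mul_nonneg hL (by linarith))
        rw [abs_le]; constructor <;> linarith [hp.1, hp.2, hqI.1, hqI.2]
      have b2 : |cq l t p * (qt - q)| ≤ L * (4 * τ) := by
        rw [abs_mul]; exact mul_le_mul hcL hq (abs_nonneg _) hL
      linarith [(abs_le.1 b1).1, (abs_le.1 b2).1]
    have h3 := (abs_le.1 hvb).1
    have h4 := mul_le_mul_of_nonneg_left hvr hK
    have hn : (0 : ℝ) ≤ N := Nat.cast_nonneg N
    have h5 := mul_le_mul_of_nonneg_left (show cq l b p * (q - p) - ε - L * ((b' - b) + 4 * τ) - 2 * K * vr b l r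
      ≤ kq l t qt - kq l t p - (ε + K * vr t l r) by linarith) hn
    linarith
  linarith

lemma cubeInfo_tangent (hN : 0 < N) {t r : ℝ} (ht : 0 ≤ t) (hr : 0 ≤ r) :
    cubeInfo t + qv 0 l t / 2 * (r - t) ≤ cubeInfo r := by
  refine le_of_mul_le_mul_left (a := (N : ℝ)) ?_ (by exact_mod_cast hN)
  rw [mul_add, ← Fe_zero l ht, ← Fe_zero l hr]
  rcases le_total t r with hle | hle
  · have := (Fe_slope hN 0 l ht hle).1
    linarith
  · have := (Fe_slope hN 0 l hr hle).2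
    linarith

lemma path_upper_gen {b₀ R ε ε₂ K L τ h : ℝ} (hb₀ : 0 < b₀) (hK : 0 ≤ K)
    (S : StepData M η b₀ β R ε K L l) {n : ℕ} (hh : 0 ≤ h) (hn : β - n * h = b₀)
    (hτ : 3 * (h * M * N) ≤ τ) (hτ1 : τ ≤ 1 / 2) {e : ℝ} (he : 0 ≤ e) {c : ℕ → ℝ → ℝ}
    (hc : c = fun k r => cq l (β - (k + 1 : ℕ) * h) (qv (β - (k + 1 : ℕ) * h) l r))
    (hs : ∀ k, k ≤ n → upPath h c k e ∈ Icc (0 : ℝ) R)
    (hinc : ∀ k, k < n → upPath h c k e ≤ upPath h c (k + 1) e)
    (hcond : ∀ p, 0 ≤ p → p < 1 → ∃ r, 0 ≤ r ∧ KN l β p ≤ r * p / 2 - cubeInfo r + ε₂) :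
    Fe β l e ≤ N * (ε₂ + 3 * M * b₀ + e / 2 + n * h * (ε + L * (h + 8 * τ)))
      + 2 * K * N * h * ∑ k ∈ Finset.range n, vr (β - (k + 1 : ℕ) * h) l (upPath h c k e) := by
  set s := fun k => upPath h c k e
  set bb := fun k : ℕ => β - k * h
  have hn0 : (0 : ℝ) ≤ n * h := by positivity
  set t := s n
  have ht : 0 ≤ t := (hs n le_rfl).1
  set p := qv 0 l t
  have hp : p ∈ Icc (0 : ℝ) 1 := ⟨qv_nonneg S.size 0 l t, qv_le_one S.size 0 l ht⟩
  have hbI : ∀ k : ℕ, k ≤ n → b₀ ≤ bb k ∧ bb k ≤ β := fun k hk => by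
    have h1 : (k : ℝ) * h ≤ n * h := mul_le_mul_of_nonneg_right (Nat.cast_le.2 hk) hh
    have h2 : 0 ≤ (k : ℝ) * h := by positivity
    simp only [bb]
    constructor <;> linarith
  have hdown : ∀ k, k ≤ n → Fe β l e - N * KN l β p ≤ (Fe (bb k) l (s k) - N * KN l (bb k) p)
      - p * N * (s k - e) / 2 + k * (h * (N * (ε + L * (h + 8 * τ))))
      + 2 * K * N * h * ∑ i ∈ Finset.range k, vr (bb (i + 1)) l (s i) := by
    intro k
    induction k with
    | zero => intro _; simp [s, bb, upPath]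
    | succ k ih =>
      intro hk
      have hk' : k ≤ n := by omega
      have e1 : bb k - bb (k + 1) = h := by simp only [bb]; push_cast; ring
      have h1 := step_upper hb₀ hK S (b := bb (k + 1)) (b' := bb k) (r := s k) (p := p) (hbI _ hk).1
        (by linarith) (hbI k hk').2 (hs k hk') hp (by rw [e1]; exact hτ) hτ1
      rw [e1] at h1
      have hnext : s (k + 1) = s k + 2 * h * cq l (bb (k + 1)) (qv (bb (k + 1)) l (s k)) := by
        simp only [s, bb, upPath, hc]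
      have h2 : N * qv (bb (k + 1)) l (s k) / 2 * (s (k + 1) - s k)
          ≤ Fe (bb (k + 1)) l (s (k + 1)) - Fe (bb (k + 1)) l (s k) :=
        (Fe_slope S.size (bb (k + 1)) l (hs k hk').1 (hinc k hk)).1
      have h3 := ih hk'
      rw [Finset.sum_range_succ]
      rw [hnext] at h2
      rw [hnext]
      push_cast
      linarith
  have hfin := hdown n le_rfl
  have hbn : bb n = b₀ := hn
  rw [hbn] at hfin
  have h1 := (Fe_beta_bounds S.tame.bdd hb₀.le ht).2
  rw [Fe_zero l ht] at h1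
  have hbβ : b₀ ≤ β := by linarith
  have h2 := (abs_le.1 (abs_KN_le S.size S.tame hb₀ hbβ hp)).1
  obtain ⟨r, hr, hr'⟩ := hcond p hp.1 (qv_lt_one S.size 0 l ht)
  have h3 := cubeInfo_tangent (l := l) S.size ht hr
  have hn' : (0 : ℝ) ≤ N := Nat.cast_nonneg N
  have h4 := mul_le_mul_of_nonneg_left (show KN l β p - KN l b₀ p + cubeInfo t - p * t / 2
    ≤ ε₂ + 2 * M * b₀ by linarith) hn'
  have h5 := mul_le_mul_of_nonneg_right hp.2 (mul_nonneg hn' he)
  linarith

lemma path_lower {b₀ R ε K L τ h δ₀ δ p : ℝ} (hb₀ : 0 < b₀) (hK : 0 ≤ K)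
    (S : StepData M η b₀ β R ε K L l) {n : ℕ} (hh : 0 ≤ h) (hn : β - n * h = b₀)
    (hτ : 3 * (h * M * N) ≤ τ) (hτ1 : τ ≤ 1 / 2) (hδ : 2 * h * L ≤ δ) {e : ℝ} (he : δ ≤ e)
    (hp : p ∈ Icc (0 : ℝ) 1) {c : ℕ → ℝ → ℝ} (hc : c = fun k _ => cq l (β - (k + 1 : ℕ) * h) p)
    (hc0 : ∀ k, k < n → 0 ≤ cq l (β - (k + 1 : ℕ) * h) p)
    (hs : ∀ k, k ≤ n → upPath h c k e ∈ Icc e R)
    (hcond : ∀ r, 0 ≤ r → r * p / 2 - cubeInfo r + δ₀ ≤ KN l β p) :
    N * (δ₀ - 2 * M * b₀ - n * h * (ε + L * (h + 4 * τ)))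
      - N * h * ∑ k ∈ Finset.range n, (2 * K * vr (β - (k + 1 : ℕ) * h) l (upPath h c k e)
          + L * (qv (β - (k + 1 : ℕ) * h) l (upPath h c k e + δ)
              - qv (β - (k + 1 : ℕ) * h) l (upPath h c k e - δ)))
      ≤ Fe β l e := by
  set s := fun k => upPath h c k e
  set bb := fun k : ℕ => β - k * h
  have hn0 : (0 : ℝ) ≤ n * h := by positivity
  have hbI : ∀ k : ℕ, k ≤ n → b₀ ≤ bb k ∧ bb k ≤ β := fun k hk => by
    have h1 : (k : ℝ) * h ≤ n * h := mul_le_mul_of_nonneg_right (Nat.cast_le.2 hk) hh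
    have h2 : 0 ≤ (k : ℝ) * h := by positivity
    simp only [bb]
    constructor <;> linarith
  have hbβ : b₀ ≤ β := by linarith
  obtain ⟨-, -, -, hL0⟩ := S.bound b₀ ⟨le_rfl, hbβ⟩ b₀ ⟨le_rfl, hbβ⟩ p hp p hp
  have hL : 0 ≤ L := (abs_nonneg _).trans hL0
  have hδ0 : 0 ≤ δ := le_trans (by positivity) hδ
  have hn' : (0 : ℝ) ≤ N := Nat.cast_nonneg N
  have hdown : ∀ k, k ≤ n → (Fe (bb k) l (s k) - N * KN l (bb k) p)
      - p * N * (s k - e) / 2 - k * (h * (N * (ε + L * (h + 4 * τ))))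
      - N * h * ∑ i ∈ Finset.range k, (2 * K * vr (bb (i + 1)) l (s i)
          + L * (qv (bb (i + 1)) l (s i + δ) - qv (bb (i + 1)) l (s i - δ)))
      ≤ Fe β l e - N * KN l β p := by
    intro k
    induction k with
    | zero => intro _; simp [s, bb, upPath]
    | succ k ih =>
      intro hk
      have hk' : k ≤ n := by omega
      have e1 : bb k - bb (k + 1) = h := by simp only [bb]; push_cast; ring
      have hse := hs k hk'
      have hs0 : 0 ≤ s k := le_trans (hδ0.trans he) hse.1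
      have h1 := step_lower hb₀ hK S (b := bb (k + 1)) (b' := bb k) (r := s k) (p := p) (hbI _ hk).1
        (by linarith) (hbI k hk').2 ⟨hs0, hse.2⟩ hp (by rw [e1]; exact hτ) hτ1
      rw [e1] at h1
      set cc := cq l (bb (k + 1)) p
      have hnext : s (k + 1) = s k + 2 * h * cc := by simp only [s, bb, cc, upPath, hc]
      have hcc0 : 0 ≤ cc := hc0 k hk
      obtain ⟨-, -, -, hccL⟩ := S.bound (bb (k + 1)) (hbI _ hk) (bb (k + 1)) (hbI _ hk) p hp p hp
      have hinc : 0 ≤ 2 * h * cc := by positivity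
      have hincδ : 2 * h * cc ≤ δ :=
        le_trans (mul_le_mul_of_nonneg_left ((le_abs_self _).trans hccL) (by positivity)) hδ
      have h2 := (Fe_slope S.size (bb (k + 1)) l hs0 (le_add_of_nonneg_right hinc)).2
      set qm := qv (bb (k + 1)) l (s k - δ)
      set qp := qv (bb (k + 1)) l (s k + δ)
      set qn := qv (bb (k + 1)) l (s k + 2 * h * cc)
      set q0 := qv (bb (k + 1)) l (s k)
      have hsδ : 0 ≤ s k - δ := by linarith [hse.1]
      have hmono := fun x y (a : 0 ≤ x) (b : x ≤ y) => qv_mono S.size (bb (k + 1)) l (r := x) (r' := y) a b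
      have hq1 : qm ≤ q0 := hmono _ _ hsδ (by linarith)
      have hq2 : qn ≤ qp := hmono _ _ (by linarith) (by linarith)
      have hq3 : q0 ≤ qn := hmono _ _ hs0 (by linarith)
      have hLc : cc ≤ L := (le_abs_self _).trans hccL
      have h6 : cc * (qn - q0) ≤ L * (qp - qm) :=
        mul_le_mul hLc (by linarith) (by linarith) hL
      have h7 := mul_le_mul_of_nonneg_left h6 (show 0 ≤ (N : ℝ) * h by positivity)
      have h3 := ih hk'
      rw [Finset.sum_range_succ, hnext]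
      push_cast
      linarith
  have hfin := hdown n le_rfl
  have hbn : bb n = b₀ := hn
  rw [hbn] at hfin
  have hsn := hs n le_rfl
  have ht : 0 ≤ s n := le_trans (hδ0.trans he) hsn.1
  have h1 := (Fe_beta_bounds S.tame.bdd hb₀.le ht).1
  rw [Fe_zero l ht] at h1
  have h2 := (abs_le.1 (abs_KN_le S.size S.tame hb₀ hbβ hp)).2
  have h4 := mul_le_mul_of_nonneg_left (show δ₀ - 2 * M * b₀
    ≤ KN l β p - KN l b₀ p + cubeInfo (s n) - p * s n / 2 by linarith [hcond (s n) ht]) hn'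
  have h5 : 0 ≤ p * N * e := mul_nonneg (mul_nonneg hp.1 hn') (hδ0.trans he)
  simp only [s, bb] at h4 hfin h1 ⊢
  linarith

/-- The data of a run at all large sizes, with deviations small up to `R + 1`. -/
lemma exists_setup (M η β R ε L : ℝ) {b₀ : ℝ} (hb₀ : 0 < b₀) (hε : 0 < ε)
    (hL : ∀ (N : ℕ) (l : Fin N → ℝ), 0 < N → Tame M η β l →
      ∀ b ∈ Icc b₀ β, ∀ b' ∈ Icc b₀ β, ∀ q ∈ Icc (0 : ℝ) 1, ∀ q' ∈ Icc (0 : ℝ) 1,
        |kq l b q - kq l b' q'| ≤ L * (|b - b'| + |q - q'|) ∧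
        |cq l b q - cq l b' q'| ≤ L * (|b - b'| + |q - q'|) ∧
        |kq l b q| ≤ L ∧ |cq l b q| ≤ L) :
    ∃ K, 0 ≤ K ∧ ∀ e : ℝ, 0 < e → ∃ N0 : ℕ, 0 < N0 ∧ ∀ N ≥ N0, ∀ l : Fin N → ℝ, Tame M η β l →
      StepData M η b₀ β R ε K L l ∧ 1 ≤ e * N ∧
        ∀ b ∈ Icc b₀ β, ∀ r ∈ Icc (0 : ℝ) (R + 1), dev b l r ≤ e * N := by
  obtain ⟨K, hK, N1, h1⟩ := increment M η b₀ β R ε hb₀ hε
  refine ⟨K, hK, fun e he => ?_⟩
  obtain ⟨N2, h2⟩ := dev_small M η b₀ β (R + 1) e hb₀ he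
  obtain ⟨N3, h3⟩ := exists_nat_gt (1 / e)
  refine ⟨max (max N1 N2) (N3 + 1), by omega, fun N hN l T => ?_⟩
  have hN' : 0 < N := by omega
  refine ⟨⟨hN', T, h1 N (by omega) l T, hL N l hN' T⟩, ?_, h2 N (by omega) l T⟩
  have h4 : (N3 : ℝ) ≤ N := by exact_mod_cast (show N3 ≤ N by omega)
  rw [div_lt_iff₀ he] at h3
  have h5 := mul_le_mul_of_nonneg_left h4 he.le
  linarith

/-- The grid sum is bounded once the deviations are small. -/
lemma grid_le (hN : 0 < N) {ηg R : ℝ} (hηg : 0 < ηg) {K₀ : ℕ} (hK : 0 < K₀) {x : ℕ → ℝ}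
    (hx0 : ηg ≤ x 0) (hsep : ∀ j, x j + 2 * (ηg / (2 * K₀)) ≤ x (j + 1))
    (hR : ∀ j, j < K₀ → x j ≤ R) (hlarge : 1 ≤ ηg / (2 * K₀) / (24 * K₀) * N)
    (hD : ∀ s ∈ Icc (0 : ℝ) (R + ηg), dev β l s ≤ ηg / (2 * K₀) / (24 * K₀) * N) :
    ∑ j ∈ Finset.range K₀, vr β l (x j) ≤ 4 / Real.sqrt ηg + 3 := by
  have hn : (0 : ℝ) < N := by exact_mod_cast hN
  have hK' : (0 : ℝ) < K₀ := by exact_mod_cast hK
  set δg := ηg / (2 * (K₀ : ℝ))
  have hδ : 0 < δg := by positivity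
  set e' := δg / (24 * (K₀ : ℝ)) with he'
  have hg := vr_grid (β := β) (l := l) hN hηg hK (x := x) (R := R) (D := e' * N) hx0 hsep hR hD
  have hlog : Real.log 2 ≤ 1 := by linarith [Real.log_le_sub_one_of_pos (show (0 : ℝ) < 2 by norm_num)]
  have h1 : (K₀ : ℝ) * ((8 * Real.log 2 + 16 * (e' * N)) / (N * δg)) ≤ 1 := by
    rw [mul_div_assoc', div_le_iff₀ (by positivity), one_mul]
    calc (K₀ : ℝ) * (8 * Real.log 2 + 16 * (e' * N)) ≤ K₀ * (24 * (e' * N)) := by
          gcongr; linarith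
      _ = N * δg := by rw [he']; field_simp
  linarith

/-- A mesh fine enough for the size. -/
lemma mesh {b₀ τ M : ℝ} (hb : b₀ ≤ β) (hτ : 0 < τ) (N : ℕ) :
    ∃ (n : ℕ) (h : ℝ), 0 < n ∧ 0 ≤ h ∧ β - n * h = b₀ ∧ 3 * (h * M * N) ≤ τ ∧ h ≤ τ := by
  set M' := max M 0
  have hM' : 0 ≤ M' := le_max_right _ _
  obtain ⟨n, hn, hn0⟩ : ∃ n : ℕ, (β - b₀) * (3 * M' * N + 1) / τ ≤ n ∧ 0 < n :=
    ⟨⌈(β - b₀) * (3 * M' * N + 1) / τ⌉₊ + 1, by
      push_cast
      linarith [Nat.le_ceil ((β - b₀) * (3 * M' * N + 1) / τ)], Nat.succ_pos _⟩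
  have hn' : (0 : ℝ) < n := Nat.cast_pos.2 hn0
  set h := (β - b₀) / n with hhdef
  have hh : 0 ≤ h := div_nonneg (by linarith) hn'.le
  refine ⟨n, h, hn0, hh, by rw [hhdef, mul_div_cancel₀ _ hn'.ne']; ring, ?_⟩
  have hsmall : h * (3 * M' * N + 1) ≤ τ := by
    rw [hhdef, div_mul_eq_mul_div, div_le_iff₀ hn']
    rw [div_le_iff₀ hτ] at hn
    linarith
  have hMN : 0 ≤ h * (M' * N) := by positivity
  have : h * M * N ≤ h * M' * N := by gcongr; exact le_max_left _ _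
  constructor <;> linarith

/-- Steps between zero and `n` bound the path. -/
lemma path_range {h L R ηg : ℝ} (hh : 0 ≤ h) (hL : 0 ≤ L) {c : ℕ → ℝ → ℝ}
    (hc : ∀ k r, 0 ≤ r → 0 ≤ c k r ∧ c k r ≤ L) (hm : ∀ k r r', 0 ≤ r → r ≤ r' → c k r ≤ c k r')
    {n : ℕ} (hnb : (n : ℝ) * h ≤ β) (hR : 2 * ηg + 2 * L * β ≤ R) {k : ℕ} (hk : k ≤ n) {e : ℝ}
    (he : 0 ≤ e) (he2 : e ≤ 2 * ηg) : upPath h c k e ∈ Icc e R := by
  obtain ⟨h1, h2, -⟩ := upPath_facts hh hc hm k he
  refine ⟨h1, h2.trans ?_⟩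
  have h3 : (k : ℝ) * h ≤ n * h := mul_le_mul_of_nonneg_right (Nat.cast_le.2 hk) hh
  have h4 := mul_le_mul_of_nonneg_right (show (k : ℝ) * h ≤ β by linarith) hL
  linarith

theorem entropy_upper (M η β ε : ℝ) (hβ : 0 < β) (hε : 0 < ε) :
    ∃ N0 : ℕ, ∀ N ≥ N0, ∀ l : Fin N → ℝ, Tame M η β l →
      (∀ p, 0 ≤ p → p < 1 → ∃ r, 0 ≤ r ∧ KN l β p ≤ r * p / 2 - cubeInfo r + ε) →
        Fe β l 0 ≤ 3 * ε * N := by
  set M' := max M 0
  have hM' : 0 ≤ M' := le_max_right _ _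
  set b₀ := min (β / 2) (ε / (6 * M' + 6)) with hb₀def
  have hb₀ : 0 < b₀ := lt_min (by linarith) (by positivity)
  have hb₀β : b₀ ≤ β := (min_le_left _ _).trans (by linarith)
  have hb₀ε : 3 * M' * b₀ ≤ ε / 2 := by
    have := (le_div_iff₀ (by positivity)).1 (min_le_right (β / 2) (ε / (6 * M' + 6)))
    rw [← hb₀def] at this
    nlinarith
  obtain ⟨L, hL0, hL⟩ := scalar_bounds M η β b₀ hb₀
  set ε₁ := ε / (4 * β + 4) with hε₁def
  have hε₁ : 0 < ε₁ := by positivity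
  have hε₁β : β * (2 * ε₁) ≤ ε / 2 := by
    rw [hε₁def, show β * (2 * (ε / (4 * β + 4))) = ε * (2 * β) / (4 * β + 4) by ring,
      div_le_iff₀ (by positivity)]
    nlinarith
  have hεε : ε₁ ≤ ε := by rw [hε₁def, div_le_iff₀ (by positivity)]; nlinarith
  set ηg := min (1 / 2) (ε / 2) with hηdef
  have hηg : 0 < ηg := lt_min (by norm_num) (by linarith)
  set R := 2 * ηg + 2 * L * β
  obtain ⟨K, hK, hset⟩ := exists_setup M η β R ε₁ L hb₀ hε₁ hL
  set G := 4 / Real.sqrt ηg + 3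
  have hG : 0 < G := by positivity
  set K₀ := ⌈4 * K * β * G / ε⌉₊ + 1 with hK₀def
  have hK₀ : 0 < K₀ := Nat.succ_pos _
  have hK' : (0 : ℝ) < K₀ := by exact_mod_cast hK₀
  have hKb : 4 * K * β * G ≤ ε * K₀ := by
    have := Nat.le_ceil (4 * K * β * G / ε)
    rw [div_le_iff₀ hε] at this
    rw [hK₀def]
    push_cast
    linarith
  set δ := ηg / (2 * (K₀ : ℝ)) with hδdef
  have hδ : 0 < δ := by positivity
  set e' := δ / (24 * K₀) with he'def
  obtain ⟨N0, hN0, hN⟩ := hset e' (by positivity)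
  refine ⟨N0, fun N hNN l T hcond => ?_⟩
  obtain ⟨S, hlarge, hdev⟩ := hN N hNN l T
  have hn' : (0 : ℝ) < N := by exact_mod_cast S.size
  set τ := min (1 / 2) (ε₁ / (9 * L + 9)) with hτdef
  have hτ : 0 < τ := lt_min (by norm_num) (by positivity)
  have hτL : 9 * L * τ ≤ ε₁ := by
    have := (le_div_iff₀ (by positivity)).1 (min_le_right (1 / 2 : ℝ) (ε₁ / (9 * L + 9)))
    rw [← hτdef] at this
    nlinarith
  obtain ⟨n, h, hn, hh, hnh, hτ', hhτ⟩ := mesh (M := M) (N := N) hb₀β hτ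
  obtain ⟨c, hc⟩ : ∃ c : ℕ → ℝ → ℝ,
      c = fun k r => cq l (β - (k + 1 : ℕ) * h) (qv (β - (k + 1 : ℕ) * h) l r) := ⟨_, rfl⟩
  -- the path clipped to the admissible range of temperatures
  have hbI : ∀ k, k < n → β - (k + 1 : ℕ) * h ∈ Icc b₀ β := fun k hk => by
    have h1 : ((k + 1 : ℕ) : ℝ) * h ≤ n * h := mul_le_mul_of_nonneg_right (Nat.cast_le.2 hk) hh
    have h2 : (0 : ℝ) ≤ ((k + 1 : ℕ) : ℝ) * h := by positivity
    constructor <;> linarith
  obtain ⟨c', hc'⟩ : ∃ c' : ℕ → ℝ → ℝ, c' = fun k r => if k < n then c k r else 0 := ⟨_, rfl⟩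
  have hcr : ∀ k r, 0 ≤ r → 0 ≤ c' k r ∧ c' k r ≤ L := fun k r hr => by
    simp only [hc']
    by_cases hk : k < n
    · simp only [if_pos hk, hc]
      set b := β - (k + 1 : ℕ) * h
      have hq : qv b l r ∈ Icc (0 : ℝ) 1 := ⟨qv_nonneg S.size b l r, qv_le_one S.size b l hr⟩
      obtain ⟨hm, h0⟩ := cq_mono S.size T (hb₀.trans_le (hbI k hk).1) (hbI k hk).2
      refine ⟨h0.symm.trans_le (hm ⟨le_rfl, zero_le_one⟩ hq hq.1), ?_⟩
      obtain ⟨-, -, -, hbd⟩ := S.bound b (hbI k hk) b (hbI k hk) _ hq _ hq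
      exact (le_abs_self _).trans hbd
    · simp only [if_neg hk]; exact ⟨le_rfl, hL0⟩
  have hcm : ∀ k r r', 0 ≤ r → r ≤ r' → c' k r ≤ c' k r' := fun k r r' hr hrr => by
    simp only [hc']
    by_cases hk : k < n
    · simp only [if_pos hk, hc]
      exact (cq_mono S.size T (hb₀.trans_le (hbI k hk).1) (hbI k hk).2).1
        ⟨qv_nonneg S.size _ l _, qv_le_one S.size _ l hr⟩
        ⟨qv_nonneg S.size _ l _, qv_le_one S.size _ l (hr.trans hrr)⟩ (qv_mono S.size _ l hr hrr)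
    · simp only [if_neg hk, le_refl]
  have heq : ∀ k, k ≤ n → ∀ e, upPath h c k e = upPath h c' k e := by
    intro k
    induction k with
    | zero => intro _ e; rfl
    | succ k ih =>
      intro hk e
      simp only [upPath, ih (by omega) e]
      simp only [hc', if_pos (show k < n by omega)]
  set e := fun j : ℕ => ηg + j * (2 * δ)
  have he0 : ∀ j, ηg ≤ e j := fun j => le_add_of_nonneg_right (by positivity)
  have he2 : ∀ j, j < K₀ → e j ≤ 2 * ηg := fun j hj => by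
    have h1 : (j : ℝ) * (2 * δ) ≤ ηg := by
      rw [hδdef, show (j : ℝ) * (2 * (ηg / (2 * K₀))) = j / K₀ * ηg by field_simp]
      exact mul_le_of_le_one_left hηg.le ((div_le_one hK').2 (Nat.cast_le.2 hj.le))
    simp only [e]; linarith
  have hfacts := fun k j => upPath_facts hh hcr hcm k (hηg.le.trans (he0 j))
  have hnb : (n : ℝ) * h ≤ β := by linarith
  have hR' : ∀ k, k ≤ n → ∀ j, j < K₀ → upPath h c k (e j) ∈ Icc (0 : ℝ) R := fun k hk j hj => by
    rw [heq k hk]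
    exact ⟨(hηg.le.trans (he0 j)).trans (hfacts k j).1,
      (path_range hh hL0 hcr hcm hnb le_rfl hk (hηg.le.trans (he0 j)) (he2 j hj)).2⟩
  have hmain : ∀ j, j < K₀ → Fe β l 0 ≤ N * (ε + 3 * M' * b₀ + ηg + n * h * (2 * ε₁))
      + 2 * K * N * h * ∑ k ∈ Finset.range n, vr (β - (k + 1 : ℕ) * h) l (upPath h c k (e j)) := by
    intro j hj
    have hej : 0 ≤ e j := hηg.le.trans (he0 j)
    have hinc : ∀ k, k < n → upPath h c k (e j) ≤ upPath h c (k + 1) (e j) := fun k hk => by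
      rw [heq k hk.le, heq (k + 1) hk]
      exact le_add_of_nonneg_right (mul_nonneg (by positivity)
        (hcr k _ (hej.trans (hfacts k j).1)).1)
    have h0 := (Fe_slope S.size β l le_rfl hej).1
    have h0' := mul_nonneg (mul_nonneg hn'.le (qv_nonneg S.size β l 0)) hej
    have hkey : Fe β l (e j) ≤ N * (ε + 3 * M * b₀ + e j / 2 + n * h * (ε₁ + L * (h + 8 * τ)))
        + 2 * K * N * h * ∑ k ∈ Finset.range n, vr (β - (k + 1 : ℕ) * h) l (upPath h c k (e j)) :=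
      path_upper_gen hb₀ hK S hh hnh hτ' (min_le_left _ _) hej hc (fun k hk => hR' k hk j hj) hinc hcond
    have h1 : L * (h + 8 * τ) ≤ ε₁ := by
      have := mul_le_mul_of_nonneg_left (show h + 8 * τ ≤ 9 * τ by linarith) hL0
      linarith
    have h2 : 3 * M * b₀ ≤ 3 * M' * b₀ := by gcongr; exact le_max_left _ _
    have h3 := mul_le_mul_of_nonneg_left h1 (show 0 ≤ (n : ℝ) * h by positivity)
    have h4 := mul_le_mul_of_nonneg_left (show ε + 3 * M * b₀ + e j / 2 + n * h * (ε₁ + L * (h + 8 * τ))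
      ≤ ε + 3 * M' * b₀ + ηg + n * h * (2 * ε₁) by linarith [he2 j hj]) hn'.le
    linarith
  have hgrid : ∀ k, k < n → ∑ j ∈ Finset.range K₀, vr (β - (k + 1 : ℕ) * h) l (upPath h c k (e j)) ≤ G := by
    intro k hk
    have hsep : ∀ j, upPath h c k (e j) + 2 * δ ≤ upPath h c k (e (j + 1)) := fun j => by
      rw [heq k hk.le, heq k hk.le]
      have h1 : e (j + 1) - e j = 2 * δ := by simp only [e]; push_cast; ring
      have := (hfacts k j).2.2 (e (j + 1)) (by linarith)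
      linarith
    exact grid_le (β := β - (k + 1 : ℕ) * h) (l := l) S.size hηg hK₀
      (x := fun j => upPath h c k (e j)) (R := R)
      (by rw [heq k hk.le]; exact (he0 0).trans (hfacts k 0).1) hsep (fun j hj => (hR' k hk.le j hj).2)
      hlarge fun s hs => hdev _ (hbI k hk) s ⟨hs.1, hs.2.trans (by linarith [min_le_left (1 / 2 : ℝ) (ε / 2)])⟩
  have hsum : (K₀ : ℝ) * Fe β l 0 ≤ K₀ * (N * (ε + 3 * M' * b₀ + ηg + n * h * (2 * ε₁)))
      + 2 * K * N * h * (n * G) := by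
    calc (K₀ : ℝ) * Fe β l 0 = ∑ _j ∈ Finset.range K₀, Fe β l 0 := by simp
      _ ≤ _ := Finset.sum_le_sum fun j hj => hmain j (Finset.mem_range.1 hj)
      _ ≤ _ := by
        rw [Finset.sum_add_distrib, Finset.sum_const, Finset.card_range, nsmul_eq_mul, ← Finset.mul_sum,
          Finset.sum_comm]
        refine add_le_add le_rfl (mul_le_mul_of_nonneg_left ?_ (by positivity))
        refine (Finset.sum_le_sum fun k hk => hgrid k (Finset.mem_range.1 hk)).trans (le_of_eq ?_)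
        simp
  have hnb : (n : ℝ) * h ≤ β := by linarith
  have h1 : 2 * K * N * h * (n * G) ≤ K₀ * (ε / 2 * N) := by
    calc 2 * K * N * h * (n * G) = 2 * K * G * N * (n * h) := by ring
      _ ≤ 2 * K * G * N * β := mul_le_mul_of_nonneg_left hnb (by positivity)
      _ = N / 2 * (4 * K * β * G) := by ring
      _ ≤ N / 2 * (ε * K₀) := mul_le_mul_of_nonneg_left hKb (by positivity)
      _ = _ := by ring
  have h2 : ε + 3 * M' * b₀ + ηg + n * h * (2 * ε₁) ≤ 5 / 2 * ε := by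
    have := mul_le_mul_of_nonneg_right hnb (show 0 ≤ 2 * ε₁ by positivity)
    linarith [min_le_right (1 / 2 : ℝ) (ε / 2)]
  refine le_of_mul_le_mul_left (a := (K₀ : ℝ)) ?_ hK'
  have h3 := mul_le_mul_of_nonneg_left (mul_le_mul_of_nonneg_left h2 hn'.le) hK'.le
  linarith

theorem entropy_lower (M η β p δ ε : ℝ) (hβ : 0 < β) (hp : 0 ≤ p) (hp1 : p < 1) (hε : 0 < ε) :
    ∃ N0 : ℕ, ∀ N ≥ N0, ∀ l : Fin N → ℝ, Tame M η β l →
      (∀ r, 0 ≤ r → r * p / 2 - cubeInfo r + δ ≤ KN l β p) → (δ - ε) * N ≤ Fe β l 0 := by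
  have hpI : p ∈ Icc (0 : ℝ) 1 := ⟨hp, hp1.le⟩
  set M' := max M 0
  have hM' : 0 ≤ M' := le_max_right _ _
  set b₀ := min (β / 2) (ε / (12 * M' + 12)) with hb₀def
  have hb₀ : 0 < b₀ := lt_min (by linarith) (by positivity)
  have hb₀β : b₀ ≤ β := (min_le_left _ _).trans (by linarith)
  have hb₀ε : 2 * M' * b₀ ≤ ε / 6 := by
    have := (le_div_iff₀ (by positivity)).1 (min_le_right (β / 2) (ε / (12 * M' + 12)))
    rw [← hb₀def] at this
    nlinarith
  obtain ⟨L, hL0, hL⟩ := scalar_bounds M η β b₀ hb₀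
  set ε₁ := ε / (12 * β + 12) with hε₁def
  have hε₁ : 0 < ε₁ := by positivity
  have hε₁β : β * (2 * ε₁) ≤ ε / 6 := by
    rw [hε₁def, show β * (2 * (ε / (12 * β + 12))) = ε * (2 * β) / (12 * β + 12) by ring,
      div_le_iff₀ (by positivity)]
    nlinarith
  set ηg := min (1 / 2) (ε / 6) with hηdef
  have hηg : 0 < ηg := lt_min (by norm_num) (by linarith)
  set R := 2 * ηg + 2 * L * β
  obtain ⟨K, hK, hset⟩ := exists_setup M η β R ε₁ L hb₀ hε₁ hL
  set G := 4 / Real.sqrt ηg + 3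
  have hG : 0 < G := by positivity
  set Y := β * (2 * K * G + L)
  have hY : 0 ≤ Y := by positivity
  set K₀ := ⌈6 * Y / ε⌉₊ + 1 with hK₀def
  have hK₀ : 0 < K₀ := Nat.succ_pos _
  have hK' : (0 : ℝ) < K₀ := by exact_mod_cast hK₀
  have hKb : 6 * Y ≤ ε * K₀ := by
    have := Nat.le_ceil (6 * Y / ε)
    rw [div_le_iff₀ hε] at this
    rw [hK₀def]
    push_cast
    linarith
  set δg := ηg / (2 * (K₀ : ℝ)) with hδdef
  have hδ : 0 < δg := by positivity
  have hδη : δg ≤ ηg := by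
    rw [hδdef, div_le_iff₀ (by positivity)]
    nlinarith [show (1 : ℝ) ≤ K₀ by exact_mod_cast hK₀]
  set e' := δg / (24 * K₀) with he'def
  obtain ⟨N0, hN0, hN⟩ := hset e' (by positivity)
  refine ⟨N0, fun N hNN l T hcond => ?_⟩
  obtain ⟨S, hlarge, hdev⟩ := hN N hNN l T
  have hn' : (0 : ℝ) < N := by exact_mod_cast S.size
  set τ := min (min (1 / 2) (ε₁ / (9 * L + 9))) (δg / (2 * L + 1)) with hτdef
  have hτ : 0 < τ := lt_min (lt_min (by norm_num) (by positivity)) (by positivity)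
  have hτL : 9 * L * τ ≤ ε₁ := by
    have := (le_div_iff₀ (by positivity)).1
      ((min_le_left _ _).trans (min_le_right (1 / 2 : ℝ) (ε₁ / (9 * L + 9))) : τ ≤ _)
    nlinarith
  have hτδ : τ * (2 * L + 1) ≤ δg :=
    (le_div_iff₀ (by positivity)).1 (min_le_right _ _)
  obtain ⟨n, h, hn, hh, hnh, hτ', hhτ⟩ := mesh (M := M) (N := N) hb₀β hτ
  have hhδ : 2 * h * L ≤ δg := by
    have := mul_le_mul_of_nonneg_right hhτ (show 0 ≤ 2 * L by positivity)
    linarith
  obtain ⟨c, hc⟩ : ∃ c : ℕ → ℝ → ℝ, c = fun k _ => cq l (β - (k + 1 : ℕ) * h) p := ⟨_, rfl⟩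
  have hbI : ∀ k, k < n → β - (k + 1 : ℕ) * h ∈ Icc b₀ β := fun k hk => by
    have h1 : ((k + 1 : ℕ) : ℝ) * h ≤ n * h := mul_le_mul_of_nonneg_right (Nat.cast_le.2 hk) hh
    have h2 : (0 : ℝ) ≤ ((k + 1 : ℕ) : ℝ) * h := by positivity
    constructor <;> linarith
  have hc0 : ∀ k, k < n → 0 ≤ cq l (β - (k + 1 : ℕ) * h) p := fun k hk => by
    obtain ⟨hm, h0⟩ := cq_mono S.size T (hb₀.trans_le (hbI k hk).1) (hbI k hk).2
    exact h0.symm.trans_le (hm ⟨le_rfl, zero_le_one⟩ hpI hp)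
  obtain ⟨c', hc'⟩ : ∃ c' : ℕ → ℝ → ℝ, c' = fun k r => if k < n then c k r else 0 := ⟨_, rfl⟩
  have hcr : ∀ k r, 0 ≤ r → 0 ≤ c' k r ∧ c' k r ≤ L := fun k r _ => by
    simp only [hc']
    by_cases hk : k < n
    · simp only [if_pos hk, hc]
      obtain ⟨-, -, -, hbd⟩ := S.bound _ (hbI k hk) _ (hbI k hk) p hpI p hpI
      exact ⟨hc0 k hk, (le_abs_self _).trans hbd⟩
    · simp only [if_neg hk]; exact ⟨le_rfl, hL0⟩
  have hcm : ∀ k r r', 0 ≤ r → r ≤ r' → c' k r ≤ c' k r' := fun k r r' _ _ => by simp [hc', hc]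
  have heq : ∀ k, k ≤ n → ∀ e, upPath h c k e = upPath h c' k e := by
    intro k
    induction k with
    | zero => intro _ e; rfl
    | succ k ih =>
      intro hk e
      simp only [upPath, ih (by omega) e]
      simp only [hc', if_pos (show k < n by omega)]
  set e := fun j : ℕ => ηg + j * (2 * δg)
  have he0 : ∀ j, ηg ≤ e j := fun j => le_add_of_nonneg_right (by positivity)
  have he2 : ∀ j, j < K₀ → e j ≤ 2 * ηg := fun j hj => by
    have h1 : (j : ℝ) * (2 * δg) ≤ ηg := by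
      rw [hδdef, show (j : ℝ) * (2 * (ηg / (2 * K₀))) = j / K₀ * ηg by field_simp]
      exact mul_le_of_le_one_left hηg.le ((div_le_one hK').2 (Nat.cast_le.2 hj.le))
    simp only [e]; linarith
  have hfacts := fun k j => upPath_facts hh hcr hcm k (hηg.le.trans (he0 j))
  have hnb : (n : ℝ) * h ≤ β := by linarith
  have hR' : ∀ k, k ≤ n → ∀ j, j < K₀ → upPath h c k (e j) ∈ Icc (e j) R := fun k hk j hj => by
    rw [heq k hk]
    exact path_range hh hL0 hcr hcm hnb le_rfl hk (hηg.le.trans (he0 j)) (he2 j hj)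
  have hnb : (n : ℝ) * h ≤ β := by linarith
  set E := fun (k j : ℕ) => 2 * K * vr (β - (k + 1 : ℕ) * h) l (upPath h c k (e j))
    + L * (qv (β - (k + 1 : ℕ) * h) l (upPath h c k (e j) + δg)
        - qv (β - (k + 1 : ℕ) * h) l (upPath h c k (e j) - δg))
  have hmain : ∀ j, j < K₀ → N * (δ - ε / 2) - N * h * ∑ k ∈ Finset.range n, E k j ≤ Fe β l 0 := by
    intro j hj
    have hej : 0 ≤ e j := hηg.le.trans (he0 j)
    have hkey := path_lower (δ₀ := δ) hb₀ hK S hh hnh hτ'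
      ((min_le_left _ _).trans (min_le_left _ _)) hhδ (hδη.trans (he0 j)) hpI hc hc0
      (fun k hk => hR' k hk j hj) hcond
    have h0 := (Fe_slope S.size β l le_rfl hej).2
    have hq := mul_le_mul_of_nonneg_left (qv_le_one S.size β l hej) (mul_nonneg hn'.le hej)
    have h1 : L * (h + 4 * τ) ≤ ε₁ := by
      have := mul_le_mul_of_nonneg_left (show h + 4 * τ ≤ 9 * τ by linarith) hL0
      linarith
    have h2 : 2 * M * b₀ ≤ 2 * M' * b₀ := by gcongr; exact le_max_left _ _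
    have h3 := mul_le_mul_of_nonneg_left h1 (show 0 ≤ (n : ℝ) * h by positivity)
    have h5 := mul_le_mul_of_nonneg_right hnb (show 0 ≤ 2 * ε₁ by positivity)
    have h4 := mul_le_mul_of_nonneg_left (show δ - ε / 2 + e j / 2
      ≤ δ - 2 * M * b₀ - n * h * (ε₁ + L * (h + 4 * τ)) by
        linarith [he2 j hj, min_le_right (1 / 2 : ℝ) (ε / 6)]) hn'.le
    simp only [E]
    linarith
  have hgrid : ∀ k, k < n → ∑ j ∈ Finset.range K₀, E k j ≤ 2 * K * G + L := by
    intro k hk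
    have hsep : ∀ j, upPath h c k (e j) + 2 * δg ≤ upPath h c k (e (j + 1)) := fun j => by
      rw [heq k hk.le, heq k hk.le]
      have h1 : e (j + 1) - e j = 2 * δg := by simp only [e]; push_cast; ring
      have := (hfacts k j).2.2 (e (j + 1)) (by linarith)
      linarith
    have hx0 : ηg ≤ upPath h c k (e 0) := by rw [heq k hk.le]; exact (he0 0).trans (hfacts k 0).1
    have hg := grid_le (β := β - (k + 1 : ℕ) * h) (l := l) S.size hηg hK₀
      (x := fun j => upPath h c k (e j)) (R := R) hx0 hsep (fun j hj => (hR' k hk.le j hj).2)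
      hlarge fun s hs => hdev _ (hbI k hk) s ⟨hs.1, hs.2.trans (by linarith [min_le_left (1 / 2 : ℝ) (ε / 6)])⟩
    have ht := Vale.Agent.P157.Plant.telescope (q := qv (β - (k + 1 : ℕ) * h) l)
      (fun x y a b => qv_mono S.size _ l a b) (fun x _ => qv_nonneg S.size _ l x)
      (fun x a => qv_le_one S.size _ l a) hδ.le (x := fun j => upPath h c k (e j))
      (hδη.trans hx0) hsep K₀
    simp only [E, Finset.sum_add_distrib, ← Finset.mul_sum]
    exact add_le_add (mul_le_mul_of_nonneg_left hg (by positivity)) (mul_le_of_le_one_right hL0 ht)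
  have hsum : (K₀ : ℝ) * (N * (δ - ε / 2)) - N * h * (n * (2 * K * G + L)) ≤ K₀ * Fe β l 0 := by
    calc (K₀ : ℝ) * (N * (δ - ε / 2)) - N * h * (n * (2 * K * G + L))
        ≤ ∑ j ∈ Finset.range K₀, (N * (δ - ε / 2) - N * h * ∑ k ∈ Finset.range n, E k j) := by
          rw [Finset.sum_sub_distrib, Finset.sum_const, Finset.card_range, nsmul_eq_mul, ← Finset.mul_sum,
            Finset.sum_comm]
          refine sub_le_sub_left (mul_le_mul_of_nonneg_left ?_ (by positivity)) _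
          refine (Finset.sum_le_sum fun k hk => hgrid k (Finset.mem_range.1 hk)).trans (le_of_eq ?_)
          simp [mul_add]
      _ ≤ ∑ _j ∈ Finset.range K₀, Fe β l 0 := Finset.sum_le_sum fun j hj => hmain j (Finset.mem_range.1 hj)
      _ = _ := by simp
  refine le_of_mul_le_mul_left (a := (K₀ : ℝ)) ?_ hK'
  have h1 : N * h * (n * (2 * K * G + L)) ≤ K₀ * (ε / 6 * N) := by
    calc N * h * (n * (2 * K * G + L)) = N * (2 * K * G + L) * (n * h) := by ring
      _ ≤ N * (2 * K * G + L) * β := mul_le_mul_of_nonneg_left hnb (by positivity)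
      _ = N / 6 * (6 * Y) := by simp only [Y]; ring
      _ ≤ N / 6 * (ε * K₀) := mul_le_mul_of_nonneg_left hKb (by positivity)
      _ = _ := by ring
  have h2 : (K₀ : ℝ) * ((δ - ε) * N) + K₀ * (ε / 2 * N) = K₀ * (N * (δ - ε / 2)) := by ring
  have h3 : 0 ≤ (K₀ : ℝ) * (ε * N) := by positivity
  linarith


end

end Vale.Agent.P166.Plant
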