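import Vale.Agent.P166.Plant.Paths
import Vale.Agent.P166.Plant.Mono
import Vale.Agent.P166.High.Main

/-!
The pressure equals the annealed exponent to first order exactly when the planted entropy
vanishes to first order.
-/

open MeasureTheory ProbabilityTheory Filter Topology Set
open Vale.Agent.P157.Plant (Cfg ones ent cubeInfo)

namespace Vale.Agent.P166.Plant

noncomputable section

variable {N : ℕ}

/-- The log-likelihood ratio of the couplings. -/
def logL (b : ℝ) (l : Fin N → ℝ) (U : OMat N) : ℝ := N * pressure b l U - Real.log (zbar b l)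

lemma continuous_logL (b : ℝ) (l : Fin N → ℝ) : Continuous fun U => logL b l U :=
  (continuous_const.mul (P166.continuous_pressure b l)).sub continuous_const

lemma exp_logL (hN : 0 < N) (b : ℝ) (l : Fin N → ℝ) (U : OMat N) (z : Fin N → ℝ) :
    Real.exp (logL b l U) = lik b l 0 (U, z) := by
  have hN' : (N : ℝ) ≠ 0 := by exact_mod_cast hN.ne'
  have h1 : 0 < (∑ s, P166.wt b l U s) / 2 ^ N := div_pos (sum_wt_pos b l U) (by positivity)
  rw [logL, pressure_eq, mul_div_cancel₀ _ hN', ← Real.log_div h1.ne' (zbar_pos b l).ne',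
    Real.exp_log (div_pos h1 (zbar_pos b l))]
  simp only [lik, pwt, base, Real.sqrt_zero, zero_mul, sub_self, zero_div, Real.exp_zero, mul_one]
  rw [← Finset.sum_div, inv_pow, ← div_eq_inv_mul]
  ring

lemma integral_exp_logL (hN : 0 < N) (b : ℝ) (l : Fin N → ℝ) :
    ∫ U, Real.exp (logL b l U) ∂haarO N = 1 := by
  have h := integral_lik b l (r := 0) le_rfl
  rw [nullM] at h
  simp only [← exp_logL hN] at h
  rwa [integral_fun_fst (fun U : OMat N => Real.exp (logL b l U)), probReal_univ, one_smul] at h

lemma Fe_zero_r (hN : 0 < N) (b : ℝ) (l : Fin N → ℝ) :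
    Fe b l 0 = ∫ U, Real.exp (logL b l U) * logL b l U ∂haarO N := by
  have e : ∀ d : Dat N, ent (lik b l 0 d) = Real.exp (logL b l d.1) * logL b l d.1 := fun d => by
    rw [ent, ← exp_logL hN b l d.1 d.2, Real.log_exp]
  simp only [Fe, e, nullM]
  rw [integral_fun_fst (fun U : OMat N => Real.exp (logL b l U) * logL b l U), probReal_univ, one_smul]

lemma logL_sign (hN : 0 < N) (b : ℝ) (l : Fin N → ℝ) (U : OMat N) (s : Cfg N) :
    logL b l (U * High.signO s) = logL b l U := by
  have h := lik_act b l 0 s (U, fun _ => 0)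
  have e : actD s (U, fun _ => (0 : ℝ)) = (U * High.signO s, fun _ => 0) := by
    simp [actD]
  rw [e, ← exp_logL hN, ← exp_logL hN] at h
  exact Real.exp_injective h

/-- The planted probability of an event in the log-likelihood. -/
lemma planted_logL (hN : 0 < N) (b : ℝ) (l : Fin N → ℝ) {S : Set ℝ} (hS : MeasurableSet S) :
    ∫ U in {U : OMat N | logL b l U ∈ S}, base b l U (ones N) ∂haarO N
      = ∫ U in {U : OMat N | logL b l U ∈ S}, Real.exp (logL b l U) ∂haarO N := by
  have hm : MeasurableSet {U : OMat N | logL b l U ∈ S} := (continuous_logL b l).measurable hS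
  have hmL : Measurable fun d : Dat N => logL b l d.1 := (continuous_logL b l).measurable.comp measurable_fst
  have h := planted_eq' b l 0 (F := fun d => S.indicator (fun _ => (1 : ℝ)) (logL b l d.1))
    (Gd.of_bdd ((measurable_const.indicator hS).comp hmL) (B := 1) fun d => by
      by_cases hd : logL b l d.1 ∈ S <;> simp [hd])
    (fun s d => by simp only [actD, logL_sign hN])
  simp only [pwt, Real.sqrt_zero, zero_mul, sub_self, zero_div, Real.exp_zero, mul_one,
    ← exp_logL hN, nullM] at h
  rw [integral_fun_fst (fun U : OMat N => base b l U (ones N) * S.indicator (fun _ => (1 : ℝ)) (logL b l U)),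
    integral_fun_fst (fun U : OMat N => Real.exp (logL b l U) * S.indicator (fun _ => (1 : ℝ)) (logL b l U)),
    probReal_univ, one_smul, one_smul] at h
  rw [← integral_indicator hm, ← integral_indicator hm]
  convert h using 1 <;>
    exact integral_congr_ae (ae_of_all _ fun U => by
      by_cases hU : logL b l U ∈ S <;> simp [hU])

/-- Values far above zero are exponentially unlikely. -/
lemma logL_markov (hN : 0 < N) (b : ℝ) (l : Fin N → ℝ) (t : ℝ) :
    (haarO N).real {U | t ≤ logL b l U} ≤ Real.exp (-t) := by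
  have hi := P166.integrable_of_continuous (continuous_logL b l).rexp
  have h := mul_meas_ge_le_integral_of_nonneg (ae_of_all _ fun U => (Real.exp_pos _).le) hi (Real.exp t)
  rw [integral_exp_logL hN] at h
  simp only [Real.exp_le_exp] at h
  rw [Real.exp_neg, ← one_div, le_div_iff₀ (Real.exp_pos t), mul_comm]
  exact h

lemma mean_logL_nonpos (hN : 0 < N) (b : ℝ) (l : Fin N → ℝ) : ∫ U, logL b l U ∂haarO N ≤ 0 := by
  have hi := P166.integrable_of_continuous (continuous_logL b l).rexp
  refine (integral_mono (P166.integrable_of_continuous (continuous_logL b l)) (hi.sub (integrable_const 1))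
    fun U => ?_).trans (le_of_eq ?_)
  · show logL b l U ≤ Real.exp (logL b l U) - 1
    linarith [Real.add_one_le_exp (logL b l U)]
  · rw [Pi.sub_def, integral_sub hi (integrable_const 1), integral_exp_logL hN]
    simp

lemma mean_pressure_le (hN : 0 < N) (b : ℝ) (l : Fin N → ℝ) :
    ∫ U, pressure b l U ∂haarO N ≤ Real.log (zbar b l) / N := by
  have h := mean_logL_nonpos hN b l
  simp only [logL] at h
  rw [integral_sub ((P166.integrable_of_continuous (P166.continuous_pressure b l)).const_mul _)
    (integrable_const _), integral_const_mul, integral_const, probReal_univ, one_smul] at h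
  rw [le_div_iff₀ (Nat.cast_pos.2 hN)]
  linarith

lemma exp_mul_ge (x : ℝ) : -1 ≤ Real.exp x * x := by
  have h2 := mul_le_mul_of_nonneg_left (Real.add_one_le_exp (-x)) (Real.exp_pos x).le
  rw [← Real.exp_add, add_neg_cancel, Real.exp_zero, mul_add, mul_neg, mul_one] at h2
  linarith [Real.exp_pos x]

/-- A small entropy keeps the log-likelihood near zero with probability not exponentially small. -/
lemma near_zero (hN : 0 < N) {b ε : ℝ} {l : Fin N → ℝ} (hε : 0 < ε) (hF : Fe b l 0 ≤ ε * N)
    (hlarge : 8 ≤ ε * N) :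
    1 / 4 * Real.exp (-(4 * ε * N)) ≤ (haarO N).real {U | -(ε * N) ≤ logL b l U} := by
  set g := fun U : OMat N => logL b l U
  have hg : Continuous g := continuous_logL b l
  have hi := P166.integrable_of_continuous (hg.rexp)
  set A := {U : OMat N | 4 * ε * N < g U}
  set B := {U : OMat N | g U < -(ε * N)}
  set C := {U : OMat N | -(ε * N) ≤ g U}
  have hA : MeasurableSet A := measurableSet_lt measurable_const hg.measurable
  have hB : MeasurableSet B := measurableSet_lt hg.measurable measurable_const
  have hC : MeasurableSet C := measurableSet_le measurable_const hg.measurable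
  have hge : Integrable (fun U => Real.exp (g U) * g U) (haarO N) :=
    P166.integrable_of_continuous (hg.rexp.mul hg)
  have hgi : Integrable (fun U => Real.exp (g U) * g U + 1) (haarO N) := hge.add (integrable_const _)
  have hFA : 4 * ε * N * ∫ U in A, Real.exp (g U) ∂haarO N ≤ ε * N + 1 := by
    rw [← integral_const_mul]
    calc ∫ U in A, 4 * ε * N * Real.exp (g U) ∂haarO N
        ≤ ∫ U in A, (Real.exp (g U) * g U + 1) ∂haarO N :=
          setIntegral_mono_on (hi.const_mul _).integrableOn hgi.integrableOn hA fun U hU => by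
            have := mul_le_mul_of_nonneg_left (le_of_lt (show 4 * ε * N < g U from hU)) (Real.exp_pos (g U)).le
            linarith
      _ ≤ ∫ U, (Real.exp (g U) * g U + 1) ∂haarO N :=
          setIntegral_le_integral hgi (ae_of_all _ fun U => by
            show (0 : ℝ) ≤ Real.exp (g U) * g U + 1
            linarith [exp_mul_ge (g U)])
      _ ≤ _ := by
          rw [integral_add hge (integrable_const _), ← Fe_zero_r hN]
          simpa using hF
  have hBb : ∫ U in B, Real.exp (g U) ∂haarO N ≤ 1 / 8 := by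
    calc ∫ U in B, Real.exp (g U) ∂haarO N ≤ ∫ _U in B, Real.exp (-(ε * N)) ∂haarO N :=
          setIntegral_mono_on hi.integrableOn (integrable_const _).integrableOn hB fun U hU =>
            Real.exp_le_exp.2 (le_of_lt hU)
      _ ≤ Real.exp (-(ε * N)) := by
          rw [setIntegral_const, smul_eq_mul]
          exact mul_le_of_le_one_left (Real.exp_pos _).le measureReal_le_one
      _ ≤ 1 / 8 := by
          rw [Real.exp_neg, one_div]
          exact inv_anti₀ (by norm_num) (by linarith [Real.add_one_le_exp (ε * N)])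
  set E := Real.exp (4 * ε * N)
  have iA := hi.indicator hA
  have iB := hi.indicator hB
  have iC : Integrable (fun U => E * C.indicator (1 : OMat N → ℝ) U) (haarO N) :=
    ((integrable_const (1 : ℝ)).indicator hC).const_mul E
  have hsplit : 1 ≤ (∫ U in A, Real.exp (g U) ∂haarO N) + (∫ U in B, Real.exp (g U) ∂haarO N)
      + E * (haarO N).real C := by
    have h1 : (∫ U in A, Real.exp (g U) ∂haarO N) + (∫ U in B, Real.exp (g U) ∂haarO N)
        + E * (haarO N).real C
        = ∫ U, (A.indicator (fun U => Real.exp (g U)) U + B.indicator (fun U => Real.exp (g U)) U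
            + E * C.indicator (1 : OMat N → ℝ) U) ∂haarO N := by
      rw [integral_add (iA.fun_add iB) iC, integral_add iA iB, integral_const_mul,
        integral_indicator hA, integral_indicator hB, integral_indicator_one hC]
    rw [h1, ← integral_exp_logL hN b l]
    refine integral_mono hi ((iA.fun_add iB).fun_add iC) fun U => ?_
    show Real.exp (g U) ≤ _
    have h0 := (Real.exp_pos (g U)).le
    have h0' : 0 ≤ C.indicator (1 : OMat N → ℝ) U := Set.indicator_nonneg (fun _ _ => zero_le_one) U
    by_cases hUA : U ∈ A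
    · rw [Set.indicator_of_mem hUA]
      have := Set.indicator_nonneg (s := B) (f := fun U => Real.exp (g U)) (fun _ _ => (Real.exp_pos _).le) U
      nlinarith [Real.exp_pos (4 * ε * N)]
    · by_cases hUB : U ∈ B
      · rw [Set.indicator_of_notMem hUA, Set.indicator_of_mem hUB]
        nlinarith [Real.exp_pos (4 * ε * N)]
      · rw [Set.indicator_of_notMem hUA, Set.indicator_of_notMem hUB,
          Set.indicator_of_mem (show U ∈ C from (not_lt.1 hUB : -(ε * N) ≤ g U)), Pi.one_apply, mul_one, zero_add, zero_add]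
        exact Real.exp_le_exp.2 (not_lt.1 hUA : g U ≤ 4 * ε * N)
  have hA' : ∫ U in A, Real.exp (g U) ∂haarO N ≤ 1 / 2 := by nlinarith
  rw [Real.exp_neg, ← div_eq_mul_inv, div_le_iff₀ (Real.exp_pos _)]
  change 1 / 4 ≤ (haarO N).real C * E
  linarith

/-- Values above the mean are exponentially unlikely, for signed eigenvalues. -/
lemma upper_tail (β M θ : ℝ) (hβ : 0 ≤ β) (hθ : 0 < θ) :
    ∃ c > 0, ∀ N : ℕ, 0 < N → ∀ l : Fin N → ℝ, (∀ i, |l i| ≤ M) → ∀ S : ℝ,
      ∫ U, pressure β l U ∂haarO N + 3 * θ ≤ S →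
        (haarO N).real {U | S ≤ pressure β l U} ≤ 2 * Real.exp (-(c * N)) := by
  obtain ⟨c, hc, h⟩ := High.upper_core hβ (2 * |M|) θ (by positivity) hθ
  refine ⟨c, hc, fun N hN l hl S hS => ?_⟩
  have hl0 : ∀ i, 0 ≤ l i + |M| ∧ l i + |M| ≤ 2 * |M| := fun i => by
    have h2 := abs_le.1 (hl i)
    have h3 := le_abs_self M
    exact ⟨by linarith [h2.1], by linarith [h2.2]⟩
  have h' := h N hN (fun i => l i + |M|) hl0 (S + β * |M| / 2) (by
    rw [High.integral_shift β |M| hN l]; linarith)
  simpa only [High.pressure_shift β |M| hN l, add_le_add_iff_right] using h'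

section limit

variable {μ : Measure ℝ} {a b : ℝ} {l : (N : ℕ) → Fin N → ℝ}

lemma zbar_limit (A : Admissible μ a b l) {z β : ℝ} (hz : b < z) (hG : stieltjes μ z = β) :
    Tendsto (fun N => Real.log (zbar β (l N)) / N) atTop (𝓝 (annealed μ b β)) := by
  obtain ⟨M, η, -, -, hT⟩ := tame_eventually A hz
  have hβ : 0 < β := hG ▸ High.pot_stieltjes_pos A hz
  rw [hG] at hT
  rw [Metric.tendsto_atTop]
  intro ε hε
  obtain ⟨N1, h1⟩ := log_zbar_near M η β β (ε / 2) hβ (half_pos hε)
  obtain ⟨N2, h2⟩ := eventually_atTop.1 hT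
  obtain ⟨N3, h3⟩ := Metric.tendsto_atTop.1 (tendsto_phiN A hz hG) (ε / 2) (half_pos hε)
  refine ⟨max N1 (max N2 N3), fun N hN => ?_⟩
  have a1 := abs_le.1 (h1 N (by omega) (l N) (h2 N (by omega)) β ⟨le_rfl, le_rfl⟩)
  have a2 := h3 N (by omega)
  rw [Real.dist_eq, abs_lt] at a2 ⊢
  constructor <;> linarith [a1.1, a1.2, a2.1, a2.2]

/-- The criterion passes to the finite size functions, uniformly in the overlap. -/
lemma KN_uniform (A : Admissible μ a b l) {z β ε : ℝ} (hz : b < z) (hG : stieltjes μ z = β)
    (hcond : ∀ q, 0 ≤ q → q < 1 → ∃ r, 0 ≤ r ∧ entK μ b z q ≤ r * q / 2 - cubeInfo r) (hε : 0 < ε) :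
    ∀ᶠ N in atTop, ∀ p, 0 ≤ p → p < 1 →
      ∃ r, 0 ≤ r ∧ KN (l N) β p ≤ r * p / 2 - cubeInfo r + ε := by
  obtain ⟨M, η, hM, hη, hT⟩ := tame_eventually A hz
  have hβ : 0 < β := hG ▸ High.pot_stieltjes_pos A hz
  rw [hG] at hT
  obtain ⟨n, hn⟩ := exists_nat_gt (4 * M * β / ε)
  set m := n + 1
  have hm : (0 : ℝ) < m := by positivity
  have hev : ∀ᶠ N in atTop, ∀ j ∈ Finset.range m, KN (l N) β (j / m) ≤ entK μ b z (j / m) + ε / 2 := by
    refine (eventually_all_finset _).2 fun j hj => ?_
    have hj1 : (j : ℝ) / m < 1 := (div_lt_one hm).2 (Nat.cast_lt.2 (Finset.mem_range.1 hj))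
    exact (tendsto_KN A hz hG (by positivity) hj1).eventually_le_const (by linarith)
  filter_upwards [hev, hT, eventually_gt_atTop 0] with N hN T hN0 p hp hp1
  set j := ⌊p * m⌋₊
  have hj : j ∈ Finset.range m := Finset.mem_range.2 (Nat.floor_lt' (by omega) |>.2 (by
    calc p * m < 1 * m := mul_lt_mul_of_pos_right hp1 hm
      _ = _ := one_mul _))
  have hjp : (j : ℝ) / m ≤ p := (div_le_iff₀ hm).2 (Nat.floor_le (by positivity))
  have hjp' : p - (j : ℝ) / m ≤ 1 / m := by
    rw [sub_le_iff_le_add, ← add_div, le_div_iff₀ hm]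
    linarith [Nat.lt_floor_add_one (p * m)]
  obtain ⟨r, hr, hcr⟩ := hcond (j / m) (by positivity) (lt_of_le_of_lt hjp hp1)
  refine ⟨r, hr, ?_⟩
  have h1 := (abs_le.1 (abs_KN_sub_le hN0 T hβ le_rfl ⟨hp, hp1.le⟩
    ⟨by positivity, hjp.trans hp1.le⟩)).2
  rw [abs_of_nonneg (show 0 ≤ p - (j : ℝ) / m by linarith)] at h1
  have h2 : 2 * M * β * (p - (j : ℝ) / m) ≤ ε / 2 := by
    refine (mul_le_mul_of_nonneg_left hjp' (by positivity)).trans ?_
    rw [div_lt_iff₀ hε] at hn
    rw [mul_one_div, div_le_iff₀ hm]
    simp only [m]; push_cast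
    linarith
  have h3 := mul_le_mul_of_nonneg_left hjp hr
  linarith [hN j hj]

/-- Closeness of the mean turns into convergence in mean. -/
lemma converges_of_mean (A : Admissible μ a b l) {β c : ℝ} (hβ : 0 ≤ β)
    (h : Tendsto (fun N => ∫ U, pressure β (l N) U ∂haarO N) atTop (𝓝 c)) : ConvergesTo β l c := by
  rw [ConvergesTo]
  have h1 := High.self_averaging_limit A hβ
  have h2 : Tendsto (fun N => |(∫ U, pressure β (l N) U ∂haarO N) - c|) atTop (𝓝 0) := by
    simpa using (h.sub_const c).abs
  refine squeeze_zero (fun N => integral_nonneg fun U => abs_nonneg _) (fun N => ?_) (by simpa using h1.add h2)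
  set E := ∫ U, pressure β (l N) U ∂haarO N
  have hi := P166.integrable_of_continuous (P166.continuous_pressure β (l N))
  refine (integral_mono (hi.sub (integrable_const c)).abs
    (((hi.sub (integrable_const E)).abs).add (integrable_const |E - c|)) fun U => ?_).trans (le_of_eq ?_)
  · exact abs_sub_le _ _ _
  · rw [integral_add' ((hi.sub (integrable_const E)).abs) (integrable_const |E - c|)]
    simp

/-- A gap of the mean turns into a gap in probability. -/
lemma gap_of_mean (A : Admissible μ a b l) {β c δ : ℝ} (hβ : 0 ≤ β) (hδ : 0 < δ)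
    (h : ∀ᶠ N in atTop, ∫ U, pressure β (l N) U ∂haarO N ≤ c - 2 * δ) :
    Tendsto (fun N : ℕ => (haarO N).real {U | c - δ ≤ pressure β (l N) U}) atTop (𝓝 0) := by
  have h1 := (High.self_averaging_limit A hβ).div_const δ
  rw [zero_div] at h1
  refine squeeze_zero' (Eventually.of_forall fun N => measureReal_nonneg) ?_ h1
  filter_upwards [h] with N hN
  set E := ∫ U, pressure β (l N) U ∂haarO N
  have hi := P166.integrable_of_continuous (P166.continuous_pressure β (l N))
  have hm := mul_meas_ge_le_integral_of_nonneg (ae_of_all _ fun U => abs_nonneg (pressure β (l N) U - E))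
    ((hi.sub (integrable_const E)).abs) δ
  rw [le_div_iff₀ hδ, mul_comm]
  refine le_trans (mul_le_mul_of_nonneg_left (measureReal_mono fun U hU => ?_) hδ.le) hm
  simp only [Set.mem_ofPred_eq] at hU ⊢
  exact le_trans (by linarith) (le_abs_self _)

/-- The criterion at one point gives the annealed value there. -/
theorem converges_at (A : Admissible μ a b l) {z β : ℝ} (hz : b < z) (hG : stieltjes μ z = β)
    (hcond : ∀ q, 0 ≤ q → q < 1 → ∃ r, 0 ≤ r ∧ entK μ b z q ≤ r * q / 2 - cubeInfo r) :
    Tendsto (fun N => ∫ U, pressure β (l N) U ∂haarO N) atTop (𝓝 (annealed μ b β)) := by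
  obtain ⟨M, η, hM, hη, hT⟩ := tame_eventually A hz
  have hβ : 0 < β := hG ▸ High.pot_stieltjes_pos A hz
  rw [hG] at hT
  have hlim := zbar_limit A hz hG
  rw [Metric.tendsto_atTop]
  intro e he
  set θ := e / 8
  obtain ⟨c, hc, hup⟩ := upper_tail β M θ hβ.le (by positivity)
  set ε := min (c / 10) (e / 8) with hεdef
  have hε : 0 < ε := lt_min (by positivity) (by positivity)
  set ε' := ε / 3
  obtain ⟨N0, hN0⟩ := entropy_upper M η β ε' hβ (by positivity)
  -- the criterion at finite size
  have hcondN : ∀ᶠ N in atTop, ∀ p, 0 ≤ p → p < 1 →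
      ∃ r, 0 ≤ r ∧ KN (l N) β p ≤ r * p / 2 - cubeInfo r + ε' := KN_uniform A hz hG hcond (by positivity)
  obtain ⟨N1, hN1⟩ := eventually_atTop.1 (hT.and hcondN)
  obtain ⟨N2, hN2⟩ := Metric.tendsto_atTop.1 hlim (e / 8) (by positivity)
  have hε8 : Tendsto (fun N : ℕ => ε * N) atTop atTop :=
    tendsto_natCast_atTop_atTop.const_mul_atTop hε
  obtain ⟨N3, hN3⟩ := eventually_atTop.1 (hε8.eventually_ge_atTop 16)
  refine ⟨max (max N0 N1) (max N2 (N3 + 1)), fun N hN => ?_⟩
  have hN' : 0 < N := by omega
  have hn : (0 : ℝ) < N := Nat.cast_pos.2 hN'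
  obtain ⟨T, hp⟩ := hN1 N (by omega)
  have hF : Fe β (l N) 0 ≤ ε * N := (hN0 N (by omega) (l N) T hp).trans_eq (by simp only [ε']; ring)
  have hsmall := near_zero hN' hε hF (by linarith [hN3 N (by omega)])
  have hlb := hN2 N (by omega)
  rw [Real.dist_eq, abs_lt] at hlb ⊢
  set s := Real.log (zbar β (l N)) / N with hs
  set E := ∫ U, pressure β (l N) U ∂haarO N
  have hub : E ≤ s := mean_pressure_le hN' β (l N)
  have hsub : {U : OMat N | -(ε * N) ≤ logL β (l N) U} ⊆ {U | s - ε ≤ pressure β (l N) U} := fun U hU => by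
    simp only [Set.mem_ofPred_eq, logL] at hU ⊢
    rw [hs, sub_le_iff_le_add, div_le_iff₀ hn]
    linarith
  have hlow : s - ε ≤ E + 3 * θ := by
    by_contra hcon
    have h1 := hup N hN' (l N) T.bdd (s - ε) (not_le.1 hcon).le
    have h2 := (hsmall.trans (measureReal_mono hsub)).trans h1
    have h3 : c * N ≤ 4 * ε * N + Real.log 8 := by
      have := Real.log_le_log (by positivity) h2
      rw [Real.log_mul (by norm_num) (Real.exp_ne_zero _), Real.log_mul (by norm_num) (Real.exp_ne_zero _),
        Real.log_exp, Real.log_exp] at this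
      have e1 : Real.log 8 = Real.log 2 - Real.log (1 / 4) := by
        rw [← Real.log_div (by norm_num) (by norm_num)]; norm_num
      linarith
    have h4 : Real.log 8 ≤ 7 := by linarith [Real.log_le_sub_one_of_pos (show (0 : ℝ) < 8 by norm_num)]
    have h5 : 16 ≤ ε * N := hN3 N (by omega)
    have h6 : 10 * ε ≤ c := by linarith [min_le_left (c / 10) (e / 8)]
    have h7 := mul_le_mul_of_nonneg_right h6 hn.le
    linarith
  have hεe : ε ≤ e / 8 := min_le_right _ _
  constructor <;> simp only [θ] at hlow <;> linarith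

end limit

end

end Vale.Agent.P166.Plant
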